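import Vale.Agent.P272.K.Stmt

/-!
# P284 (helper279), block TP: potential of a periodic divisor of `ℂ^q`. Statements.

`E θ x` means: `θ` is a local equation of the divisor near `x` (reduced or not). No theta functions, no
Poisson equation: `f₁ = (log |θ|²) * ν - log |θ|²` does not depend on the local equation `θ` (mean value
property), so it is periodic; the potential is `-f₁ - S` with `S - S * ν = f₁ * ν - const` (geometric
series).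
-/

open scoped ContDiff Topology ComplexOrder
open Filter Set Metric

noncomputable section

namespace Vale.Agent.P284.H279

open Vale.Agent.P272.K

variable {q : ℕ}

/-- `E θ x`: the function `θ` is a local equation, near `x`, of a divisor of `ℂ^q` which is invariant
under the translations of `Λ`. -/
structure PerDiv (Λ : AddSubgroup (Cm q)) (E : (Cm q → ℂ) → Cm q → Prop) : Prop where
  ex : ∀ x, ∃ θ, E θ x
  ana : ∀ θ x, E θ x → AnalyticAt ℂ θ x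
  ne : ∀ θ x, E θ x → ¬ ∀ᶠ z in 𝓝 x, θ z = 0
  opn : ∀ θ x, E θ x → ∀ᶠ z in 𝓝 x, E θ z
  unit : ∀ θ θ' x, E θ x → E θ' x → ∃ u : Cm q → ℂ, AnalyticAt ℂ u x ∧ u x ≠ 0 ∧
    ∀ᶠ z in 𝓝 x, θ z = u z * θ' z
  per : ∀ θ x, E θ x → ∀ l ∈ Λ, E (fun z => θ (z - l)) (x + l)

/-- the support of the divisor -/
def zs (E : (Cm q → ℂ) → Cm q → Prop) : Set (Cm q) := {x | ∃ θ, E θ x ∧ θ x = 0}

/-- `Λ` is relatively dense -/
def Coco (Λ : AddSubgroup (Cm q)) : Prop := ∃ R : ℝ, ∀ z : Cm q, ∃ l ∈ Λ, ‖z - l‖ ≤ R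

/-- **TP1** potential: `ψ = log |θ|² + smooth`, with `i∂∂̄ψ` constant off the divisor. -/
def PotStmt : Prop :=
  ∀ (q : ℕ) (Λ : AddSubgroup (Cm q)) (E : (Cm q → ℂ) → Cm q → Prop), PerDiv Λ E → Coco Λ →
    ∃ (ψ : Cm q → ℝ) (H : Matrix (Fin q) (Fin q) ℂ), (∀ l ∈ Λ, ∀ z, ψ (z + l) = ψ z) ∧
      ∀ θ x, E θ x → ∃ g : Cm q → ℝ, (∀ᶠ z in 𝓝 x, ContDiffAt ℝ ∞ g z ∧ cHess g z = -H) ∧
        ∀ᶠ z in 𝓝 x, θ z ≠ 0 → ψ z = Real.log (‖θ z‖ ^ 2) + g z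

/-- **TP3** (for RAM): the potential is bounded above, `H ≥ 0`, and the null directions of `H` leave
the divisor invariant. -/
def Pot3Stmt : Prop :=
  ∀ (q : ℕ) (Λ : AddSubgroup (Cm q)) (E : (Cm q → ℂ) → Cm q → Prop), PerDiv Λ E → Coco Λ →
    ∃ (ψ : Cm q → ℝ) (H : Matrix (Fin q) (Fin q) ℂ) (C₀ : ℝ),
      (∀ l ∈ Λ, ∀ z, ψ (z + l) = ψ z) ∧ (∀ z ∉ zs E, ψ z ≤ C₀) ∧
      H.PosSemidef ∧
      (∀ v : Cm q, (∑ j, ∑ k, H j k * v j * (starRingEnd ℂ) (v k)) = 0 → ∀ x ∈ zs E, x + v ∈ zs E) ∧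
      ∀ θ x, E θ x → ∃ g : Cm q → ℝ, (∀ᶠ z in 𝓝 x, ContDiffAt ℝ ∞ g z ∧ cHess g z = -H) ∧
        ∀ᶠ z in 𝓝 x, θ z ≠ 0 → ψ z = Real.log (‖θ z‖ ^ 2) + g z

end Vale.Agent.P284.H279
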