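import Vale.Agent.P284.H279.TPd

/-!
# P284 (helper279), TP1: `PotStmt` and `Pot3Stmt`
-/

open scoped ContDiff Topology
open Filter Set Metric MeasureTheory

set_option linter.unusedSectionVars false

noncomputable section

namespace Vale.Agent.P284.H279

open Vale.Agent.P272.K Vale.Agent.P284.H359.Moll Vale.Agent.P284.H15.TP3

variable {q : ℕ} {Λ : AddSubgroup (Cm q)} {E : (Cm q → ℂ) → Cm q → Prop}
  {r : ℝ} {ν : Cm q → ℝ} {ϑ : Cm q → Cm q → ℂ}

theorem dz_shift (j : Fin q) (f : Cm q → ℂ) (l z : Cm q) :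
    dz j (fun y => f (y + l)) z = dz j f (z + l) := by
  simp only [dz]
  rw [fderiv_comp_add_right]

theorem dzb_shift (j : Fin q) (f : Cm q → ℂ) (l z : Cm q) :
    dzb j (fun y => f (y + l)) z = dzb j f (z + l) := by
  simp only [dzb]
  rw [fderiv_comp_add_right]

theorem cHess_shift (g : Cm q → ℝ) (l z : Cm q) :
    cHess (fun y => g (y + l)) z = cHess g (z + l) := by
  ext j k
  change dz j (dzb k fun y => ((g (y + l) : ℝ) : ℂ)) z = dz j (dzb k fun y => (g y : ℂ)) (z + l)
  have : (dzb k fun y => ((g (y + l) : ℝ) : ℂ)) = fun y => dzb k (fun y => (g y : ℂ)) (y + l) := by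
    funext y; exact dzb_shift k (fun y => (g y : ℂ)) l y
  rw [this, dz_shift]

theorem cHess_add_pp {f : Cm q → ℝ} {u : Cm q → ℂ} {z : Cm q} (hf : ContDiffAt ℝ ∞ f z)
    (hu : AnalyticAt ℂ u z) (h0 : u z ≠ 0) : cHess (fun y => f y + pp u y) z = cHess f z := by
  have h1 := contDiffAt_log hu h0
  have h2 : cHess (pp u) z = 0 := cHess_log_norm_sq hu.contDiffAt h0
  rw [cHess_add (hf.of_le (by norm_cast)) (g := pp u) (h1.of_le (by norm_cast)), h2, add_zero]

/-- a fixed point of the average is constant -/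
theorem fixed_const (h : Ker r ν) (hr : 0 < r) (hΛ : Coco Λ) {g : Cm q → ℝ} (hg : Continuous g)
    (hper : ∀ l ∈ Λ, ∀ z, g (z + l) = g z) (hfix : ∀ z, mo ν g z = g z) :
    ∀ z, g z = g 0 := by
  obtain ⟨m, C, ρ, hC, hρ0, hρ1, hb⟩ := it_lim h hr hΛ hg hper
  have hit : ∀ j : ℕ, (mo ν)^[j] g = g := by
    intro j
    induction j with
    | zero => rfl
    | succ j ih => rw [Function.iterate_succ_apply', ih]; funext z; exact hfix z
  have key : ∀ z, g z = m := by
    intro z
    have h1 : ∀ j : ℕ, |g z - m| ≤ C * ρ ^ j := fun j => by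
      have := hb j z
      rwa [hit j] at this
    have h2 : Tendsto (fun j : ℕ => C * ρ ^ j) atTop (𝓝 0) := by
      simpa using (tendsto_pow_atTop_nhds_zero_of_lt_one hρ0.le hρ1).const_mul C
    have h3 : |g z - m| ≤ 0 := ge_of_tendsto' h2 h1
    have h4 := abs_nonpos_iff.1 h3
    linarith
  intro z
  rw [key z, key 0]

theorem potStmt : PotStmt := by
  intro q Λ E hE hΛ
  obtain ⟨r, hr, hrad⟩ := exists_rad hE hΛ
  choose ϑ hϑ using hrad
  obtain ⟨ν, h⟩ := exists_ker (q := q) hr
  have D : DT Λ E r ν ϑ := ⟨hE, hΛ, hr, h, hϑ⟩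
  -- `F₁`
  have hF1s : ContDiff ℝ ∞ (mo ν (f1 E ν ϑ)) := contDiff_mo h.smooth h.hcs (f1_li D)
  have hF1p : ∀ l ∈ Λ, ∀ z, mo ν (f1 E ν ϑ) (z + l) = mo ν (f1 E ν ϑ) z := fun l hl z =>
    mo_per (f1_per D hl) z
  obtain ⟨S, m, hSc, hSp, hS⟩ := exists_S h hr hΛ hF1s.continuous hF1p
  have hSs : ContDiff ℝ ∞ S := by
    have e : S = fun z => mo ν S z + mo ν (f1 E ν ϑ) z - m := by funext z; exact hS z
    rw [e]
    exact ((contDiff_mo h.smooth h.hcs hSc.locallyIntegrable).add hF1s).sub contDiff_const
  set hh : Cm q → Cm q → ℝ := fun c z => S z + MP r ν ϑ c z with hhh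
  have hhs : ∀ c, ContDiff ℝ ∞ (hh c) := fun c => hSs.add (MP_smooth D c)
  have hfix : ∀ c, ∀ z ∈ ball c (5 * r), mo ν (hh c) z = hh c z + m := by
    intro c z hz
    have h1 : mo ν (hh c) z = mo ν S z + mo ν (MP r ν ϑ c) z :=
      mo_add h hSc.locallyIntegrable (MP_smooth D c).continuous.locallyIntegrable z
    have h2 := hS z
    rw [F1_eq D hz] at h2
    rw [h1]
    simp only [hhh]
    linarith
  -- comparison of `hh c` and `hh c'` near a point
  have hcmp : ∀ c c' z, z ∈ ball c (6 * r) → z ∈ ball c' (6 * r) →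
      cHess (hh c) z = cHess (hh c') z := by
    intro c c' z hz hz'
    have hU : IsOpen (ball c (8 * r) ∩ ball c' (8 * r)) := isOpen_ball.inter isOpen_ball
    obtain ⟨u, hu, he⟩ := exists_unit hE hU (fun y hy => hϑ c y hy.1) (fun y hy => hϑ c' y hy.2)
    have hsub : ∀ w, w ∈ ball c (6 * r) → w ∈ ball c' (6 * r) →
        ball w (2 * r) ⊆ ball c (8 * r) ∩ ball c' (8 * r) := by
      intro w hw hw' y hy
      rw [mem_ball] at hw hw' hy
      refine ⟨?_, ?_⟩ <;> rw [mem_ball]
      · have := dist_triangle y w c; linarith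
      · have := dist_triangle y w c'; linarith
    have hev : hh c =ᶠ[𝓝 z] fun y => hh c' y + pp u y := by
      filter_upwards [isOpen_ball.mem_nhds hz, isOpen_ball.mem_nhds hz'] with w hw hw'
      have h1 := cmp h hr hE (fun y hy => hϑ c y (hsub w hw hw' hy).1)
        (fun y hy => hϑ c' y (hsub w hw hw' hy).2) (fun y hy => hu y (hsub w hw hw' hy))
        (fun y hy => he y (hsub w hw hw' hy))
      simp only [hhh]
      rw [MP_eq D hw, MP_eq D hw', h1]
      ring
    have hz2 := hu z (hsub z hz hz' (mem_ball_self (by positivity)))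
    rw [cHess_congr hev, cHess_add_pp (hhs c').contDiffAt hz2.1 hz2.2]
  set Ξ : Cm q → Matrix (Fin q) (Fin q) ℂ := fun z => cHess (hh z) z with hΞ
  have hself : ∀ z : Cm q, z ∈ ball z (6 * r) := fun z => mem_ball_self (by positivity)
  have hΞeq : ∀ c, ∀ z ∈ ball c (6 * r), Ξ z = cHess (hh c) z := fun c z hz =>
    hcmp z c z (hself z) hz
  -- periodicity of `Ξ`
  have hΞp : ∀ l ∈ Λ, ∀ z, Ξ (z + l) = Ξ z := by
    intro l hl z
    have hθ1 : ∀ y ∈ ball z (8 * r), E (fun w => ϑ (z + l) (w - -l)) y := by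
      have := th_shift hE (hϑ (z + l)) (Λ.neg_mem hl)
      rwa [add_neg_cancel_right] at this
    obtain ⟨u, hu, he⟩ := exists_unit hE isOpen_ball hθ1 (hϑ z)
    have hsub : ∀ w, w ∈ ball z (6 * r) → ball w (2 * r) ⊆ ball z (8 * r) := by
      intro w hw y hy
      rw [mem_ball] at hw hy ⊢
      have := dist_triangle y w z; linarith
    have hev : (fun w => hh (z + l) (w + l)) =ᶠ[𝓝 z] fun y => hh z y + pp u y := by
      filter_upwards [isOpen_ball.mem_nhds (hself z)] with w hw
      have h1 := cmp h hr hE (fun y hy => hθ1 y (hsub w hw hy))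
        (fun y hy => hϑ z y (hsub w hw hy)) (fun y hy => hu y (hsub w hw hy))
        (fun y hy => he y (hsub w hw hy))
      have hwl : w + l ∈ ball (z + l) (6 * r) := by
        rw [mem_ball, dist_add_right]; exact hw
      have h2 : mo ν (pp (ϑ (z + l))) (w + l) = mo ν (pp fun w => ϑ (z + l) (w - -l)) w := by
        rw [mo_shift]
        congr 1
        funext y
        simp only [pp, sub_neg_eq_add]
      simp only [hhh]
      rw [hSp l hl, MP_eq D hwl, MP_eq D hw, h2, h1]
      ring
    have hz2 := hu z (hsub z (hself z) (mem_ball_self (by positivity)))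
    calc Ξ (z + l) = cHess (fun w => hh (z + l) (w + l)) z := (cHess_shift _ _ _).symm
      _ = cHess (hh z) z := by
          rw [cHess_congr hev, cHess_add_pp (hhs z).contDiffAt hz2.1 hz2.2]
  -- `Ξ` is a fixed point of the average
  have hΞf : ∀ z j k, mo ν (fun y => Ξ y j k) z = Ξ z j k := by
    intro z j k
    have h1 : mo ν (fun y => Ξ y j k) z = mo ν (fun y => cHess (hh z) y j k) z := by
      refine mo_congr h (Eventually.of_forall fun y hy => ?_)
      rw [hΞeq z y (ball_subset_ball (by linarith) hy)]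
    have h2 : mo ν (hh z) =ᶠ[𝓝 z] fun y => hh z y + m := by
      filter_upwards [ball_mem_nhds z (show 0 < 5 * r by positivity)] with y hy
      exact hfix z y hy
    have h3 : cHess (fun y => hh z y + m) z = cHess (hh z) z := by
      rw [cHess_add ((hhs z).contDiffAt.of_le (by norm_cast)) contDiffAt_const]
      have : cHess (fun _ : Cm q => m) z = 0 := C2.cHess_const m
      rw [this, add_zero]
    rw [h1, ← mo_cHess h hr (hhs z), cHess_congr h2, h3]
  have hΞc : ∀ j k, Continuous fun y => Ξ y j k := by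
    intro j k
    rw [continuous_iff_continuousAt]
    intro z
    have h1 : (fun y => Ξ y j k) =ᶠ[𝓝 z] fun y => cHess (hh z) y j k := by
      filter_upwards [isOpen_ball.mem_nhds (hself z)] with y hy
      rw [hΞeq z y hy]
    have h2 : ContDiff ℝ ∞ fun y => cHess (hh z) y j k := by
      have : ContDiff ℝ ∞ fun y => (hh z y : ℂ) := Complex.ofRealCLM.contDiff.comp (hhs z)
      exact cd_dz (cd_dzb this k) j
    exact h2.continuous.continuousAt.congr h1.symm
  have hconst : ∀ z, Ξ z = Ξ 0 := by
    intro z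
    ext j k
    have hre : ∀ z, mo ν (fun y => (Ξ y j k).re) z = (Ξ z j k).re := by
      intro z
      rw [← hΞf z j k]
      unfold mo
      have hi : Integrable fun y => ν (z - y) • Ξ y j k :=
        integrable_mo h.smooth.continuous h.hcs (hΞc j k).locallyIntegrable z
      have := integral_re hi
      simp only [RCLike.re_to_complex] at this
      rw [← this]
      refine integral_congr_ae (Eventually.of_forall fun y => ?_)
      simp
    have him : ∀ z, mo ν (fun y => (Ξ y j k).im) z = (Ξ z j k).im := by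
      intro z
      rw [← hΞf z j k]
      unfold mo
      have hi : Integrable fun y => ν (z - y) • Ξ y j k :=
        integrable_mo h.smooth.continuous h.hcs (hΞc j k).locallyIntegrable z
      have := integral_im hi
      simp only [RCLike.im_to_complex] at this
      rw [← this]
      refine integral_congr_ae (Eventually.of_forall fun y => ?_)
      simp
    have h1 := fixed_const h hr hΛ (Complex.continuous_re.comp (hΞc j k))
      (fun l hl z => by simp only [Function.comp_apply, hΞp l hl z]) hre z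
    have h2 := fixed_const h hr hΛ (Complex.continuous_im.comp (hΞc j k))
      (fun l hl z => by simp only [Function.comp_apply, hΞp l hl z]) him z
    exact Complex.ext h1 h2
  refine ⟨fun z => -f1 E ν ϑ z - S z, Ξ 0, fun l hl z => ?_, fun θ x hθ => ?_⟩
  · simp only [f1_per D hl z, hSp l hl z]
  · -- local structure
    obtain ⟨s, hs, hsb⟩ := Metric.eventually_nhds_iff_ball.1 (hE.opn θ x hθ)
    have hU : IsOpen (ball x (min s (6 * r))) := isOpen_ball
    have hs1 : ball x (min s (6 * r)) ⊆ ball x s := ball_subset_ball (min_le_left _ _)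
    have hs2 : ball x (min s (6 * r)) ⊆ ball x (6 * r) := ball_subset_ball (min_le_right _ _)
    have hs3 : ball x (6 * r) ⊆ ball x (8 * r) := ball_subset_ball (by linarith)
    obtain ⟨u, hu, he⟩ := exists_unit hE hU (fun y hy => hsb y (hs1 hy))
      (fun y hy => hϑ x y (hs3 (hs2 hy)))
    have hmem : ball x (min s (6 * r)) ∈ 𝓝 x := ball_mem_nhds x (by positivity)
    refine ⟨fun z => -(hh x z + pp u z), ?_, ?_⟩
    · filter_upwards [hmem] with z hz
      have h1 : ContDiffAt ℝ ∞ (fun z => hh x z + pp u z) z :=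
        (hhs x).contDiffAt.add (contDiffAt_log (hu z hz).1 (hu z hz).2)
      refine ⟨h1.neg, ?_⟩
      have h2 : cHess (fun z => -(hh x z + pp u z)) z =
          cHess (fun z => (-1) * (hh x z + pp u z)) z := by
        congr 1
        funext y
        ring
      rw [h2, cHess_const_mul (-1) (h1.of_le (by norm_cast)),
        cHess_add_pp (hhs x).contDiffAt (hu z hz).1 (hu z hz).2, ← hΞeq x z (hs2 hz), hconst z]
      simp
    · filter_upwards [hmem] with z hz h0
      have hz0 : z ∉ zs E := fun hcon => h0 ((mem_zs hE (hsb z (hs1 hz))).1 hcon)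
      have hx0 : ϑ x z ≠ 0 := fun hcon => hz0 ((mem_zs hE (hϑ x z (hs3 (hs2 hz)))).2 hcon)
      rw [f1_loc D (hs2 hz) hz0]
      have h3 : PP r ϑ x z = pp (ϑ x) z := by
        rw [PP, indicator_of_mem]
        have := hs2 hz
        rw [mem_ball] at this
        rw [mem_closedBall]
        linarith
      have h4 : Real.log (‖θ z‖ ^ 2) = pp u z + pp (ϑ x) z := by
        simp only [pp]
        rw [he z hz, norm_mul, mul_pow, Real.log_mul (by
          have := (hu z hz).2; positivity) (by positivity)]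
      rw [h3, h4]
      simp only [hhh]
      ring

/-- **TP3** -/
theorem pot3Stmt : Pot3Stmt := pot3_of potStmt

end Vale.Agent.P284.H279
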