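import Vale.Agent.P284.H279.Fin

/-!
# P284 (helper279), T1', MF(I): local finiteness from a subgroup of finite index of the kernel
-/

open scoped Manifold ContDiff Topology
open Filter Set Metric

noncomputable section

namespace Vale.Agent.P284.H279.Fin

open Vale.Agent.P272.K Vale.Agent.P284.H573 Vale.Agent.P284.H837

variable {n R q m : ℕ} {X : Type} [TopologicalSpace X] [ChartedSpace (Cm n) X] {E : Type}
  [TopologicalSpace E] {H : Type} [NormedAddCommGroup H] [InnerProductSpace ℂ H]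
  {Γ : Type} [Group Γ] [MulAction Γ E] {p : E → X} {v : E → Chart n X → (Fin R → Cm n) → H}
  {F : E → Cm q} {c : Γ → Cm q}

/-- **LFIN**: if a subgroup `S` of the kernel of the periods acts trivially on `v`, and the kernel is a
finite union of cosets of `S`, then the translates of the sheets are locally finite modulo `S`. -/
theorem lfin_of_finidx [Nonempty E] (hF : ∀ g y, F (g • y) = F y + c g) (hFc : Continuous F)
    (hc : ∀ ρ : ℝ, {t | (∃ g, c g = t) ∧ ‖t‖ ≤ ρ}.Finite) (S : Subgroup Γ)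
    (hS : ∀ g ∈ S, c g = 0)
    (hv : ∀ g ∈ S, ∀ y e, At e (p y) → ∀ ξ, v (g • y) e ξ = v y e ξ)
    (hfin : {a : Γ ⧸ S | ∃ g : Γ, (g : Γ ⧸ S) = a ∧ c g = 0}.Finite) :
    LFin Γ m p v F := by
  refine ⟨S, fun g hg y => by rw [hF, hS g hg, add_zero], hv, ?_⟩
  intro y₀ e b γ t hN
  obtain ⟨r, hr, hball⟩ := Metric.eventually_nhds_iff_ball.1
    (hN.tan.continuousAt.norm.eventually_lt_const (lt_add_one ‖t (b (e (p y₀)))‖))
  set A := ‖t (b (e (p y₀)))‖ + 1 with hA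
  have hU : {y | ‖F y‖ < ‖F y₀‖ + 1} ∈ 𝓝 y₀ :=
    hFc.continuousAt.norm.eventually_lt_const (lt_add_one _)
  refine ⟨r, hr, _, hU, ?_⟩
  set T := {t | (∃ g, c g = t) ∧ ‖t‖ ≤ ‖F y₀‖ + 1 + A} with hT
  have hch : ∀ τ : Cm q, ∃ g : Γ, (∃ g, c g = τ) → c g = τ := by
    intro τ
    by_cases h1 : ∃ g, c g = τ
    · exact ⟨h1.choose, fun _ => h1.choose_spec⟩
    · exact ⟨1, fun h2 => absurd h2 h1⟩
  choose s hs using hch
  refine ((hc (‖F y₀‖ + 1 + A)).biUnion (t := fun τ => (fun a : Γ ⧸ S => s τ • a) ''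
    {a : Γ ⧸ S | ∃ g : Γ, (g : Γ ⧸ S) = a ∧ c g = 0}) fun τ _ => hfin.image _).subset ?_
  rintro _ ⟨g, rfl, y, hy, x, hx, hsh⟩
  have hcg : ‖c g‖ ≤ ‖F y₀‖ + 1 + A := by
    obtain ⟨e', β, -, -, hβ, hev⟩ := hsh
    have h3 := hev.self_of_nhds.2
    rw [hβ, hF, c_inv hF] at h3
    have h4 : c g = F y - t x := by
      rw [← h3]; abel
    rw [h4]
    have h5 : ‖F y‖ < ‖F y₀‖ + 1 := hy
    have h6 := hball x hx
    calc ‖F y - t x‖ ≤ ‖F y‖ + ‖t x‖ := norm_sub_le _ _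
      _ ≤ _ := by linarith
  refine mem_iUnion₂.2 ⟨c g, ⟨⟨g, rfl⟩, hcg⟩, ((s (c g))⁻¹ * g : Γ), ⟨(s (c g))⁻¹ * g, rfl, ?_⟩, ?_⟩
  · rw [c_mul hF, c_inv hF, hs (c g) ⟨g, rfl⟩, neg_add_cancel]
  · show ((s (c g) * ((s (c g))⁻¹ * g) : Γ) : Γ ⧸ S) = g
    rw [mul_inv_cancel_left]

end Vale.Agent.P284.H279.Fin
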