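import Vale.Agent.P284.H837.BrS
import Vale.Agent.P284.H174.GoodD
import Vale.Agent.P284.H885.Ker1
import Vale.Agent.P284.H494.Loc
import Vale.Agent.P284.H10.S4d

/-!
# P284 (helper279), T1': the good points form a connected set and `F` is a function of `b` at all of them
-/

open scoped Manifold ContDiff Topology InnerProductSpace
open Filter Set Metric

noncomputable section

namespace Vale.Agent.P284.H279.M2

open Vale.Agent.P272.K Vale.Agent.P284.H573 Vale.Agent.P284.H619 Vale.Agent.P284.H174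
  Vale.Agent.P284.H174.GD Vale.Agent.P284.H837 Vale.Agent.P284.H10 Vale.Agent.P284.H494
  Vale.Agent.P284.H553.LB Vale.Agent.P284.H894.G

section
variable {n R m q : ℕ} {X : Type} [TopologicalSpace X] [ChartedSpace (Cm n) X]
  {E : Type} [TopologicalSpace E] {p : E → X}
  {H : Type} [NormedAddCommGroup H] [InnerProductSpace ℂ H]
  {v : E → Chart n X → (Fin R → Cm n) → H}

/-- the good points form a connected set -/
theorem good_preconnected [IsManifold 𝓘(ℂ, Cm n) ω X] [CompleteSpace H] [PreconnectedSpace E]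
    (hn : 1 ≤ n) (hv : HForm n R m p H v) (hp : IsCoveringMap p) {y₀ : E}
    (h0 : GoodAt p R m v y₀) : IsPreconnected {y : E | GoodAt p R m v y} := by
  have h1 : {y : E | GoodAt p R m v y} = {y : E | ¬ GoodAt p R m v y}ᶜ := by
    ext y; simp
  rw [h1]
  refine preconn_compl ?_ fun y₁ => ?_
  · rw [← h1]
    intro y
    exact mem_closure_iff_frequently.2 (good_dense hv hp h0 y)
  · set e := chartAt (Cm n) (p y₁) with he_def
    have he : At e (p y₁) := ⟨chart_mem_atlas _ _, mem_chart_source _ _⟩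
    obtain ⟨V, hVo, hyV, hV⟩ := loc_E hv hp he
    obtain ⟨y₂, h2, h3⟩ := ((good_dense hv hp h0 y₁).and_eventually (hVo.mem_nhds hyV)).exists
    obtain ⟨w, hw, hw0, hwg, -⟩ := hV y₂ h3 h2
    obtain ⟨ε, hε, hεb⟩ := Metric.eventually_nhds_iff_ball.1 hw.eventually_analyticAt
    have hO : V ∩ {y | e (p y) ∈ ball (e (p y₁)) ε} ∈ 𝓝 y₁ :=
      Filter.inter_mem (hVo.mem_nhds hyV)
        ((tendsto_ep hp he).eventually (ball_mem_nhds _ hε))
    obtain ⟨κ, hκ, hyκ, hκO, hc⟩ := exists_ch_at hp he hO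
    have hκz : ∀ z ∈ κ.target, z = e (p (κ.symm z)) := by
      intro z hz
      rw [← hκ.eq _ (κ.map_target hz), κ.right_inv hz]
    have hwa : AnalyticOnNhd ℂ w κ.target := by
      intro z hz
      have h4 := (hκO (κ.map_target hz)).2
      have h5 : z ∈ ball (e (p y₁)) ε := by
        rw [hκz z hz]
        exact h4
      exact hεb z h5
    have hwn : ∀ z ∈ κ.target, ¬ ∀ᶠ z' in 𝓝 z, w z' = 0 := by
      intro z hz hcon
      refine hw0 ?_
      have h4 : κ y₁ ∈ κ.target := κ.map_source hyκ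
      have h5 : EqOn w 0 κ.target := AnalyticOnNhd.eqOn_zero_of_preconnected_of_eventuallyEq_zero
        (𝕜 := ℂ) hwa hc.isPreconnected hz hcon
      rw [← hκ.eq _ hyκ]
      filter_upwards [κ.open_target.mem_nhds h4] with z' hz'
      exact h5 hz'
    refine ⟨κ.source, κ.open_source, hyκ, ?_⟩
    have hcov : Cov (n - 1) {z ∈ κ.target | w z = 0} :=
      cov_zero (n := n - 1) (by simp; omega) κ.open_target
        (fun z hz => (hwa z hz).differentiableAt.differentiableWithinAt) hwn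
    have h3 : IsPreconnected (κ.target \ {z | ¬ GoodAt p R m v (κ.symm z)}) := by
      refine preconn_diff (k := n - 1) (hcov.mono ?_) (by simp; omega) κ.open_target hc
      rintro z ⟨h4, h5⟩
      refine ⟨h5, ?_⟩
      by_contra hne
      have h6 := hwg (κ.symm z) (hκO (κ.map_target h5)).1 (by rw [← hκz z h5]; exact hne)
      exact h4 h6
    have h4 : κ.source \ {y : E | ¬ GoodAt p R m v y} = κ.symm '' (κ.target \
        {z | ¬ GoodAt p R m v (κ.symm z)}) := by
      ext y'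
      constructor
      · rintro ⟨h5, h6⟩
        refine ⟨κ y', ⟨κ.map_source h5, ?_⟩, κ.left_inv h5⟩
        show ¬ ¬ GoodAt p R m v (κ.symm (κ y'))
        rw [κ.left_inv h5]
        exact h6
      · rintro ⟨z, ⟨h5, h6⟩, rfl⟩
        exact ⟨κ.map_target h5, h6⟩
    rw [h4]
    exact h3.image _ (κ.continuousOn_symm.mono sdiff_subset)

/-- two normal forms in the same chart have the same leaves -/
theorem ker_nf (hp : IsCoveringMap p) {y : E} {e : Chart n X} {b b' : Cm n → Cm R}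
    {γ γ' : Cm R → H} (h : IsNF m p v y e b γ) (h' : IsNF m p v y e b' γ') {x : Cm n}
    (hx : fderiv ℂ b (e (p y)) x = 0) : fderiv ℂ b' (e (p y)) x = 0 := by
  set z₀ := e (p y) with hz₀
  -- the frame
  have hξ : ∀ j : Fin R, ∃ x, fderiv ℂ b z₀ x = Pi.single j 1 := fun j => h.bsurj _
  choose ξ₀ hξ₀ using hξ
  have hJ0 : Jd b z₀ ξ₀ = 1 := by
    unfold Jd
    have : (Matrix.of fun i a => fderiv ℂ b z₀ (ξ₀ a) i) = (1 : Matrix (Fin R) (Fin R) ℂ) := by
      ext i a
      rw [Matrix.of_apply, hξ₀, Matrix.one_apply, Pi.single_apply]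
    rw [this, Matrix.det_one]
  have hev : ∀ᶠ z in 𝓝 z₀, Jd b z ξ₀ ^ m • γ (b z) = Jd b' z ξ₀ ^ m • γ' (b' z) := by
    rw [← ev_iff hp h.mem]
    filter_upwards [h.nf, h'.nf] with y' h1 h2
    have h3 := h1 ξ₀
    rw [h2 ξ₀] at h3
    exact h3.symm
  have h0 := hev.self_of_nhds
  rw [hJ0, one_pow, one_smul] at h0
  have hJ' : Jd b' z₀ ξ₀ ^ m ≠ 0 := by
    intro h1
    rw [h1, zero_smul] at h0
    exact h.imm.1 h0
  set A : Cm n → ℂ := fun z => Jd b z ξ₀ ^ m with hA
  set A' : Cm n → ℂ := fun z => Jd b' z ξ₀ ^ m with hA'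
  have hAa : AnalyticAt ℂ A z₀ := (jd_an h.ban ξ₀).pow m
  have hAa' : AnalyticAt ℂ A' z₀ := (jd_an h'.ban ξ₀).pow m
  have hd1 : HasFDerivAt (fun z => γ (b z)) ((fderiv ℂ γ (b z₀)).comp (fderiv ℂ b z₀)) z₀ :=
    h.γan.differentiableAt.hasFDerivAt.comp z₀ h.ban.differentiableAt.hasFDerivAt
  have hd2 : HasFDerivAt (fun z => γ' (b' z)) ((fderiv ℂ γ' (b' z₀)).comp (fderiv ℂ b' z₀)) z₀ :=
    h'.γan.differentiableAt.hasFDerivAt.comp z₀ h'.ban.differentiableAt.hasFDerivAt
  have hd3 := hAa.differentiableAt.hasFDerivAt.smul hd1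
  have hd4 := hAa'.differentiableAt.hasFDerivAt.smul hd2
  have hd5 := (hd3.congr_of_eventuallyEq (hev.mono fun z hz => hz.symm)).unique hd4
  have hd6 := congrArg (fun L : Cm n →L[ℂ] H => L x) hd5
  simp only [add_apply, smul_apply, ContinuousLinearMap.smulRight_apply,
    ContinuousLinearMap.comp_apply, hx, map_zero, smul_zero, zero_add] at hd6
  have hA1 : A z₀ = 1 := by rw [hA]; simp only [hJ0, one_pow]
  have hγ : γ (b z₀) = A' z₀ • γ' (b' z₀) := h0
  rw [hγ, smul_smul] at hd6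
  refine h'.imm.2 _ ((A' z₀)⁻¹ * (fderiv ℂ A z₀ x * A' z₀ - fderiv ℂ A' z₀ x)) ?_
  rw [mul_smul, sub_smul, hd6, add_sub_cancel_right, inv_smul_smul₀ hJ']

/-- a normal form with `F = t(b)`: the same holds for all normal forms at the point -/
theorem nff_of [IsManifold 𝓘(ℂ, Cm n) ω X] [CompleteSpace H] (hp : IsCoveringMap p)
    (hv : HForm n R m p H v) {F : E → Cm q} {y : E} {e e' : Chart n X} {b b' : Cm n → Cm R}
    {γ γ' : Cm R → H} {t' : Cm R → Cm q} (h' : NFF m p v F y e' b' γ' t')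
    (h : IsNF m p v y e b γ) : ∃ t : Cm R → Cm q, NFF m p v F y e b γ t := by
  have h1 := nf_chg hv hp h'.nf h.mem
  set b₁ : Cm n → Cm R := fun z => b' (e' (e.symm z)) with hb₁
  have hb₁y : b₁ (e (p y)) = b' (e' (p y)) := by
    show b' (e' (e.symm (e (p y)))) = _
    rw [h.mem.left_inv]
  have hta : AnalyticAt ℂ (fun z => t' (b₁ z)) (e (p y)) :=
    h'.tan.fun_comp_of_eq h1.ban hb₁y
  have hker : ∀ᶠ z in 𝓝 (e (p y)), ∀ x, fderiv ℂ b z x = 0 →
      fderiv ℂ (fun z => t' (b₁ z)) z x = 0 := by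
    have h2 : ∀ᶠ z in 𝓝 (e (p y)), AnalyticAt ℂ t' (b₁ z) := by
      refine h1.ban.continuousAt.eventually ?_
      rw [hb₁y]
      exact h'.tan.eventually_analyticAt
    have h3 : ∀ᶠ z in 𝓝 (e (p y)), AnalyticAt ℂ b₁ z := h1.ban.eventually_analyticAt
    have h4 : ∀ᶠ z in 𝓝 (e (p y)), ∀ x, fderiv ℂ b z x = 0 → fderiv ℂ b₁ z x = 0 := by
      rw [← ev_iff hp h.mem]
      filter_upwards [h.eventually hp.continuous.continuousAt,
        h1.eventually hp.continuous.continuousAt] with y' h5 h6 x hx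
      exact ker_nf hp h5 h6 hx
    filter_upwards [h2, h3, h4] with z h5 h6 h7 x hx
    have h8 := fderiv_comp z (g := t') (f := b₁) h5.differentiableAt h6.differentiableAt
    have h9 : fderiv ℂ (fun z => t' (b₁ z)) z = (fderiv ℂ t' (b₁ z)).comp (fderiv ℂ b₁ z) := h8
    rw [h9, ContinuousLinearMap.comp_apply, h7 x hx, map_zero]
  obtain ⟨t, hta', ht⟩ := exists_factor h.ban h.bsurj hta hker
  refine ⟨t, h, hta', ?_⟩
  filter_upwards [h'.eq, (ev_iff hp h.mem).2 ht, at_ev hp h.mem] with y' h2 h3 h4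
  rw [h2, ← h3]
  show _ = t' (b' (e' (e.symm (e (p y')))))
  rw [h4.left_inv]

/-- the set of good points with `F = t(b)` -/
theorem nff_eventually [CompleteSpace H] (hp : IsCoveringMap p) {F : E → Cm q} {y : E}
    {e : Chart n X} {b : Cm n → Cm R} {γ : Cm R → H} {t : Cm R → Cm q}
    (h : NFF m p v F y e b γ t) : ∀ᶠ y' in 𝓝 y, NFF m p v F y' e b γ t := by
  have hb : ContinuousAt (fun y => b (e (p y))) y :=
    ContinuousAt.comp (g := b) h.nf.ban.continuousAt (tendsto_ep hp h.nf.mem)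
  filter_upwards [h.nf.eventually hp.continuous.continuousAt,
    hb.eventually h.tan.eventually_analyticAt, h.eq.eventually_nhds] with y' h1 h2 h3
    using ⟨h1, h2, h3⟩

end

/-- **M2** -/
theorem m2Stmt : M2Stmt := by
  intro n R q m X E Γ _ _ _ _ _ _ _ _ H _ _ _ p v F c hD y₀ e₀ b₀ γ₀ t₀ hN
  have hp := hD.gal.cov
  have hn : 1 ≤ n := by
    have h1 := LinearMap.finrank_le_finrank_of_surjective
      (f := (fderiv ℂ b₀ (e₀ (p y₀)) : Cm n →ₗ[ℂ] Cm R)) hN.nf.bsurj
    simp only [Module.finrank_fintype_fun_eq_card, Fintype.card_fin] at h1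
    exact hD.hR.trans h1
  have hgood : GoodAt p R m v y₀ := ⟨e₀, b₀, γ₀, hN.nf⟩
  have hpre := good_preconnected hn hD.hv hp hgood
  refine ⟨hpre, ?_, ?_⟩
  · have h1 : GoodX p R m v = p '' {y : E | GoodAt p R m v y} := by
      ext x
      constructor
      · rintro ⟨y, hy, hg⟩
        exact ⟨y, hg, hy⟩
      · rintro ⟨y, hg, hy⟩
        exact ⟨y, hy, hg⟩
    rw [h1]
    exact hpre.image _ hp.continuous.continuousOn
  · set A : Set E := {y | ∃ e b γ t, NFF m p v F y e b γ t} with hA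
    have hAo : IsOpen A := by
      rw [isOpen_iff_mem_nhds]
      rintro y ⟨e, b, γ, t, h⟩
      filter_upwards [nff_eventually hp h] with y' h' using ⟨e, b, γ, t, h'⟩
    have hcl : closure A ∩ {y : E | GoodAt p R m v y} ⊆ A := by
      rintro y₁ ⟨hy₁, e, b, γ, h⟩
      obtain ⟨f, hf, hfa⟩ := hD.hF y₁ e h.mem
      obtain ⟨P, hPa, hP⟩ := H885.Ker.vert_proj h.ban h.bsurj
      -- a ball where everything is analytic
      obtain ⟨ρ, hρ, hρb⟩ := Metric.eventually_nhds_iff_ball.1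
        (hfa.eventually_analyticAt.and (hPa.eventually_analyticAt.and hP))
      set K := ball (e (p y₁)) ρ with hK
      have hall : ∀ᶠ y in 𝓝 y₁, e (p y) ∈ K ∧ IsNF m p v y e b γ ∧ F y = f (e (p y)) := by
        filter_upwards [(tendsto_ep hp h.mem).eventually (ball_mem_nhds _ hρ),
          h.eventually hp.continuous.continuousAt, hf] with y h1 h2 h3 using ⟨h1, h2, h3⟩
      obtain ⟨y₂, ⟨e', b', γ', t', h2⟩, h3⟩ := (mem_closure_iff_frequently.1 hy₁).and_eventually
        hall.eventually_nhds |>.exists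
      obtain ⟨t, ht⟩ := nff_of hp hD.hv h2 h3.self_of_nhds.2.1
      -- near `y₂`
      have hft : ∀ᶠ z in 𝓝 (e (p y₂)), f z = t (b z) := by
        rw [← ev_iff hp ht.nf.mem]
        filter_upwards [ht.eq, h3] with y h4 h5
        rw [← h5.2.2, h4]
      have hfa' : AnalyticOnNhd ℂ (fderiv ℂ f) K := fun z hz => (hρb z hz).1.fderiv
      have hPa' : AnalyticOnNhd ℂ P K := fun z hz => (hρb z hz).2.1
      have hkey : ∀ ξ : Cm n, EqOn (fun z => fderiv ℂ f z (P z ξ)) 0 K := by
        intro ξ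
        refine AnalyticOnNhd.eqOn_zero_of_preconnected_of_eventuallyEq_zero (𝕜 := ℂ)
          (fun z hz => ?_) (convex_ball _ _).isPreconnected h3.self_of_nhds.1 ?_
        · have h4 : AnalyticAt ℂ (fun z => P z ξ) z :=
            (ContinuousLinearMap.apply ℂ (Cm n) ξ).analyticAt _ |>.fun_comp (hPa' z hz)
          have h5 := (ContinuousLinearMap.id ℂ (Cm n →L[ℂ] Cm q)).analyticAt_bilinear
            (fderiv ℂ f z, P z ξ)
          exact AnalyticAt.fun_comp_of_eq h5 ((hfa' z hz).prod h4) rfl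
        · have h4 : ∀ᶠ z in 𝓝 (e (p y₂)), AnalyticAt ℂ t (b z) :=
            ht.nf.ban.continuousAt.eventually ht.tan.eventually_analyticAt
          filter_upwards [hft.eventually_nhds, h4, ht.nf.ban.eventually_analyticAt,
            isOpen_ball.mem_nhds h3.self_of_nhds.1] with z h5 h6 h7 h8
          have h9 : fderiv ℂ f z = (fderiv ℂ t (b z)).comp (fderiv ℂ b z) := by
            rw [Filter.EventuallyEq.fderiv_eq h5]
            exact fderiv_comp z (g := t) (f := b) h6.differentiableAt h7.differentiableAt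
          show fderiv ℂ f z (P z ξ) = 0
          rw [h9, ContinuousLinearMap.comp_apply, (hρb z h8).2.2.1 ξ, map_zero]
      have hker : ∀ᶠ z in 𝓝 (e (p y₁)), ∀ x, fderiv ℂ b z x = 0 → fderiv ℂ f z x = 0 := by
        filter_upwards [ball_mem_nhds (e (p y₁)) hρ] with z hz x hx
        have h4 := hkey x hz
        simp only [Pi.zero_apply] at h4
        rw [(hρb z hz).2.2.2 x hx] at h4
        exact h4
      obtain ⟨t₁, ht₁a, ht₁⟩ := exists_factor h.ban h.bsurj hfa hker
      refine ⟨e, b, γ, t₁, h, ht₁a, ?_⟩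
      filter_upwards [hf, (ev_iff hp h.mem).2 ht₁] with y h4 h5
      rw [h4, h5]
    have hsub : {y : E | GoodAt p R m v y} ⊆ A :=
      hpre.subset_of_closure_inter_subset hAo ⟨y₀, hgood, e₀, b₀, γ₀, t₀, hN⟩ hcl
    intro y e b γ h
    obtain ⟨e', b', γ', t', h'⟩ := hsub (show y ∈ {y : E | GoodAt p R m v y} from ⟨e, b, γ, h⟩)
    exact nff_of hp hD.hv h' h

end Vale.Agent.P284.H279.M2
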