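import Mathlib.Analysis.Matrix.Order
import Mathlib.LinearAlgebra.Matrix.SchurComplement

/-!
# P284 (helper279), A2: pointwise linear algebra for the metrics `w + τ θ θ*`
-/

open scoped ComplexOrder MatrixOrder
open Matrix

set_option linter.unusedSectionVars false

noncomputable section

namespace Vale.Agent.P284.H279

variable {m q : Type*} [Fintype m] [DecidableEq m] [Fintype q] [DecidableEq q]

/-- `θ* w⁻¹ θ`, the Gram matrix of the forms `θ` -/
def TT (w : Matrix m m ℂ) (θ : Matrix m q ℂ) : Matrix q q ℂ := θᴴ * w⁻¹ * θ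

/-- vertical part of `w⁻¹` -/
def Pv (w : Matrix m m ℂ) (θ : Matrix m q ℂ) : Matrix m m ℂ :=
  w⁻¹ - w⁻¹ * θ * (TT w θ)⁻¹ * θᴴ * w⁻¹

/-- the metric `w_τ` -/
def wt (w : Matrix m m ℂ) (θ : Matrix m q ℂ) (τ : ℝ) : Matrix m m ℂ := w + (τ : ℂ) • (θ * θᴴ)

theorem exC {A : Matrix m m ℂ} (hA : A.PosSemidef) : ∃ C : Matrix m m ℂ, C.PosSemidef ∧ A = C * C :=
  ⟨CFC.sqrt A, (CFC.sqrt_nonneg A).posSemidef, (CFC.sqrt_mul_sqrt_self A hA.nonneg).symm⟩

/-- trace of a product of two positive matrices -/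
theorem trace_mul_nn {A B : Matrix m m ℂ} (hA : A.PosSemidef) (hB : B.PosSemidef) :
    0 ≤ (A * B).trace.re := by
  obtain ⟨C, hC, rfl⟩ := exC hA
  rw [Matrix.mul_assoc, trace_mul_comm]
  have := (hB.mul_mul_conjTranspose_same C).trace_nonneg
  rw [hC.1.eq] at this
  exact (Complex.le_def.mp this).1

/-- `Re tr (A x B x) ≥ 0` -/
theorem trq_nn {A B x : Matrix m m ℂ} (hA : A.PosSemidef) (hB : B.PosSemidef) (hx : x.IsHermitian) :
    0 ≤ (A * x * (B * x)).trace.re := by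
  have h : (x * B * x).PosSemidef := by
    have := hB.mul_mul_conjTranspose_same x
    rwa [hx.eq] at this
  have := trace_mul_nn hA h
  simpa [Matrix.mul_assoc] using this

theorem psd_TT {w : Matrix m m ℂ} (hw : w.PosDef) (θ : Matrix m q ℂ) : (TT w θ).PosSemidef :=
  hw.inv.posSemidef.conjTranspose_mul_mul_same θ

theorem psd_hA (θ : Matrix m q ℂ) : (θ * θᴴ).PosSemidef := posSemidef_self_mul_conjTranspose θ

theorem pd_wt {w : Matrix m m ℂ} (hw : w.PosDef) (θ : Matrix m q ℂ) {τ : ℝ} (hτ : 0 ≤ τ) :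
    (wt w θ τ).PosDef :=
  hw.add_posSemidef ((psd_hA θ).smul (by exact_mod_cast hτ))

theorem det_wt {w : Matrix m m ℂ} (hw : w.PosDef) (θ : Matrix m q ℂ) (τ : ℝ) :
    (wt w θ τ).det = w.det * (1 + (τ : ℂ) • TT w θ).det := by
  have h := det_add_mul (A := w) ((τ : ℂ) • θ) θᴴ ((Matrix.isUnit_iff_isUnit_det w).mp hw.isUnit)
  rw [wt, ← Matrix.smul_mul, h, TT, Matrix.mul_smul]

section Frame

variable (w : Matrix m m ℂ) (θ : Matrix m q ℂ)

/-- `w⁻¹ θ diag(d) θ* w⁻¹` -/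
def ZZ (d : q → ℝ) : Matrix m m ℂ := w⁻¹ * θ * diagonal (fun i => (d i : ℂ)) * θᴴ * w⁻¹

variable {w θ}

theorem ZZ_add (d d' : q → ℝ) : ZZ w θ (fun i => d i + d' i) = ZZ w θ d + ZZ w θ d' := by
  have : (diagonal (fun i => ((d i + d' i : ℝ) : ℂ)) : Matrix q q ℂ) =
      diagonal (fun i => (d i : ℂ)) + diagonal (fun i => (d' i : ℂ)) := by
    rw [diagonal_add]; simp
  simp only [ZZ, this, Matrix.mul_add, Matrix.add_mul]

theorem ZZ_zero : ZZ w θ (fun _ => 0) = 0 := by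
  simp [ZZ]

theorem ZZ_sum {ι : Type*} (s : Finset ι) (d : ι → q → ℝ) :
    ZZ w θ (fun i => ∑ k ∈ s, d k i) = ∑ k ∈ s, ZZ w θ (d k) := by
  classical
  induction s using Finset.induction_on with
  | empty => simpa using ZZ_zero (w := w) (θ := θ)
  | insert a s ha ih =>
    rw [Finset.sum_insert ha, ← ih, ← ZZ_add]
    congr 1
    funext i
    rw [Finset.sum_insert ha]

theorem ZZ_smul (c : ℝ) (d : q → ℝ) : ZZ w θ (fun i => c * d i) = (c : ℂ) • ZZ w θ d := by
  have : (diagonal (fun i => ((c * d i : ℝ) : ℂ)) : Matrix q q ℂ) =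
      (c : ℂ) • diagonal (fun i => (d i : ℂ)) := by
    rw [← diagonal_smul]; congr 1; funext i; simp
  simp only [ZZ, this, Matrix.mul_smul, Matrix.smul_mul]

theorem ZZ_psd (hw : w.PosDef) {d : q → ℝ} (hd : ∀ i, 0 ≤ d i) : (ZZ w θ d).PosSemidef := by
  have h1 : (diagonal (fun i => (d i : ℂ)) : Matrix q q ℂ).PosSemidef :=
    PosSemidef.diagonal fun i => by simpa using hd i
  have h2 := h1.mul_mul_conjTranspose_same (w⁻¹ * θ)
  rw [conjTranspose_mul, hw.inv.1.eq] at h2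
  simpa [ZZ, Matrix.mul_assoc] using h2

end Frame

/-- **Frame**: simultaneous diagonalisation of `w` and `θ θ*`, expressed by the inverse matrices. -/
theorem frame {w : Matrix m m ℂ} (hw : w.PosDef) (θ : Matrix m q ℂ) :
    ∃ (μ : q → ℝ) (Q0 : Matrix m m ℂ) (Q : q → Matrix m m ℂ), (∀ i, 0 ≤ μ i) ∧ Q0.PosSemidef ∧
      (∀ i, (Q i).PosSemidef) ∧ w⁻¹ = Q0 + ∑ i, Q i ∧
      (∀ τ : ℝ, 0 ≤ τ → (wt w θ τ)⁻¹ = Q0 + ∑ i, (((1 + τ * μ i)⁻¹ : ℝ) : ℂ) • Q i) ∧
      (∀ τ : ℝ, (1 + (τ : ℂ) • TT w θ).det = ∏ i, (1 + (τ : ℂ) * μ i)) ∧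
      (TT w θ).det = ∏ i, (μ i : ℂ) ∧ (TT w θ).trace = ∑ i, (μ i : ℂ) ∧
      ((TT w θ).det ≠ 0 → Pv w θ = Q0) ∧ ∀ i, μ i = 0 → Q i = 0 := by
  classical
  have hT := psd_TT hw θ
  set V : Matrix q q ℂ := (hT.1.eigenvectorUnitary : Matrix q q ℂ) with hV
  set μ : q → ℝ := hT.1.eigenvalues with hμ
  have hVV : Vᴴ * V = 1 := by
    have := (Matrix.mem_unitaryGroup_iff' (A := V)).mp hT.1.eigenvectorUnitary.2
    simpa [star_eq_conjTranspose] using this
  have hVV' : V * Vᴴ = 1 := by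
    have := (Matrix.mem_unitaryGroup_iff (A := V)).mp hT.1.eigenvectorUnitary.2
    simpa [star_eq_conjTranspose] using this
  have hspec : TT w θ = V * diagonal (fun i => (μ i : ℂ)) * Vᴴ := by
    have := hT.1.spectral_theorem
    rw [Unitary.conjStarAlgAut_apply] at this
    simpa [star_eq_conjTranspose, Function.comp_def] using this
  have hμ0 : ∀ i, 0 ≤ μ i := fun i => hT.eigenvalues_nonneg i
  -- replace `θ` by `θ V`
  set θ' : Matrix m q ℂ := θ * V with hθ'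
  have hTT' : θ'ᴴ * w⁻¹ * θ' = diagonal (fun i => (μ i : ℂ)) := by
    have : θ'ᴴ * w⁻¹ * θ' = Vᴴ * TT w θ * V := by
      simp only [hθ', TT, conjTranspose_mul, Matrix.mul_assoc]
    rw [this, hspec]
    calc Vᴴ * (V * diagonal (fun i => (μ i : ℂ)) * Vᴴ) * V
        = (Vᴴ * V) * diagonal (fun i => (μ i : ℂ)) * (Vᴴ * V) := by
          simp only [Matrix.mul_assoc]
      _ = _ := by rw [hVV]; simp
  have hAA : θ * θᴴ = θ' * θ'ᴴ := by
    rw [hθ', conjTranspose_mul]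
    calc θ * θᴴ = θ * (V * Vᴴ) * θᴴ := by rw [hVV']; simp
      _ = _ := by simp only [Matrix.mul_assoc]
  have hww : w * w⁻¹ = 1 := Matrix.mul_nonsing_inv w ((Matrix.isUnit_iff_isUnit_det w).mp hw.isUnit)
  have hww' : w⁻¹ * w = 1 := Matrix.nonsing_inv_mul w ((Matrix.isUnit_iff_isUnit_det w).mp hw.isUnit)
  -- the columns with `μ i = 0` vanish
  have hcol : ∀ i, μ i = 0 → ∀ j, θ' j i = 0 := by
    intro i hi
    have h1 : star (fun j => θ' j i) ⬝ᵥ (w⁻¹ *ᵥ fun j => θ' j i) = 0 := by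
      have := congrFun (congrFun hTT' i) i
      rw [diagonal_apply_eq, hi] at this
      rw [Matrix.mul_assoc, Matrix.mul_apply] at this
      simpa [dotProduct, mulVec, Matrix.mul_apply, conjTranspose_apply] using this
    by_contra h
    push Not at h
    obtain ⟨j, hj⟩ := h
    have h2 : (fun j => θ' j i) ≠ 0 := fun h => hj (congrFun h j)
    have h3 := hw.inv.dotProduct_mulVec_pos h2
    rw [h1] at h3
    exact lt_irrefl _ h3
  have hZc : ∀ d d' : q → ℝ, (∀ i, μ i ≠ 0 → d i = d' i) → ZZ w θ' d = ZZ w θ' d' := by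
    intro d d' hd
    have : θ' * diagonal (fun i => (d i : ℂ)) = θ' * diagonal (fun i => (d' i : ℂ)) := by
      ext j i
      rw [mul_diagonal, mul_diagonal]
      by_cases h : μ i = 0
      · rw [hcol i h j]; simp
      · rw [hd i h]
    have h2 : ZZ w θ' d = w⁻¹ * (θ' * diagonal (fun i => (d i : ℂ))) * θ'ᴴ * w⁻¹ := by
      simp only [ZZ, Matrix.mul_assoc]
    rw [h2, this]
    simp only [ZZ, Matrix.mul_assoc]
  have hZw : ∀ d d' : q → ℝ, ZZ w θ' d * w * ZZ w θ' d' = ZZ w θ' (fun i => d i * μ i * d' i) := by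
    intro d d'
    have h1 : (diagonal (fun i => ((d i * μ i * d' i : ℝ) : ℂ)) : Matrix q q ℂ) =
        diagonal (fun i => (d i : ℂ)) * diagonal (fun i => (μ i : ℂ)) *
          diagonal (fun i => (d' i : ℂ)) := by
      rw [diagonal_mul_diagonal, diagonal_mul_diagonal]; simp
    rw [ZZ, ZZ, ZZ, h1, ← hTT']
    calc w⁻¹ * θ' * diagonal (fun i => (d i : ℂ)) * θ'ᴴ * w⁻¹ * w *
          (w⁻¹ * θ' * diagonal (fun i => (d' i : ℂ)) * θ'ᴴ * w⁻¹)
        = w⁻¹ * θ' * diagonal (fun i => (d i : ℂ)) * θ'ᴴ * (w⁻¹ * w) *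
          (w⁻¹ * θ' * diagonal (fun i => (d' i : ℂ)) * θ'ᴴ * w⁻¹) := by
          simp only [Matrix.mul_assoc]
      _ = _ := by rw [hww']; simp only [Matrix.mul_assoc, Matrix.mul_one]
  set Q : q → Matrix m m ℂ := fun i => ZZ w θ' (fun k => if k = i then (μ i)⁻¹ else 0) with hQ
  have hQsum : ∀ c : q → ℝ, ∑ i, ((c i : ℝ) : ℂ) • Q i = ZZ w θ' (fun k => c k * (μ k)⁻¹) := by
    intro c
    have : (fun k => c k * (μ k)⁻¹) =
        fun k => ∑ i, c i * (if k = i then (μ i)⁻¹ else 0) := by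
      funext k
      simp
    rw [this, ZZ_sum]
    refine Finset.sum_congr rfl fun i _ => ?_
    rw [ZZ_smul]
  have hQ1 : ∑ i, Q i = ZZ w θ' (fun k => (μ k)⁻¹) := by
    have := hQsum (fun _ => 1)
    simpa using this
  refine ⟨μ, w⁻¹ - ∑ i, Q i, Q, hμ0, ?_, fun i => ZZ_psd hw fun k => ?_, by abel, ?_, ?_, ?_, ?_, ?_, ?_⟩
  · -- positivity of `Q0`
    rw [hQ1]
    have hH : (w⁻¹ - ZZ w θ' (fun k => (μ k)⁻¹)).IsHermitian :=
      hw.inv.1.sub (ZZ_psd hw fun k => inv_nonneg.mpr (hμ0 k)).1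
    have h1 : (w⁻¹ - ZZ w θ' (fun k => (μ k)⁻¹))ᴴ * w * (w⁻¹ - ZZ w θ' (fun k => (μ k)⁻¹)) =
        w⁻¹ - ZZ w θ' (fun k => (μ k)⁻¹) := by
      rw [hH.eq]
      set Z := ZZ w θ' (fun k => (μ k)⁻¹) with hZ
      have hZZ : Z * w * Z = Z := by
        rw [hZ, hZw]
        congr 1
        funext i
        by_cases h : μ i = 0
        · simp [h]
        · field_simp
      have hl : w⁻¹ * w * Z = Z := by rw [hww', Matrix.one_mul]
      have hr : Z * w * w⁻¹ = Z := by rw [Matrix.mul_assoc, hww, Matrix.mul_one]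
      have hm : w⁻¹ * w * w⁻¹ = w⁻¹ := by rw [hww', Matrix.one_mul]
      calc (w⁻¹ - Z) * w * (w⁻¹ - Z) = w⁻¹ * w * w⁻¹ - w⁻¹ * w * Z - Z * w * w⁻¹ + Z * w * Z := by
            noncomm_ring
        _ = _ := by rw [hl, hr, hm, hZZ]; abel
    rw [← h1]
    exact hw.posSemidef.conjTranspose_mul_mul_same _
  · by_cases h : k = i
    · simpa [h] using hμ0 i
    · simp [h]
  · intro τ hτ
    have hpos : ∀ i, 0 < 1 + τ * μ i := fun i => by
      have := mul_nonneg hτ (hμ0 i); linarith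
    rw [hQsum, hQ1]
    have h1 : (wt w θ τ)⁻¹ = w⁻¹ - ZZ w θ' (fun i => τ / (1 + τ * μ i)) := by
      apply Matrix.inv_eq_right_inv
      rw [wt, hAA, ZZ]
      set Dg : Matrix q q ℂ := diagonal (fun i => ((τ / (1 + τ * μ i) : ℝ) : ℂ)) with hDg
      have h2 : (τ : ℂ) • (1 : Matrix q q ℂ) - Dg -
          (τ : ℂ) • (diagonal (fun i => (μ i : ℂ)) * Dg) = 0 := by
        rw [hDg, diagonal_mul_diagonal, ← diagonal_one, ← diagonal_smul, ← diagonal_smul,
          diagonal_sub, diagonal_sub, ← diagonal_zero]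
        congr 1
        funext i
        have := (hpos i).ne'
        have h3 : τ - τ / (1 + τ * μ i) - τ * (μ i * (τ / (1 + τ * μ i))) = 0 := by
          field_simp; ring
        have h4 : ((τ - τ / (1 + τ * μ i) - τ * (μ i * (τ / (1 + τ * μ i))) : ℝ) : ℂ) = 0 := by
          rw [h3]; simp
        simpa using h4
      calc (w + (τ : ℂ) • (θ' * θ'ᴴ)) * (w⁻¹ - w⁻¹ * θ' * Dg * θ'ᴴ * w⁻¹)
          = w * w⁻¹ - (w * w⁻¹) * (θ' * Dg * θ'ᴴ * w⁻¹) + (τ : ℂ) • (θ' * θ'ᴴ * w⁻¹) -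
            (τ : ℂ) • (θ' * (θ'ᴴ * w⁻¹ * θ') * Dg * θ'ᴴ * w⁻¹) := by
            rw [Matrix.mul_sub, Matrix.add_mul, Matrix.add_mul]
            simp only [Matrix.mul_assoc, Matrix.smul_mul]
            abel
        _ = 1 + θ' * ((τ : ℂ) • (1 : Matrix q q ℂ) - Dg -
            (τ : ℂ) • (diagonal (fun i => (μ i : ℂ)) * Dg)) * θ'ᴴ * w⁻¹ := by
            rw [hww, hTT']
            simp only [Matrix.mul_sub, Matrix.sub_mul, Matrix.mul_smul, Matrix.smul_mul,
              Matrix.mul_one, Matrix.one_mul, Matrix.mul_assoc]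
            abel
        _ = 1 := by rw [h2]; simp
    rw [h1]
    have h5 : ZZ w θ' (fun i => τ / (1 + τ * μ i)) + ZZ w θ' (fun k => (1 + τ * μ k)⁻¹ * (μ k)⁻¹) =
        ZZ w θ' (fun k => (μ k)⁻¹) := by
      rw [← ZZ_add]
      apply hZc
      intro i hi
      have := (hpos i).ne'
      field_simp
      ring
    rw [← h5]
    abel
  · intro τ
    have : (1 + (τ : ℂ) • TT w θ) = V * diagonal (fun i => 1 + (τ : ℂ) * μ i) * Vᴴ := by
      have h1 : (diagonal (fun i => 1 + (τ : ℂ) * μ i) : Matrix q q ℂ) =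
          1 + (τ : ℂ) • diagonal (fun i => (μ i : ℂ)) := by
        rw [← diagonal_one, ← diagonal_smul, diagonal_add]; simp
      rw [h1, Matrix.mul_add, Matrix.add_mul, Matrix.mul_one, hVV', Matrix.mul_smul,
        Matrix.smul_mul, ← hspec]
    rw [this, det_mul, det_mul, det_diagonal]
    have hd : V.det * Vᴴ.det = 1 := by rw [← det_mul, hVV', det_one]
    linear_combination (∏ i, (1 + (τ : ℂ) * μ i)) * hd
  · rw [hspec, det_mul, det_mul, det_diagonal]
    have hd : V.det * Vᴴ.det = 1 := by rw [← det_mul, hVV', det_one]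
    linear_combination (∏ i, (μ i : ℂ)) * hd
  · rw [hspec, trace_mul_comm, ← Matrix.mul_assoc, hVV, Matrix.one_mul, trace_diagonal]
  · intro hdet
    have hpr : (TT w θ).det = ∏ i, (μ i : ℂ) := by
      rw [hspec, det_mul, det_mul, det_diagonal]
      have hd : V.det * Vᴴ.det = 1 := by rw [← det_mul, hVV', det_one]
      linear_combination (∏ i, (μ i : ℂ)) * hd
    have hne : ∀ i, μ i ≠ 0 := by
      intro i hi
      apply hdet
      rw [hpr]
      exact Finset.prod_eq_zero (Finset.mem_univ i) (by simp [hi])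
    rw [hQ1, Pv]
    congr 1
    have hinv : (TT w θ)⁻¹ = V * diagonal (fun i => (((μ i)⁻¹ : ℝ) : ℂ)) * Vᴴ := by
      apply Matrix.inv_eq_right_inv
      rw [hspec]
      calc V * diagonal (fun i => (μ i : ℂ)) * Vᴴ * (V * diagonal (fun i => (((μ i)⁻¹ : ℝ) : ℂ)) * Vᴴ)
          = V * (diagonal (fun i => (μ i : ℂ)) * (Vᴴ * V) * diagonal (fun i => (((μ i)⁻¹ : ℝ) : ℂ))) *
            Vᴴ := by simp only [Matrix.mul_assoc]
        _ = V * 1 * Vᴴ := by
            rw [hVV, Matrix.mul_one, diagonal_mul_diagonal]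
            congr 2
            rw [← diagonal_one]
            congr 1
            funext i
            have : (μ i : ℂ) ≠ 0 := by exact_mod_cast hne i
            simp [this]
        _ = 1 := by rw [Matrix.mul_one, hVV']
    rw [hinv, ZZ, hθ', conjTranspose_mul]
    simp only [Matrix.mul_assoc]
  · intro i hi
    have : (fun k => if k = i then (μ i)⁻¹ else 0) = fun _ => (0 : ℝ) := by
      funext k; simp [hi]
    simp only [hQ]
    rw [this, ZZ_zero]

end Vale.Agent.P284.H279
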