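import Vale.Agent.P284.H279.A2f
import Vale.Agent.P284.H451.A2G

/-!
# P284 (helper279): `H402.A.A2Stmt`
-/

open scoped ComplexOrder MatrixOrder
open Matrix

noncomputable section

namespace Vale.Agent.P284.H279

/-- **A2** (fields of helper451 and helper279) -/
theorem a2Stmt : H402.A.A2Stmt where
  det_WW := fun w θ δ hw hδ => H451.A2.det_WW w θ δ hw hδ
  inv_WW := fun w θ δ hw hδ => H451.A2.inv_WW w θ δ hw hδ
  DD_nonneg := fun w θ δ hw hδ => H451.A2.DD_nonneg w θ δ hw hδ
  DD_pos := fun w θ hw h => H451.A2.DD_pos w θ hw h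
  up := up
  herm := fun w θ δ hw hδ => H451.A2.herm w θ δ hw hδ
  low := fun _ θ _ hw hδ α => low hw θ hδ α
  bord := fun _ θ hw α β => bord hw θ α β
  zero := fun w θ hw h => H451.A2.zero w θ hw h
  tr_nonneg := fun w θ δ x hw hδ hx => H451.A2.tr_nonneg w θ δ x hw hδ hx
  tr_zero := fun w θ δ x hw hδ hx => H451.A2.tr_zero w θ δ x hw hδ hx
  main := H451.A2.main

end Vale.Agent.P284.H279
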