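import Vale.Agent.P284.H279.A2

/-!
# P284 (helper279), A2: the pointwise inequalities for `w_τ = w + τ θ θ*`, `τ ≥ 1`
-/

open scoped ComplexOrder MatrixOrder
open Matrix

set_option linter.unusedSectionVars false

noncomputable section

namespace Vale.Agent.P284.H279

variable {m q : Type*} [Fintype m] [DecidableEq m] [Fintype q] [DecidableEq q]

/-- `det (1 + τ T) = vol_τ / vol` -/
def UU (w : Matrix m m ℂ) (θ : Matrix m q ℂ) (τ : ℝ) : ℝ := (1 + (τ : ℂ) • TT w θ).det.re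

/-- `det T` -/
def DD (w : Matrix m m ℂ) (θ : Matrix m q ℂ) : ℝ := (TT w θ).det.re

/-! ### Real inequalities -/

section Real

variable {ι : Type*} [Fintype ι] [DecidableEq ι]

theorem prod_ge (μ : ι → ℝ) (hμ : ∀ i, 0 ≤ μ i) (τ : ℝ) (hτ : 0 ≤ τ) :
    τ ^ Fintype.card ι * ∏ i, μ i ≤ ∏ i, (1 + τ * μ i) := by
  have : τ ^ Fintype.card ι * ∏ i, μ i = ∏ i, (τ * μ i) := by
    rw [Finset.prod_mul_distrib]; simp [Finset.card_univ]
  rw [this]
  exact Finset.prod_le_prod (fun i _ => mul_nonneg hτ (hμ i)) fun i _ => by linarith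

theorem prod_gap (μ : ι → ℝ) (hμ : ∀ i, 0 ≤ μ i) (τ : ℝ) (hτ : 0 ≤ τ) (Λ : ℝ)
    (hΛ : ∑ i, μ i ≤ Λ) [Nonempty ι] :
    τ ^ Fintype.card ι * ∏ i, μ i ≤ τ * Λ * (∏ i, (1 + τ * μ i) - τ ^ Fintype.card ι * ∏ i, μ i) := by
  obtain ⟨i⟩ := ‹Nonempty ι›
  have h0 : ∀ s : Finset ι, 0 ≤ ∏ j ∈ s, τ * μ j := fun s =>
    Finset.prod_nonneg fun j _ => mul_nonneg hτ (hμ j)
  have h1 : τ ^ Fintype.card ι * ∏ i, μ i = ∏ i, (τ * μ i) := by
    rw [Finset.prod_mul_distrib]; simp [Finset.card_univ]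
  have h2 : ∏ j, (1 + τ * μ j) = (1 + τ * μ i) * ∏ j ∈ Finset.univ.erase i, (1 + τ * μ j) :=
    (Finset.mul_prod_erase _ _ (Finset.mem_univ i)).symm
  have h3 : ∏ j, (τ * μ j) = (τ * μ i) * ∏ j ∈ Finset.univ.erase i, (τ * μ j) :=
    (Finset.mul_prod_erase _ _ (Finset.mem_univ i)).symm
  have h4 : ∏ j ∈ Finset.univ.erase i, (τ * μ j) ≤ ∏ j ∈ Finset.univ.erase i, (1 + τ * μ j) :=
    Finset.prod_le_prod (fun i _ => mul_nonneg hτ (hμ i)) fun i _ => by linarith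
  rw [h1, h2, h3]
  have h5 := h0 (Finset.univ.erase i)
  set A := ∏ j ∈ Finset.univ.erase i, (τ * μ j)
  set B := ∏ j ∈ Finset.univ.erase i, (1 + τ * μ j)
  have h6 : μ i ≤ Λ := le_trans (Finset.single_le_sum (fun j _ => hμ j) (Finset.mem_univ i)) hΛ
  have h7 : A ≤ (1 + τ * μ i) * B - τ * μ i * A := by
    nlinarith [mul_nonneg hτ (hμ i)]
  have h8 : 0 ≤ τ * Λ := mul_nonneg hτ ((hμ i).trans h6)
  calc τ * μ i * A ≤ τ * Λ * A := by
        have : τ * μ i ≤ τ * Λ := mul_le_mul_of_nonneg_left h6 hτ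
        nlinarith
    _ ≤ _ := mul_le_mul_of_nonneg_left h7 h8

theorem prod_sub_le (s : Finset ι) (μ : ι → ℝ) (hμ : ∀ i, 0 ≤ μ i) (t : ℝ) (ht : 0 ≤ t)
    (ht1 : t ≤ 1) : ∏ i ∈ s, (t + μ i) - ∏ i ∈ s, μ i ≤
      t * (∏ i ∈ s, (1 + μ i) - ∏ i ∈ s, μ i) := by
  induction s using Finset.induction_on with
  | empty => simp
  | insert a s ha ih =>
    rw [Finset.prod_insert ha, Finset.prod_insert ha, Finset.prod_insert ha]
    have hA : ∏ i ∈ s, μ i ≤ ∏ i ∈ s, (1 + μ i) :=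
      Finset.prod_le_prod (fun i _ => hμ i) fun i _ => by linarith
    have hA0 : 0 ≤ ∏ i ∈ s, μ i := Finset.prod_nonneg fun i _ => hμ i
    set A0 := ∏ i ∈ s, μ i
    set A1 := ∏ i ∈ s, (1 + μ i)
    set At := ∏ i ∈ s, (t + μ i)
    have h1 : (t + μ a) * At ≤ (t + μ a) * (A0 + t * (A1 - A0)) :=
      mul_le_mul_of_nonneg_left (by linarith) (by linarith [hμ a])
    nlinarith [mul_nonneg ht (sub_nonneg.mpr hA), hμ a, mul_nonneg (mul_nonneg ht (sub_nonneg.mpr ht1)) (sub_nonneg.mpr hA)]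

theorem prod_up (μ : ι → ℝ) (hμ : ∀ i, 0 ≤ μ i) (Λ : ℝ) (hΛ : ∑ i, μ i ≤ Λ) (s : Finset ι) :
    ∏ i ∈ s, (1 + μ i) ≤ (1 + Λ) ^ s.card := by
  rw [← Finset.prod_const]
  exact Finset.prod_le_prod (fun i _ => by linarith [hμ i]) fun i _ => by
    have := Finset.single_le_sum (fun j _ => hμ j) (Finset.mem_univ i) |>.trans hΛ
    linarith

end Real

/-- scaled frame data -/
theorem frame2 {w : Matrix m m ℂ} (hw : w.PosDef) (θ : Matrix m q ℂ) :
    ∃ (μ : q → ℝ) (Q0 : Matrix m m ℂ) (Q : q → Matrix m m ℂ), (∀ i, 0 ≤ μ i) ∧ Q0.PosSemidef ∧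
      (∀ i, (Q i).PosSemidef) ∧ w⁻¹ = Q0 + ∑ i, Q i ∧
      (∀ τ : ℝ, 0 ≤ τ → (wt w θ τ)⁻¹ = Q0 + ∑ i, (((1 + τ * μ i)⁻¹ : ℝ) : ℂ) • Q i) ∧
      (∀ τ : ℝ, UU w θ τ = ∏ i, (1 + τ * μ i)) ∧
      DD w θ = ∏ i, μ i ∧ (TT w θ).trace.re = ∑ i, μ i ∧
      (DD w θ ≠ 0 → Pv w θ = Q0) ∧ ∀ i, μ i = 0 → Q i = 0 := by
  obtain ⟨μ, Q0, Q, h1, h2, h3, h4, h5, h6, h7, h8, h9, h10⟩ := frame hw θ
  refine ⟨μ, Q0, Q, h1, h2, h3, h4, h5, fun τ => ?_, ?_, ?_, fun h => h9 ?_, h10⟩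
  · have : (∏ i, (1 + (τ : ℂ) * μ i)) = ((∏ i, (1 + τ * μ i) : ℝ) : ℂ) := by push_cast; rfl
    rw [UU, h6, this, Complex.ofReal_re]
  · have : (∏ i, (μ i : ℂ)) = ((∏ i, μ i : ℝ) : ℂ) := by push_cast; rfl
    rw [DD, h7, this, Complex.ofReal_re]
  · have : (∑ i, (μ i : ℂ)) = ((∑ i, μ i : ℝ) : ℂ) := by push_cast; rfl
    rw [h8, this, Complex.ofReal_re]
  · intro h0
    apply h
    rw [DD, h0, Complex.zero_re]

theorem DD_nn {w : Matrix m m ℂ} (hw : w.PosDef) (θ : Matrix m q ℂ) : 0 ≤ DD w θ := by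
  obtain ⟨μ, Q0, Q, h1, h2, h3, h4, h5, h6, h7, h8, h9, h10⟩ := frame2 hw θ
  rw [h7]
  exact Finset.prod_nonneg fun i _ => h1 i

theorem DD_le {w : Matrix m m ℂ} (hw : w.PosDef) (θ : Matrix m q ℂ) {τ : ℝ} (hτ : 0 < τ) :
    DD w θ ≤ UU w θ τ / τ ^ Fintype.card q := by
  obtain ⟨μ, Q0, Q, h1, h2, h3, h4, h5, h6, h7, h8, h9, h10⟩ := frame2 hw θ
  rw [h7, h6, le_div_iff₀ (by positivity), mul_comm]
  exact prod_ge μ h1 τ hτ.le

theorem re_tr_smul (c : ℝ) (A : Matrix m m ℂ) : ((c : ℂ) • A).trace.re = c * A.trace.re := by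
  rw [trace_smul, smul_eq_mul, Complex.re_ofReal_mul]

/-- **gradient part**: `0 ≤ τ (U τ^{-q} tr (w_τ⁻¹ X) - D tr (P_v X)) ≤ (1 + Λ)^q tr (w⁻¹ X)`, `X ≥ 0` -/
theorem grad_bd {w : Matrix m m ℂ} (hw : w.PosDef) (θ : Matrix m q ℂ) {τ : ℝ} (hτ : 1 ≤ τ) {Λ : ℝ}
    (hΛ : (TT w θ).trace.re ≤ Λ) {X : Matrix m m ℂ} (hX : X.PosSemidef) :
    0 ≤ τ * (UU w θ τ / τ ^ Fintype.card q * ((wt w θ τ)⁻¹ * X).trace.re -
      DD w θ * (Pv w θ * X).trace.re) ∧
    τ * (UU w θ τ / τ ^ Fintype.card q * ((wt w θ τ)⁻¹ * X).trace.re -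
      DD w θ * (Pv w θ * X).trace.re) ≤ (1 + Λ) ^ Fintype.card q * (w⁻¹ * X).trace.re := by
  obtain ⟨μ, Q0, Q, h1, h2, h3, h4, h5, h6, h7, h8, h9, h10⟩ := frame2 hw θ
  have hτ0 : 0 < τ := by linarith
  rw [h8] at hΛ
  have hΛ0 : 0 ≤ Λ := (Finset.sum_nonneg fun i _ => h1 i).trans hΛ
  have g0 : 0 ≤ (Q0 * X).trace.re := trace_mul_nn h2 hX
  have gi : ∀ i, 0 ≤ (Q i * X).trace.re := fun i => trace_mul_nn (h3 i) hX
  have e1 : ((wt w θ τ)⁻¹ * X).trace.re =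
      (Q0 * X).trace.re + ∑ i, (1 + τ * μ i)⁻¹ * (Q i * X).trace.re := by
    rw [h5 τ hτ0.le, Matrix.add_mul, trace_add, Complex.add_re, Finset.sum_mul, trace_sum,
      Complex.re_sum]
    congr 1
    refine Finset.sum_congr rfl fun i _ => ?_
    rw [Matrix.smul_mul, re_tr_smul]
  have e2 : (w⁻¹ * X).trace.re = (Q0 * X).trace.re + ∑ i, (Q i * X).trace.re := by
    rw [h4, Matrix.add_mul, trace_add, Complex.add_re, Finset.sum_mul, trace_sum, Complex.re_sum]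
  have e3 : DD w θ * (Pv w θ * X).trace.re = DD w θ * (Q0 * X).trace.re := by
    by_cases h : DD w θ = 0
    · rw [h]; ring
    · rw [h9 h]
  rw [e3, e1, e2, h6, h7]
  set U : ℝ := ∏ i, (1 + τ * μ i) with hU
  set D : ℝ := ∏ i, μ i with hD
  set g := (Q0 * X).trace.re
  have hDU := prod_ge μ h1 τ hτ0.le
  have hτq : 0 < τ ^ Fintype.card q := by positivity
  have hDU' : D ≤ U / τ ^ Fintype.card q := by
    rw [le_div_iff₀ hτq, mul_comm]; exact hDU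
  have hU0 : 0 ≤ U := Finset.prod_nonneg fun i _ => by
    have := mul_nonneg hτ0.le (h1 i); linarith
  have hpos : ∀ i, 0 < 1 + τ * μ i := fun i => by
    have := mul_nonneg hτ0.le (h1 i); linarith
  have hS0 : 0 ≤ ∑ i, (1 + τ * μ i)⁻¹ * (Q i * X).trace.re :=
    Finset.sum_nonneg fun i _ => mul_nonneg (inv_nonneg.mpr (hpos i).le) (gi i)
  have hkey : U / τ ^ Fintype.card q = ∏ i, (τ⁻¹ + μ i) := by
    rw [div_eq_iff hτq.ne', hU, Fintype.card, ← Finset.prod_const, ← Finset.prod_mul_distrib]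
    refine Finset.prod_congr rfl fun i _ => ?_
    field_simp
  constructor
  · apply mul_nonneg hτ0.le
    rw [mul_add]
    have : D * g ≤ U / τ ^ Fintype.card q * g := mul_le_mul_of_nonneg_right hDU' g0
    have := mul_nonneg (div_nonneg hU0 hτq.le) hS0
    linarith
  · have b1 : τ * (U / τ ^ Fintype.card q - D) ≤ (1 + Λ) ^ Fintype.card q := by
      rw [hkey]
      have := prod_sub_le Finset.univ μ h1 τ⁻¹ (inv_nonneg.mpr hτ0.le) (inv_le_one_of_one_le₀ hτ)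
      have h11 := prod_up μ h1 Λ hΛ Finset.univ
      have hD0 : 0 ≤ ∏ i, μ i := Finset.prod_nonneg fun i _ => h1 i
      calc τ * (∏ i, (τ⁻¹ + μ i) - D) ≤ τ * (τ⁻¹ * (∏ i, (1 + μ i) - ∏ i, μ i)) :=
            mul_le_mul_of_nonneg_left this hτ0.le
        _ = ∏ i, (1 + μ i) - ∏ i, μ i := by field_simp
        _ ≤ ∏ i, (1 + μ i) := by linarith
        _ ≤ _ := h11
    have b2 : ∀ i, τ * (U / τ ^ Fintype.card q * (1 + τ * μ i)⁻¹) ≤ (1 + Λ) ^ Fintype.card q := by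
      intro i
      have e4 : U = (1 + τ * μ i) * ∏ j ∈ Finset.univ.erase i, (1 + τ * μ j) :=
        (Finset.mul_prod_erase _ _ (Finset.mem_univ i)).symm
      have hc : (Finset.univ.erase i).card + 1 = Fintype.card q := by
        rw [Finset.card_erase_of_mem (Finset.mem_univ i), Finset.card_univ]
        have : 0 < Fintype.card q := Fintype.card_pos_iff.mpr ⟨i⟩
        omega
      have e5 : τ * (U / τ ^ Fintype.card q * (1 + τ * μ i)⁻¹) =
          ∏ j ∈ Finset.univ.erase i, (τ⁻¹ + μ j) := by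
        have e6 : ∏ j ∈ Finset.univ.erase i, (1 + τ * μ j) =
            τ ^ (Finset.univ.erase i).card * ∏ j ∈ Finset.univ.erase i, (τ⁻¹ + μ j) := by
          rw [← Finset.prod_const, ← Finset.prod_mul_distrib]
          refine Finset.prod_congr rfl fun j _ => ?_
          field_simp
        rw [e4, e6, ← hc, pow_succ]
        have := (hpos i).ne'
        field_simp
      rw [e5]
      calc ∏ j ∈ Finset.univ.erase i, (τ⁻¹ + μ j) ≤ ∏ j ∈ Finset.univ.erase i, (1 + μ j) :=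
            Finset.prod_le_prod (fun j _ => by have := inv_nonneg.mpr hτ0.le; linarith [h1 j])
              fun j _ => by have := inv_le_one_of_one_le₀ hτ; linarith
        _ ≤ (1 + Λ) ^ (Finset.univ.erase i).card := prod_up μ h1 Λ hΛ _
        _ ≤ (1 + Λ) ^ Fintype.card q := pow_le_pow_right₀ (by linarith) (by omega)
    have e7 : τ * (U / τ ^ Fintype.card q * (g + ∑ i, (1 + τ * μ i)⁻¹ * (Q i * X).trace.re) - D * g) =
        τ * (U / τ ^ Fintype.card q - D) * g +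
          ∑ i, τ * (U / τ ^ Fintype.card q * (1 + τ * μ i)⁻¹) * (Q i * X).trace.re := by
      rw [mul_add, Finset.mul_sum]
      have : τ * (U / τ ^ Fintype.card q * g + ∑ i, U / τ ^ Fintype.card q *
          ((1 + τ * μ i)⁻¹ * (Q i * X).trace.re) - D * g) =
          τ * (U / τ ^ Fintype.card q - D) * g + τ * ∑ i, U / τ ^ Fintype.card q *
          ((1 + τ * μ i)⁻¹ * (Q i * X).trace.re) := by ring
      rw [this, Finset.mul_sum]
      congr 1
      refine Finset.sum_congr rfl fun i _ => ?_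
      ring
    rw [e7, mul_add, Finset.mul_sum]
    apply add_le_add
    · exact mul_le_mul_of_nonneg_right b1 g0
    · exact Finset.sum_le_sum fun i _ => mul_le_mul_of_nonneg_right (b2 i) (gi i)

/-- the integrand of `-H (L f) f` (after the Kähler identity): sum of squares -/
def MM (w : Matrix m m ℂ) (θ : Matrix m q ℂ) (τ : ℝ) (x : Matrix m m ℂ) : ℝ :=
  τ / 2 * ((UU w θ τ / τ ^ Fintype.card q - DD w θ) * ((wt w θ τ)⁻¹ * x).trace.re ^ 2 +
    DD w θ * (((wt w θ τ)⁻¹ * x).trace.re - (Pv w θ * x).trace.re) ^ 2 +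
    (UU w θ τ / τ ^ Fintype.card q * ((wt w θ τ)⁻¹ * x * ((wt w θ τ)⁻¹ * x)).trace.re -
      DD w θ * (Pv w θ * x * (Pv w θ * x)).trace.re))

/-- **A2**: the three inequalities. -/
theorem MM_main {w : Matrix m m ℂ} (hw : w.PosDef) (θ : Matrix m q ℂ) {τ : ℝ} (hτ : 1 ≤ τ) {Λ : ℝ}
    (hΛ : (TT w θ).trace.re ≤ Λ) {x : Matrix m m ℂ} (hx : x.IsHermitian) :
    τ / 2 * (DD w θ * (((wt w θ τ)⁻¹ * x).trace.re - (Pv w θ * x).trace.re) ^ 2) ≤ MM w θ τ x ∧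
    0 ≤ MM w θ τ x ∧
    (0 < Fintype.card q →
      DD w θ * (Pv w θ * x * (w⁻¹ * x)).trace.re ≤ 2 * (1 + Λ) * MM w θ τ x) := by
  obtain ⟨μ, Q0, Q, h1, h2, h3, h4, h5, h6, h7, h8, h9, h10⟩ := frame2 hw θ
  have hτ0 : 0 < τ := by linarith
  rw [h8] at hΛ
  have hΛ0 : 0 ≤ Λ := (Finset.sum_nonneg fun i _ => h1 i).trans hΛ
  have a00 : 0 ≤ (Q0 * x * (Q0 * x)).trace.re := trq_nn h2 h2 hx
  have a0i : ∀ i, 0 ≤ (Q0 * x * (Q i * x)).trace.re := fun i => trq_nn h2 (h3 i) hx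
  have hpos : ∀ i, 0 < 1 + τ * μ i := fun i => by
    have := mul_nonneg hτ0.le (h1 i); linarith
  -- `R = w_τ⁻¹ - Q0`
  set R : Matrix m m ℂ := ∑ i, (((1 + τ * μ i)⁻¹ : ℝ) : ℂ) • Q i with hR
  have hRp : R.PosSemidef := by
    refine posSemidef_sum _ fun i _ => (h3 i).smul ?_
    exact_mod_cast inv_nonneg.mpr (hpos i).le
  have e1 : ((wt w θ τ)⁻¹ * x * ((wt w θ τ)⁻¹ * x)).trace.re = (Q0 * x * (Q0 * x)).trace.re +
      2 * (Q0 * x * (R * x)).trace.re + (R * x * (R * x)).trace.re := by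
    rw [h5 τ hτ0.le]
    have : (Q0 + R) * x * ((Q0 + R) * x) = Q0 * x * (Q0 * x) + Q0 * x * (R * x) +
        (R * x * (Q0 * x) + R * x * (R * x)) := by
      simp only [Matrix.add_mul, Matrix.mul_add]
      abel
    rw [this]
    simp only [trace_add, Complex.add_re]
    rw [trace_mul_comm (R * x) (Q0 * x)]
    ring
  have rr : 0 ≤ (R * x * (R * x)).trace.re := trq_nn hRp hRp hx
  have e2 : (Q0 * x * (R * x)).trace.re = ∑ i, (1 + τ * μ i)⁻¹ * (Q0 * x * (Q i * x)).trace.re := by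
    rw [hR, Finset.sum_mul, Matrix.mul_sum, trace_sum, Complex.re_sum]
    refine Finset.sum_congr rfl fun i _ => ?_
    rw [Matrix.smul_mul, Matrix.mul_smul, re_tr_smul]
  have e3 : (Q0 * x * (w⁻¹ * x)).trace.re =
      (Q0 * x * (Q0 * x)).trace.re + ∑ i, (Q0 * x * (Q i * x)).trace.re := by
    rw [h4, Matrix.add_mul, Matrix.mul_add, trace_add, Complex.add_re, Finset.sum_mul,
      Matrix.mul_sum, trace_sum, Complex.re_sum]
  have q0 : 0 ≤ (Q0 * x * (R * x)).trace.re := trq_nn h2 hRp hx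
  have hDU := prod_ge μ h1 τ hτ0.le
  have hτq : 0 < τ ^ Fintype.card q := by positivity
  have hD0 : 0 ≤ ∏ i, μ i := Finset.prod_nonneg fun i _ => h1 i
  have hDU' : ∏ i, μ i ≤ (∏ i, (1 + τ * μ i)) / τ ^ Fintype.card q := by
    rw [le_div_iff₀ hτq, mul_comm]; exact hDU
  have hv : DD w θ * (Pv w θ * x * (Pv w θ * x)).trace.re =
      DD w θ * (Q0 * x * (Q0 * x)).trace.re := by
    by_cases h : DD w θ = 0
    · rw [h]; ring
    · rw [h9 h]
  have hv2 : DD w θ * (Pv w θ * x * (w⁻¹ * x)).trace.re =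
      DD w θ * (Q0 * x * (w⁻¹ * x)).trace.re := by
    by_cases h : DD w θ = 0
    · rw [h]; ring
    · rw [h9 h]
  -- the third bracket
  have hthird : (∏ i, (1 + τ * μ i)) / τ ^ Fintype.card q *
      ((wt w θ τ)⁻¹ * x * ((wt w θ τ)⁻¹ * x)).trace.re -
      DD w θ * (Pv w θ * x * (Pv w θ * x)).trace.re =
      ((∏ i, (1 + τ * μ i)) / τ ^ Fintype.card q - ∏ i, μ i) * (Q0 * x * (Q0 * x)).trace.re +
      (∏ i, (1 + τ * μ i)) / τ ^ Fintype.card q *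
        (2 * (Q0 * x * (R * x)).trace.re + (R * x * (R * x)).trace.re) := by
    rw [hv, e1, h7]; ring
  have hU0 : 0 ≤ (∏ i, (1 + τ * μ i)) / τ ^ Fintype.card q := hD0.trans hDU'
  set Ut : ℝ := (∏ i, (1 + τ * μ i)) / τ ^ Fintype.card q with hUt
  set D : ℝ := ∏ i, μ i with hD
  have k1 : 0 ≤ (Ut - D) * (Q0 * x * (Q0 * x)).trace.re := mul_nonneg (by linarith) a00
  have k2 : 0 ≤ Ut * (2 * (Q0 * x * (R * x)).trace.re + (R * x * (R * x)).trace.re) :=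
    mul_nonneg hU0 (by linarith)
  have k3 : 0 ≤ (Ut - D) * ((wt w θ τ)⁻¹ * x).trace.re ^ 2 := mul_nonneg (by linarith) (sq_nonneg _)
  have k4 : 0 ≤ D * (((wt w θ τ)⁻¹ * x).trace.re - (Pv w θ * x).trace.re) ^ 2 :=
    mul_nonneg hD0 (sq_nonneg _)
  have hM : MM w θ τ x = τ / 2 * ((Ut - D) * ((wt w θ τ)⁻¹ * x).trace.re ^ 2 +
    D * (((wt w θ τ)⁻¹ * x).trace.re - (Pv w θ * x).trace.re) ^ 2 +
    ((Ut - D) * (Q0 * x * (Q0 * x)).trace.re +
      Ut * (2 * (Q0 * x * (R * x)).trace.re + (R * x * (R * x)).trace.re))) := by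
    rw [← hthird, MM, h6, h7]
  have hτ2 : 0 ≤ τ / 2 := by linarith
  refine ⟨?_, ?_, fun hq => ?_⟩
  · rw [hM, h7]
    exact mul_le_mul_of_nonneg_left (by linarith) hτ2
  · rw [hM]
    exact mul_nonneg hτ2 (by linarith)
  · have : Nonempty q := Fintype.card_pos_iff.mp hq
    rw [hv2, h7, hM]
    have b1 : D ≤ τ * Λ * (Ut - D) := by
      have := prod_gap μ h1 τ hτ0.le Λ hΛ
      have e5 : τ * Λ * (Ut - D) = (τ * Λ * (∏ i, (1 + τ * μ i) - τ ^ Fintype.card q * ∏ i, μ i)) /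
          τ ^ Fintype.card q := by
        rw [hUt, hD]; field_simp
      rw [e5, le_div_iff₀ hτq, mul_comm]
      exact this
    have b2 : D * ∑ i, (Q0 * x * (Q i * x)).trace.re ≤
        τ * (1 + Λ) * (Ut * (Q0 * x * (R * x)).trace.re) := by
      rw [e2, Finset.mul_sum, Finset.mul_sum, Finset.mul_sum]
      refine Finset.sum_le_sum fun i _ => ?_
      have hi : μ i ≤ Λ := le_trans (Finset.single_le_sum (fun j _ => h1 j) (Finset.mem_univ i)) hΛ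
      have e6 : 1 ≤ τ * (1 + Λ) * (1 + τ * μ i)⁻¹ := by
        rw [← div_eq_mul_inv, le_div_iff₀ (hpos i), one_mul]
        nlinarith
      have ha := a0i i
      calc D * (Q0 * x * (Q i * x)).trace.re ≤ Ut * (Q0 * x * (Q i * x)).trace.re :=
            mul_le_mul_of_nonneg_right hDU' ha
        _ ≤ (τ * (1 + Λ) * (1 + τ * μ i)⁻¹) * (Ut * (Q0 * x * (Q i * x)).trace.re) :=
            le_mul_of_one_le_left (mul_nonneg hU0 ha) e6
        _ = _ := by ring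
    have b3 : D * (Q0 * x * (Q0 * x)).trace.re ≤
        τ * (1 + Λ) * ((Ut - D) * (Q0 * x * (Q0 * x)).trace.re) := by
      have : D ≤ τ * (1 + Λ) * (Ut - D) := by nlinarith
      calc D * (Q0 * x * (Q0 * x)).trace.re ≤ (τ * (1 + Λ) * (Ut - D)) * (Q0 * x * (Q0 * x)).trace.re :=
            mul_le_mul_of_nonneg_right this a00
        _ = _ := by ring
    rw [e3, mul_add]
    have b4 : 0 ≤ Ut * (Q0 * x * (R * x)).trace.re := mul_nonneg hU0 q0
    have b5 : 0 ≤ Ut * (R * x * (R * x)).trace.re := mul_nonneg hU0 rr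
    have b6 : 0 ≤ τ * (1 + Λ) := by positivity
    calc D * (Q0 * x * (Q0 * x)).trace.re + D * ∑ i, (Q0 * x * (Q i * x)).trace.re
        ≤ τ * (1 + Λ) * ((Ut - D) * (Q0 * x * (Q0 * x)).trace.re) +
          τ * (1 + Λ) * (Ut * (Q0 * x * (R * x)).trace.re) := add_le_add b3 b2
      _ = τ * (1 + Λ) * ((Ut - D) * (Q0 * x * (Q0 * x)).trace.re + Ut * (Q0 * x * (R * x)).trace.re) := by
          ring
      _ ≤ τ * (1 + Λ) * ((Ut - D) * ((wt w θ τ)⁻¹ * x).trace.re ^ 2 +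
          D * (((wt w θ τ)⁻¹ * x).trace.re - (Pv w θ * x).trace.re) ^ 2 +
          ((Ut - D) * (Q0 * x * (Q0 * x)).trace.re +
          Ut * (2 * (Q0 * x * (R * x)).trace.re + (R * x * (R * x)).trace.re))) := by
          apply mul_le_mul_of_nonneg_left _ b6
          have e8 : Ut * (2 * (Q0 * x * (R * x)).trace.re + (R * x * (R * x)).trace.re) =
              2 * (Ut * (Q0 * x * (R * x)).trace.re) + Ut * (R * x * (R * x)).trace.re := by ring
          rw [e8]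
          linarith
      _ = _ := by ring

end Vale.Agent.P284.H279
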