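import Vale.Agent.P284.H279.A2
import Vale.Agent.P284.H402.A.Spec

/-!
# P284 (helper279), A2: frames for `A2Stmt` (`δ`-form)
-/

open scoped ComplexOrder MatrixOrder
open Matrix

set_option linter.unusedSectionVars false

noncomputable section

namespace Vale.Agent.P284.H279

variable {m q : Type*} [Fintype m] [DecidableEq m] [Fintype q] [DecidableEq q]

/-- **Frame**: simultaneous diagonalisation of `w` and `θ θ*`, expressed by the inverse matrices. -/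
theorem frameD0 {w : Matrix m m ℂ} (hw : w.PosDef) (θ : Matrix m q ℂ) :
    ∃ (μ : q → ℝ) (Q0 : Matrix m m ℂ) (Q : q → Matrix m m ℂ), (∀ i, 0 ≤ μ i) ∧ Q0.PosSemidef ∧
      (∀ i, (Q i).PosSemidef) ∧ w⁻¹ = Q0 + ∑ i, Q i ∧
      (∀ τ : ℝ, 0 ≤ τ → (wt w θ τ)⁻¹ = Q0 + ∑ i, (((1 + τ * μ i)⁻¹ : ℝ) : ℂ) • Q i) ∧
      (∀ Λ : ℝ, ((Λ : ℂ) • (1 : Matrix q q ℂ) - TT w θ).PosSemidef → ∀ i, μ i ≤ Λ) ∧
      (∀ δ : ℝ, ((δ : ℂ) • (1 : Matrix q q ℂ) + TT w θ).det = ∏ i, ((δ : ℂ) + μ i)) ∧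
      (∀ δ : ℝ, ((δ : ℂ) • (1 : Matrix q q ℂ) + TT w θ).det • w⁻¹ -
        w⁻¹ * θ * ((δ : ℂ) • (1 : Matrix q q ℂ) + TT w θ).adjugate * θᴴ * w⁻¹ =
        ((∏ i, (δ + μ i) : ℝ) : ℂ) • Q0 +
          ∑ i, ((δ * ∏ j ∈ Finset.univ.erase i, (δ + μ j) : ℝ) : ℂ) • Q i) := by
  classical
  have hT := psd_TT hw θ
  set V : Matrix q q ℂ := (hT.1.eigenvectorUnitary : Matrix q q ℂ) with hV
  set μ : q → ℝ := hT.1.eigenvalues with hμ
  have hVV : Vᴴ * V = 1 := by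
    have := (Matrix.mem_unitaryGroup_iff' (A := V)).mp hT.1.eigenvectorUnitary.2
    simpa [star_eq_conjTranspose] using this
  have hVV' : V * Vᴴ = 1 := by
    have := (Matrix.mem_unitaryGroup_iff (A := V)).mp hT.1.eigenvectorUnitary.2
    simpa [star_eq_conjTranspose] using this
  have hspec : TT w θ = V * diagonal (fun i => (μ i : ℂ)) * Vᴴ := by
    have := hT.1.spectral_theorem
    rw [Unitary.conjStarAlgAut_apply] at this
    simpa [star_eq_conjTranspose, Function.comp_def] using this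
  have hμ0 : ∀ i, 0 ≤ μ i := fun i => hT.eigenvalues_nonneg i
  -- replace `θ` by `θ V`
  set θ' : Matrix m q ℂ := θ * V with hθ'
  have hTT' : θ'ᴴ * w⁻¹ * θ' = diagonal (fun i => (μ i : ℂ)) := by
    have : θ'ᴴ * w⁻¹ * θ' = Vᴴ * TT w θ * V := by
      simp only [hθ', TT, conjTranspose_mul, Matrix.mul_assoc]
    rw [this, hspec]
    calc Vᴴ * (V * diagonal (fun i => (μ i : ℂ)) * Vᴴ) * V
        = (Vᴴ * V) * diagonal (fun i => (μ i : ℂ)) * (Vᴴ * V) := by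
          simp only [Matrix.mul_assoc]
      _ = _ := by rw [hVV]; simp
  have hAA : θ * θᴴ = θ' * θ'ᴴ := by
    rw [hθ', conjTranspose_mul]
    calc θ * θᴴ = θ * (V * Vᴴ) * θᴴ := by rw [hVV']; simp
      _ = _ := by simp only [Matrix.mul_assoc]
  have hww : w * w⁻¹ = 1 := Matrix.mul_nonsing_inv w ((Matrix.isUnit_iff_isUnit_det w).mp hw.isUnit)
  have hww' : w⁻¹ * w = 1 := Matrix.nonsing_inv_mul w ((Matrix.isUnit_iff_isUnit_det w).mp hw.isUnit)
  -- the columns with `μ i = 0` vanish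
  have hcol : ∀ i, μ i = 0 → ∀ j, θ' j i = 0 := by
    intro i hi
    have h1 : star (fun j => θ' j i) ⬝ᵥ (w⁻¹ *ᵥ fun j => θ' j i) = 0 := by
      have := congrFun (congrFun hTT' i) i
      rw [diagonal_apply_eq, hi] at this
      rw [Matrix.mul_assoc, Matrix.mul_apply] at this
      simpa [dotProduct, mulVec, Matrix.mul_apply, conjTranspose_apply] using this
    by_contra h
    push Not at h
    obtain ⟨j, hj⟩ := h
    have h2 : (fun j => θ' j i) ≠ 0 := fun h => hj (congrFun h j)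
    have h3 := hw.inv.dotProduct_mulVec_pos h2
    rw [h1] at h3
    exact lt_irrefl _ h3
  have hZc : ∀ d d' : q → ℝ, (∀ i, μ i ≠ 0 → d i = d' i) → ZZ w θ' d = ZZ w θ' d' := by
    intro d d' hd
    have : θ' * diagonal (fun i => (d i : ℂ)) = θ' * diagonal (fun i => (d' i : ℂ)) := by
      ext j i
      rw [mul_diagonal, mul_diagonal]
      by_cases h : μ i = 0
      · rw [hcol i h j]; simp
      · rw [hd i h]
    have h2 : ZZ w θ' d = w⁻¹ * (θ' * diagonal (fun i => (d i : ℂ))) * θ'ᴴ * w⁻¹ := by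
      simp only [ZZ, Matrix.mul_assoc]
    rw [h2, this]
    simp only [ZZ, Matrix.mul_assoc]
  have hZw : ∀ d d' : q → ℝ, ZZ w θ' d * w * ZZ w θ' d' = ZZ w θ' (fun i => d i * μ i * d' i) := by
    intro d d'
    have h1 : (diagonal (fun i => ((d i * μ i * d' i : ℝ) : ℂ)) : Matrix q q ℂ) =
        diagonal (fun i => (d i : ℂ)) * diagonal (fun i => (μ i : ℂ)) *
          diagonal (fun i => (d' i : ℂ)) := by
      rw [diagonal_mul_diagonal, diagonal_mul_diagonal]; simp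
    rw [ZZ, ZZ, ZZ, h1, ← hTT']
    calc w⁻¹ * θ' * diagonal (fun i => (d i : ℂ)) * θ'ᴴ * w⁻¹ * w *
          (w⁻¹ * θ' * diagonal (fun i => (d' i : ℂ)) * θ'ᴴ * w⁻¹)
        = w⁻¹ * θ' * diagonal (fun i => (d i : ℂ)) * θ'ᴴ * (w⁻¹ * w) *
          (w⁻¹ * θ' * diagonal (fun i => (d' i : ℂ)) * θ'ᴴ * w⁻¹) := by
          simp only [Matrix.mul_assoc]
      _ = _ := by rw [hww']; simp only [Matrix.mul_assoc, Matrix.mul_one]
  set Q : q → Matrix m m ℂ := fun i => ZZ w θ' (fun k => if k = i then (μ i)⁻¹ else 0) with hQ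
  have hQsum : ∀ c : q → ℝ, ∑ i, ((c i : ℝ) : ℂ) • Q i = ZZ w θ' (fun k => c k * (μ k)⁻¹) := by
    intro c
    have : (fun k => c k * (μ k)⁻¹) =
        fun k => ∑ i, c i * (if k = i then (μ i)⁻¹ else 0) := by
      funext k
      simp
    rw [this, ZZ_sum]
    refine Finset.sum_congr rfl fun i _ => ?_
    rw [ZZ_smul]
  have hQ1 : ∑ i, Q i = ZZ w θ' (fun k => (μ k)⁻¹) := by
    have := hQsum (fun _ => 1)
    simpa using this
  have hVd : V.det * Vᴴ.det = 1 := by rw [← det_mul, hVV', det_one]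
  have hTd : ∀ δ : ℝ, ((δ : ℂ) • (1 : Matrix q q ℂ) + TT w θ) =
      V * diagonal (fun i => (δ : ℂ) + μ i) * Vᴴ := by
    intro δ
    have h1 : (diagonal (fun i => (δ : ℂ) + μ i) : Matrix q q ℂ) =
        (δ : ℂ) • (1 : Matrix q q ℂ) + diagonal (fun i => (μ i : ℂ)) := by
      rw [← diagonal_one, ← diagonal_smul, diagonal_add]; simp
    rw [h1, Matrix.mul_add, Matrix.add_mul, Matrix.mul_smul, Matrix.smul_mul, Matrix.mul_one, hVV',
      ← hspec]
  refine ⟨μ, w⁻¹ - ∑ i, Q i, Q, hμ0, ?_, fun i => ZZ_psd hw fun k => ?_, by abel, ?_, ?_, ?_, ?_⟩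
  · -- positivity of `Q0`
    rw [hQ1]
    have hH : (w⁻¹ - ZZ w θ' (fun k => (μ k)⁻¹)).IsHermitian :=
      hw.inv.1.sub (ZZ_psd hw fun k => inv_nonneg.mpr (hμ0 k)).1
    have h1 : (w⁻¹ - ZZ w θ' (fun k => (μ k)⁻¹))ᴴ * w * (w⁻¹ - ZZ w θ' (fun k => (μ k)⁻¹)) =
        w⁻¹ - ZZ w θ' (fun k => (μ k)⁻¹) := by
      rw [hH.eq]
      set Z := ZZ w θ' (fun k => (μ k)⁻¹) with hZ
      have hZZ : Z * w * Z = Z := by
        rw [hZ, hZw]
        congr 1
        funext i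
        by_cases h : μ i = 0
        · simp [h]
        · field_simp
      have hl : w⁻¹ * w * Z = Z := by rw [hww', Matrix.one_mul]
      have hr : Z * w * w⁻¹ = Z := by rw [Matrix.mul_assoc, hww, Matrix.mul_one]
      have hm : w⁻¹ * w * w⁻¹ = w⁻¹ := by rw [hww', Matrix.one_mul]
      calc (w⁻¹ - Z) * w * (w⁻¹ - Z) = w⁻¹ * w * w⁻¹ - w⁻¹ * w * Z - Z * w * w⁻¹ + Z * w * Z := by
            noncomm_ring
        _ = _ := by rw [hl, hr, hm, hZZ]; abel
    rw [← h1]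
    exact hw.posSemidef.conjTranspose_mul_mul_same _
  · by_cases h : k = i
    · simpa [h] using hμ0 i
    · simp [h]
  · intro τ hτ
    have hpos : ∀ i, 0 < 1 + τ * μ i := fun i => by
      have := mul_nonneg hτ (hμ0 i); linarith
    rw [hQsum, hQ1]
    have h1 : (wt w θ τ)⁻¹ = w⁻¹ - ZZ w θ' (fun i => τ / (1 + τ * μ i)) := by
      apply Matrix.inv_eq_right_inv
      rw [wt, hAA, ZZ]
      set Dg : Matrix q q ℂ := diagonal (fun i => ((τ / (1 + τ * μ i) : ℝ) : ℂ)) with hDg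
      have h2 : (τ : ℂ) • (1 : Matrix q q ℂ) - Dg -
          (τ : ℂ) • (diagonal (fun i => (μ i : ℂ)) * Dg) = 0 := by
        rw [hDg, diagonal_mul_diagonal, ← diagonal_one, ← diagonal_smul, ← diagonal_smul,
          diagonal_sub, diagonal_sub, ← diagonal_zero]
        congr 1
        funext i
        have := (hpos i).ne'
        have h3 : τ - τ / (1 + τ * μ i) - τ * (μ i * (τ / (1 + τ * μ i))) = 0 := by
          field_simp; ring
        have h4 : ((τ - τ / (1 + τ * μ i) - τ * (μ i * (τ / (1 + τ * μ i))) : ℝ) : ℂ) = 0 := by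
          rw [h3]; simp
        simpa using h4
      calc (w + (τ : ℂ) • (θ' * θ'ᴴ)) * (w⁻¹ - w⁻¹ * θ' * Dg * θ'ᴴ * w⁻¹)
          = w * w⁻¹ - (w * w⁻¹) * (θ' * Dg * θ'ᴴ * w⁻¹) + (τ : ℂ) • (θ' * θ'ᴴ * w⁻¹) -
            (τ : ℂ) • (θ' * (θ'ᴴ * w⁻¹ * θ') * Dg * θ'ᴴ * w⁻¹) := by
            rw [Matrix.mul_sub, Matrix.add_mul, Matrix.add_mul]
            simp only [Matrix.mul_assoc, Matrix.smul_mul]
            abel
        _ = 1 + θ' * ((τ : ℂ) • (1 : Matrix q q ℂ) - Dg -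
            (τ : ℂ) • (diagonal (fun i => (μ i : ℂ)) * Dg)) * θ'ᴴ * w⁻¹ := by
            rw [hww, hTT']
            simp only [Matrix.mul_sub, Matrix.sub_mul, Matrix.mul_smul, Matrix.smul_mul,
              Matrix.mul_one, Matrix.one_mul, Matrix.mul_assoc]
            abel
        _ = 1 := by rw [h2]; simp
    rw [h1]
    have h5 : ZZ w θ' (fun i => τ / (1 + τ * μ i)) + ZZ w θ' (fun k => (1 + τ * μ k)⁻¹ * (μ k)⁻¹) =
        ZZ w θ' (fun k => (μ k)⁻¹) := by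
      rw [← ZZ_add]
      apply hZc
      intro i hi
      have := (hpos i).ne'
      field_simp
      ring
    rw [← h5]
    abel
  · intro Λ hΛ i
    have h1 := hΛ.conjTranspose_mul_mul_same V
    have h2 : Vᴴ * ((Λ : ℂ) • (1 : Matrix q q ℂ) - TT w θ) * V =
        diagonal (fun i => ((Λ - μ i : ℝ) : ℂ)) := by
      have h3 : (diagonal (fun i => ((Λ - μ i : ℝ) : ℂ)) : Matrix q q ℂ) =
          (Λ : ℂ) • (1 : Matrix q q ℂ) - diagonal (fun i => (μ i : ℂ)) := by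
        rw [← diagonal_one, ← diagonal_smul, diagonal_sub]; congr 1; funext i; simp
      rw [h3, hspec, Matrix.mul_sub, Matrix.sub_mul]
      congr 1
      · rw [Matrix.mul_smul, Matrix.smul_mul, Matrix.mul_one, hVV]
      · calc Vᴴ * (V * diagonal (fun i => (μ i : ℂ)) * Vᴴ) * V
            = (Vᴴ * V) * diagonal (fun i => (μ i : ℂ)) * (Vᴴ * V) := by
              simp only [Matrix.mul_assoc]
          _ = _ := by rw [hVV]; simp
    rw [h2] at h1
    have h4 := h1.diag_nonneg (i := i)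
    rw [diagonal_apply_eq] at h4
    have h5 : (0 : ℝ) ≤ Λ - μ i := by exact_mod_cast h4
    linarith
  · intro δ
    rw [hTd δ, det_mul, det_mul, det_diagonal]
    linear_combination (∏ i, ((δ : ℂ) + μ i)) * hVd
  · intro δ
    have hdet : ((δ : ℂ) • (1 : Matrix q q ℂ) + TT w θ).det = ((∏ i, (δ + μ i) : ℝ) : ℂ) := by
      rw [hTd δ, det_mul, det_mul, det_diagonal]
      push_cast
      linear_combination (∏ i, ((δ : ℂ) + μ i)) * hVd
    have hadj : ((δ : ℂ) • (1 : Matrix q q ℂ) + TT w θ).adjugate =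
        V * diagonal (fun i => ((∏ j ∈ Finset.univ.erase i, (δ + μ j) : ℝ) : ℂ)) * Vᴴ := by
      rw [hTd δ, adjugate_mul_distrib, adjugate_mul_distrib, adjugate_diagonal]
      have hV1 : V.adjugate = V.det • Vᴴ := by
        calc V.adjugate = V.adjugate * (V * Vᴴ) := by rw [hVV', Matrix.mul_one]
          _ = V.det • Vᴴ := by rw [← Matrix.mul_assoc, adjugate_mul, Matrix.smul_mul, Matrix.one_mul]
      have hV2 : (Vᴴ).adjugate = (Vᴴ).det • V := by
        calc (Vᴴ).adjugate = (V * Vᴴ) * (Vᴴ).adjugate := by rw [hVV', Matrix.one_mul]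
          _ = (Vᴴ).det • V := by
            rw [Matrix.mul_assoc, mul_adjugate, Matrix.mul_smul, Matrix.mul_one]
      rw [hV1, hV2]
      have hd2 : (fun i => ∏ j ∈ Finset.univ.erase i, ((δ : ℂ) + μ j)) =
          fun i => ((∏ j ∈ Finset.univ.erase i, (δ + μ j) : ℝ) : ℂ) := by
        funext i; push_cast; rfl
      rw [hd2]
      simp only [Matrix.smul_mul, Matrix.mul_smul, smul_smul, Matrix.mul_assoc]
      rw [hVd, one_smul]
    have hQd : ∀ d : q → ℝ, ZZ w θ' d = ∑ i, ((d i * μ i : ℝ) : ℂ) • Q i := by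
      intro d
      rw [hQsum]
      apply hZc
      intro i hi
      field_simp
    have hleft : w⁻¹ * θ * ((δ : ℂ) • (1 : Matrix q q ℂ) + TT w θ).adjugate * θᴴ * w⁻¹ =
        ZZ w θ' (fun i => ∏ j ∈ Finset.univ.erase i, (δ + μ j)) := by
      rw [hadj, ZZ, hθ', conjTranspose_mul]
      simp only [Matrix.mul_assoc]
    rw [hleft, hdet, hQd, smul_sub, Finset.smul_sum, sub_add, sub_right_inj, ← Finset.sum_sub_distrib]
    refine Finset.sum_congr rfl fun i _ => ?_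
    rw [← sub_smul]
    congr 1
    have e4 : ∏ j, (δ + μ j) = (δ + μ i) * ∏ j ∈ Finset.univ.erase i, (δ + μ j) :=
      (Finset.mul_prod_erase _ _ (Finset.mem_univ i)).symm
    rw [e4]
    push_cast
    ring

/-- **Frame** for the definitions of `H402/A/Spec.lean`. -/
theorem frameD {n q : ℕ} {w : Matrix (Fin n) (Fin n) ℂ} (hw : w.PosDef)
    (θ : Matrix (Fin n) (Fin q) ℂ) :
    ∃ (μ : Fin q → ℝ) (Q0 : Matrix (Fin n) (Fin n) ℂ) (Q : Fin q → Matrix (Fin n) (Fin n) ℂ),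
      (∀ i, 0 ≤ μ i) ∧ Q0.PosSemidef ∧ (∀ i, (Q i).PosSemidef) ∧ w⁻¹ = Q0 + ∑ i, Q i ∧
      (∀ δ : ℝ, (H402.A.TT w θ δ).det = ((∏ i, (δ + μ i) : ℝ) : ℂ)) ∧
      (∀ δ : ℝ, H402.A.DD w θ δ = ∏ i, (δ + μ i)) ∧
      (∀ δ : ℝ, H402.A.AA w θ δ = ((∏ i, (δ + μ i) : ℝ) : ℂ) • Q0 +
          ∑ i, ((δ * ∏ j ∈ Finset.univ.erase i, (δ + μ j) : ℝ) : ℂ) • Q i) ∧
      (∀ δ : ℝ, 0 < δ → (H402.A.WW w θ δ)⁻¹ = Q0 + ∑ i, ((δ / (δ + μ i) : ℝ) : ℂ) • Q i) ∧
      (∀ Λ : ℝ, ((Λ : ℂ) • (1 : Matrix (Fin q) (Fin q) ℂ) - θᴴ * w⁻¹ * θ).PosSemidef →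
        ∀ i, μ i ≤ Λ) := by
  obtain ⟨μ, Q0, Q, h1, h2, h3, h4, h5, h6, h7, h8⟩ := frameD0 hw θ
  have hdet : ∀ δ : ℝ, (H402.A.TT w θ δ).det = ((∏ i, (δ + μ i) : ℝ) : ℂ) := by
    intro δ
    have := h7 δ
    rw [TT] at this
    rw [H402.A.TT, this]
    push_cast; rfl
  refine ⟨μ, Q0, Q, h1, h2, h3, h4, hdet, fun δ => ?_, fun δ => h8 δ, fun δ hδ => ?_, h6⟩
  · rw [H402.A.DD, hdet, Complex.ofReal_re]
  · have : H402.A.WW w θ δ = wt w θ δ⁻¹ := rfl
    rw [this, h5 _ (inv_nonneg.mpr hδ.le)]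
    congr 1
    refine Finset.sum_congr rfl fun i _ => ?_
    congr 2
    have := h1 i
    have h9 : 0 < δ + μ i := by linarith
    field_simp

end Vale.Agent.P284.H279
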