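import Mathlib.Analysis.Matrix.Order
import Mathlib.LinearAlgebra.Matrix.SchurComplement
import Mathlib.LinearAlgebra.Matrix.Block
import Mathlib.Topology.Instances.Matrix
import Mathlib.Analysis.Complex.Basic

/-!
# P284 (helper279): minors of positive matrices, bordered determinants
-/

open scoped ComplexOrder MatrixOrder
open Matrix

set_option linter.unusedSectionVars false
set_option linter.unusedSimpArgs false

noncomputable section

namespace Vale.Agent.P284.H279

variable {m : Type*} [Fintype m] [DecidableEq m]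

/-- diagonal entries of the adjugate are principal minors -/
theorem adj_diag (A : Matrix m m ℂ) (k : m) :
    A.adjugate k k = (A.submatrix (Subtype.val : {j // j ≠ k} → m) Subtype.val).det := by
  rw [adjugate_apply, twoBlockTriangular_det _ (fun j => j ≠ k)]
  · have h1 : (toSquareBlockProp (A.updateRow k (Pi.single k 1)) fun i => ¬ i ≠ k).det = 1 := by
      have : Subsingleton {i // ¬ i ≠ k} := ⟨fun a b => Subtype.ext (by
        have ha := not_not.mp a.2; have hb := not_not.mp b.2; rw [ha, hb])⟩
      rw [det_eq_elem_of_subsingleton _ (⟨k, by simp⟩ : {i // ¬ i ≠ k})]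
      simp [toSquareBlockProp_def]
    rw [h1, mul_one]
    congr 1
    ext i j
    have := i.2
    simp [toSquareBlockProp_def, updateRow_apply, this]
  · intro i hi j hj
    rw [not_not] at hi
    rw [hi, updateRow_self]
    exact Pi.single_eq_of_ne hj _

theorem det_add_single (A : Matrix m m ℂ) (k : m) (c : ℂ) :
    (A + c • single k k 1).det = A.det + c * A.adjugate k k := by
  have h : A + c • single k k 1 = A.updateRow k (A k + c • Pi.single k 1) := by
    ext i j
    by_cases hi : i = k
    · subst hi
      by_cases hj : j = i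
      · subst hj; simp
      · simp [hj, Ne.symm hj, single_apply_of_col_ne]
    · simp [updateRow_apply, hi, Ne.symm hi, single_apply_of_row_ne]
  rw [h, det_updateRow_add, updateRow_eq_self, det_updateRow_smul, adjugate_apply]

theorem adj_nn {A : Matrix m m ℂ} (hA : A.PosSemidef) (k : m) : 0 ≤ A.adjugate k k := by
  rw [adj_diag]
  exact (hA.submatrix _).det_nonneg

/-- `A + Σ_{k ∈ s} d k e_k e_kᴴ` -/
theorem psd_add {A : Matrix m m ℂ} (hA : A.PosSemidef) {d : m → ℝ} (hd : ∀ k, 0 ≤ d k)
    (s : Finset m) : (A + ∑ k ∈ s, (d k : ℂ) • single k k (1 : ℂ)).PosSemidef := by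
  refine hA.add (posSemidef_sum _ fun k _ => ?_)
  have : single k k (1 : ℂ) = vecMulVec (Pi.single k 1) (star (Pi.single k 1)) := by
    ext i j
    by_cases hi : i = k
    · by_cases hj : j = k
      · subst hi hj; simp [vecMulVec_apply]
      · subst hi; simp [vecMulVec_apply, hj, Ne.symm hj, single_apply_of_col_ne]
    · simp [vecMulVec_apply, hi, Ne.symm hi, single_apply_of_row_ne]
  rw [this]
  exact (posSemidef_vecMulVec_self_star _).smul (by exact_mod_cast hd k)

theorem det_mono_aux {A : Matrix m m ℂ} (hA : A.PosSemidef) {d : m → ℝ} (hd : ∀ k, 0 ≤ d k)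
    (s : Finset m) : A.det ≤ (A + ∑ k ∈ s, (d k : ℂ) • single k k (1 : ℂ)).det := by
  induction s using Finset.induction_on with
  | empty => simp
  | insert a s ha ih =>
    rw [Finset.sum_insert ha, add_comm ((d a : ℂ) • single a a (1 : ℂ)), ← add_assoc, det_add_single]
    have h1 := adj_nn (psd_add hA hd s) a
    have h2 : (0 : ℂ) ≤ (d a : ℂ) := by exact_mod_cast hd a
    exact ih.trans (le_add_of_nonneg_right (mul_nonneg h2 h1))

theorem det_lower {A : Matrix m m ℂ} (hA : A.PosSemidef) {d : m → ℝ} (hd : ∀ k, 0 ≤ d k)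
    (s : Finset m) : A.det + ∑ k ∈ s, (d k : ℂ) * A.adjugate k k ≤
      (A + ∑ k ∈ s, (d k : ℂ) • single k k (1 : ℂ)).det := by
  induction s using Finset.induction_on with
  | empty => simp
  | insert a s ha ih =>
    rw [Finset.sum_insert ha, Finset.sum_insert ha, add_comm ((d a : ℂ) • single a a (1 : ℂ)),
      ← add_assoc A, det_add_single]
    have h2 : (0 : ℂ) ≤ (d a : ℂ) := by exact_mod_cast hd a
    have h3 : A.adjugate a a ≤
        (A + ∑ k ∈ s, (d k : ℂ) • single k k (1 : ℂ)).adjugate a a := by
      rw [adj_diag, adj_diag]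
      have h4 := det_mono_aux (hA.submatrix (Subtype.val : {j // j ≠ a} → m))
        (d := fun k => if (k : m) ∈ s then d k else 0) (fun k => by
          by_cases hk : (k : m) ∈ s
          · simp [hk, hd]
          · simp [hk]) Finset.univ
      refine h4.trans (le_of_eq ?_)
      congr 1
      ext i j
      rw [Matrix.add_apply, Matrix.submatrix_apply, Matrix.submatrix_apply, Matrix.add_apply]
      congr 1
      rw [Matrix.sum_apply, Matrix.sum_apply]
      by_cases hij : i = j
      · subst hij
        have e1 : ∀ k : {j // j ≠ a}, (((if (k : m) ∈ s then d k else 0 : ℝ) : ℂ) •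
            single k k (1 : ℂ)) i i = if k = i then (((if (k : m) ∈ s then d k else 0 : ℝ)) : ℂ)
            else 0 := by
          intro k
          by_cases h : k = i
          · subst h; simp
          · simp [h, single_apply_of_row_ne]
        have e2 : ∀ k : m, ((d k : ℂ) • single k k (1 : ℂ)) (i : m) (i : m) =
            if k = (i : m) then (d k : ℂ) else 0 := by
          intro k
          by_cases h : k = (i : m)
          · subst h; simp
          · simp [h, single_apply_of_row_ne]
        simp only [e1, e2]
        rw [Finset.sum_ite_eq' Finset.univ i, Finset.sum_ite_eq' s (i : m)]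
        by_cases h : (i : m) ∈ s <;> simp [h]
      · have hij' : (i : m) ≠ (j : m) := fun h => hij (Subtype.ext h)
        rw [Finset.sum_eq_zero, Finset.sum_eq_zero]
        · intro k _
          by_cases h : k = (i : m)
          · subst h
            simp [single_apply_of_col_ne, hij']
          · simp [h, single_apply_of_row_ne]
        · intro k _
          by_cases h : k = i
          · subst h
            simp [single_apply_of_col_ne, hij]
          · simp [h, single_apply_of_row_ne]
    calc A.det + ((d a : ℂ) * A.adjugate a a + ∑ k ∈ s, (d k : ℂ) * A.adjugate k k)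
        = (A.det + ∑ k ∈ s, (d k : ℂ) * A.adjugate k k) + (d a : ℂ) * A.adjugate a a := by ring
      _ ≤ _ := add_le_add ih (mul_le_mul_of_nonneg_left h3 h2)

/-- bordered determinants -/
theorem det_bordered_inv {n : Type*} [Fintype n] [DecidableEq n] (A : Matrix n n ℂ)
    (hA : A.det ≠ 0) (B : Matrix n (Fin 1) ℂ) (C : Matrix (Fin 1) n ℂ) (D : Matrix (Fin 1) (Fin 1) ℂ) :
    (fromBlocks A B C D).det = A.det * D 0 0 - (C * A.adjugate * B) 0 0 := by
  have hu : IsUnit A := (Matrix.isUnit_iff_isUnit_det A).mpr (isUnit_iff_ne_zero.mpr hA)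
  obtain ⟨iA⟩ := hu.nonempty_invertible
  have h1 : A.adjugate = A.det • ⅟A := by
    rw [Matrix.invOf_eq_nonsing_inv, Matrix.inv_def, smul_smul, Ring.inverse_eq_inv',
      mul_inv_cancel₀ hA, one_smul]
  rw [det_fromBlocks₁₁, det_fin_one, Matrix.sub_apply, mul_sub, h1, Matrix.mul_smul,
    Matrix.smul_mul, Matrix.smul_apply, smul_eq_mul]

theorem det_bordered {n : Type*} [Fintype n] [DecidableEq n] {A : Matrix n n ℂ}
    (hA : A.PosSemidef) (B : Matrix n (Fin 1) ℂ) (C : Matrix (Fin 1) n ℂ)
    (D : Matrix (Fin 1) (Fin 1) ℂ) :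
    (fromBlocks A B C D).det = A.det * D 0 0 - (C * A.adjugate * B) 0 0 := by
  have h1 : ∀ ε : ℝ, 0 < ε → (A + (ε : ℂ) • (1 : Matrix n n ℂ)).det ≠ 0 := by
    intro ε hε
    have : (A + (ε : ℂ) • (1 : Matrix n n ℂ)).PosDef :=
      PosDef.posSemidef_add hA (PosDef.one.smul (by exact_mod_cast hε))
    exact this.det_pos.ne'
  have hc : Continuous fun ε : ℝ => (A + (ε : ℂ) • (1 : Matrix n n ℂ)) := by fun_prop
  have hF : Continuous fun ε : ℝ => (fromBlocks (A + (ε : ℂ) • (1 : Matrix n n ℂ)) B C D).det :=
    (hc.matrix_fromBlocks continuous_const continuous_const continuous_const).matrix_det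
  have hG : Continuous fun ε : ℝ => (A + (ε : ℂ) • (1 : Matrix n n ℂ)).det * D 0 0 -
      (C * (A + (ε : ℂ) • (1 : Matrix n n ℂ)).adjugate * B) 0 0 := by
    refine (hc.matrix_det.mul continuous_const).sub ?_
    exact ((continuous_const.matrix_mul hc.matrix_adjugate).matrix_mul continuous_const).matrix_elem 0 0
  have h2 := hF.tendsto 0
  have h3 := hG.tendsto 0
  have h4 : (nhdsWithin (0 : ℝ) (Set.Ioi 0)).NeBot := inferInstance
  have h5 := tendsto_nhds_unique_of_eventuallyEq (h2.mono_left (nhdsWithin_le_nhds (s := Set.Ioi 0)))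
    (h3.mono_left (nhdsWithin_le_nhds (s := Set.Ioi 0))) (by
      filter_upwards [self_mem_nhdsWithin] with ε hε
      exact det_bordered_inv _ (h1 ε hε) B C D)
  simpa using h5

end Vale.Agent.P284.H279
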