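import Vale.Agent.P284.H279.A2c
import Vale.Agent.P284.H279.A2b
import Vale.Agent.P284.H279.A2e

/-!
# P284 (helper279): fields of `H402.A.A2Stmt`
-/

open scoped ComplexOrder MatrixOrder
open Matrix

set_option linter.unusedSectionVars false

noncomputable section

namespace Vale.Agent.P284.H279

open Vale.Agent.P284.H402.A (WW AA qf tr1 tr2 ee)

variable {n q : ℕ} {w : Matrix (Fin n) (Fin n) ℂ} {θ : Matrix (Fin n) (Fin q) ℂ}

theorem det_WW (hw : w.PosDef) (θ : Matrix (Fin n) (Fin q) ℂ) {δ : ℝ} (hδ : 0 < δ) :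
    (WW w θ δ).PosDef ∧ (WW w θ δ).det.re = (δ ^ q)⁻¹ * H402.A.DD w θ δ * w.det.re := by
  obtain ⟨μ, Q0, Q, h1, h2, h3, h4, h5, h6, h7, h8, h9⟩ := frameD hw θ
  have hW : WW w θ δ = wt w θ δ⁻¹ := rfl
  refine ⟨hW ▸ pd_wt hw θ (inv_nonneg.mpr hδ.le), ?_⟩
  have hδ' : (δ : ℂ) ≠ 0 := by exact_mod_cast hδ.ne'
  have e1 : (1 + ((δ⁻¹ : ℝ) : ℂ) • TT w θ) = ((δ⁻¹ : ℝ) : ℂ) • H402.A.TT w θ δ := by
    rw [H402.A.TT, smul_add, smul_smul, TT]
    congr 1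
    push_cast
    rw [inv_mul_cancel₀ hδ', one_smul]
  rw [hW, det_wt hw, e1, det_smul, h5, Fintype.card_fin, h6]
  have e2 : w.det * (((δ⁻¹ : ℝ) : ℂ) ^ q * ((∏ i, (δ + μ i) : ℝ) : ℂ)) =
      (((δ ^ q)⁻¹ * ∏ i, (δ + μ i) : ℝ) : ℂ) * w.det := by
    push_cast
    rw [inv_pow]
    ring
  rw [e2, Complex.re_ofReal_mul]

theorem prod_pos' {μ : Fin q → ℝ} (h1 : ∀ i, 0 ≤ μ i) {δ : ℝ} (hδ : 0 < δ) : 0 < ∏ i, (δ + μ i) :=
  Finset.prod_pos fun i _ => by linarith [h1 i]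

theorem inv_WW (hw : w.PosDef) (θ : Matrix (Fin n) (Fin q) ℂ) {δ : ℝ} (hδ : 0 < δ) :
    AA w θ δ = (H402.A.DD w θ δ : ℂ) • (WW w θ δ)⁻¹ := by
  obtain ⟨μ, Q0, Q, h1, h2, h3, h4, h5, h6, h7, h8, h9⟩ := frameD hw θ
  rw [h7, h6, h8 δ hδ, smul_add, Finset.smul_sum]
  congr 1
  refine Finset.sum_congr rfl fun i _ => ?_
  rw [smul_smul]
  congr 1
  rw [← Complex.ofReal_mul]
  congr 1
  rw [← Finset.mul_prod_erase _ _ (Finset.mem_univ i)]
  have : δ + μ i ≠ 0 := by have := h1 i; positivity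
  field_simp

theorem DD_nonneg (hw : w.PosDef) (θ : Matrix (Fin n) (Fin q) ℂ) {δ : ℝ} (hδ : 0 ≤ δ) :
    0 ≤ H402.A.DD w θ 0 ∧ H402.A.DD w θ 0 ≤ H402.A.DD w θ δ ∧ (0 < δ → 0 < H402.A.DD w θ δ) := by
  obtain ⟨μ, Q0, Q, h1, h2, h3, h4, h5, h6, h7, h8, h9⟩ := frameD hw θ
  rw [h6, h6]
  refine ⟨Finset.prod_nonneg fun i _ => by simpa using h1 i,
    Finset.prod_le_prod (fun i _ => by simpa using h1 i) fun i _ => by linarith, fun h => ?_⟩
  exact prod_pos' h1 h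

theorem DD_pos (hw : w.PosDef) {θ : Matrix (Fin n) (Fin q) ℂ} (hθ : Function.Injective θ.mulVec) :
    0 < H402.A.DD w θ 0 := by
  have : (H402.A.TT w θ 0).PosDef := by
    have := hw.inv.conjTranspose_mul_mul_same hθ
    simpa [H402.A.TT] using this
  have := this.det_pos
  rw [H402.A.DD]
  exact (Complex.lt_def.mp this).1

theorem qf_smul (c : ℝ) (A : Matrix (Fin n) (Fin n) ℂ) (α β : Fin n → ℂ) :
    qf ((c : ℂ) • A) α β = c * qf A α β := by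
  rw [qf, qf, smul_mulVec, dotProduct_smul, smul_eq_mul, Complex.re_ofReal_mul]

theorem qf_add (A B : Matrix (Fin n) (Fin n) ℂ) (α β : Fin n → ℂ) :
    qf (A + B) α β = qf A α β + qf B α β := by
  rw [qf, qf, qf, add_mulVec, dotProduct_add, Complex.add_re]

theorem qf_sum {ι : Type*} (s : Finset ι) (A : ι → Matrix (Fin n) (Fin n) ℂ) (α β : Fin n → ℂ) :
    qf (∑ i ∈ s, A i) α β = ∑ i ∈ s, qf (A i) α β := by
  classical
  induction s using Finset.induction_on with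
  | empty => simp [qf]
  | insert a s ha ih => rw [Finset.sum_insert ha, Finset.sum_insert ha, qf_add, ih]

theorem qf_nn {A : Matrix (Fin n) (Fin n) ℂ} (hA : A.PosSemidef) (α : Fin n → ℂ) : 0 ≤ qf A α α :=
  hA.re_dotProduct_nonneg α

theorem herm (hw : w.PosDef) (θ : Matrix (Fin n) (Fin q) ℂ) {δ : ℝ} (hδ : 0 ≤ δ) :
    (AA w θ δ).PosSemidef := by
  obtain ⟨μ, Q0, Q, h1, h2, h3, h4, h5, h6, h7, h8, h9⟩ := frameD hw θ
  have hp : ∀ s : Finset (Fin q), 0 ≤ ∏ i ∈ s, (δ + μ i) := fun s =>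
    Finset.prod_nonneg fun i _ => by linarith [h1 i]
  rw [h7]
  refine (h2.smul (by exact_mod_cast hp _)).add (posSemidef_sum _ fun i _ => (h3 i).smul ?_)
  exact_mod_cast mul_nonneg hδ (hp _)

theorem zero (hw : w.PosDef) (θ : Matrix (Fin n) (Fin q) ℂ) (h : H402.A.DD w θ 0 = 0) :
    AA w θ 0 = 0 := by
  obtain ⟨μ, Q0, Q, h1, h2, h3, h4, h5, h6, h7, h8, h9⟩ := frameD hw θ
  rw [h6] at h
  rw [h7, h]
  simp

theorem up (q : ℕ) (Λ : ℝ) : ∃ c : ℝ, 0 < c ∧ ∀ {n : ℕ} (w : Matrix (Fin n) (Fin n) ℂ)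
    (θ : Matrix (Fin n) (Fin q) ℂ) (δ : ℝ), w.PosDef → 0 ≤ δ → δ ≤ 1 →
    ((Λ : ℂ) • (1 : Matrix (Fin q) (Fin q) ℂ) - θᴴ * w⁻¹ * θ).PosSemidef →
    H402.A.DD w θ δ ≤ c ∧ H402.A.DD w θ δ ≤ H402.A.DD w θ 0 + c * δ ∧
    ∀ α, qf (AA w θ δ) α α ≤ c * qf w⁻¹ α α ∧
      qf (AA w θ δ) α α ≤ qf (AA w θ 0) α α + c * δ * qf w⁻¹ α α := by
  refine ⟨(1 + |Λ|) ^ q, by positivity, ?_⟩
  intro n w θ δ hw hδ hδ1 hΛ
  obtain ⟨μ, Q0, Q, h1, h2, h3, h4, h5, h6, h7, h8, h9⟩ := frameD hw θ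
  have hμ := h9 Λ hΛ
  have hle : ∀ (s : Finset (Fin q)) (e : ℝ), 0 ≤ e → e ≤ 1 →
      ∏ i ∈ s, (e + μ i) ≤ (1 + |Λ|) ^ q := by
    intro s e he he1
    calc ∏ i ∈ s, (e + μ i) ≤ ∏ i ∈ s, (1 + |Λ|) :=
          Finset.prod_le_prod (fun i _ => by linarith [h1 i]) fun i _ => by
            linarith [hμ i, le_abs_self Λ]
      _ = (1 + |Λ|) ^ s.card := by rw [Finset.prod_const]
      _ ≤ (1 + |Λ|) ^ q := by
          apply pow_le_pow_right₀ (by linarith [abs_nonneg Λ])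
          calc s.card ≤ (Finset.univ : Finset (Fin q)).card := Finset.card_le_univ s
            _ = q := by simp
  have hz : ∏ i, ((0 : ℝ) + μ i) = ∏ i, μ i := by simp
  have hgap : ∏ i, (δ + μ i) ≤ ∏ i, ((0 : ℝ) + μ i) + (1 + |Λ|) ^ q * δ := by
    have := prod_sub_le Finset.univ μ h1 δ hδ hδ1
    have h10 := hle Finset.univ 1 (by norm_num) le_rfl
    have h11 : 0 ≤ ∏ i, μ i := Finset.prod_nonneg fun i _ => h1 i
    rw [hz]
    nlinarith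
  refine ⟨?_, ?_, fun α => ?_⟩
  · rw [h6]; exact hle _ _ hδ hδ1
  · rw [h6, h6]; exact hgap
  · have g0 := qf_nn h2 α
    have gi := fun i => qf_nn (h3 i) α
    have ew : qf w⁻¹ α α = qf Q0 α α + ∑ i, qf (Q i) α α := by
      conv_lhs => rw [h4]
      rw [qf_add, qf_sum]
    have eA : ∀ δ : ℝ, qf (AA w θ δ) α α = (∏ i, (δ + μ i)) * qf Q0 α α +
        ∑ i, (δ * ∏ j ∈ Finset.univ.erase i, (δ + μ j)) * qf (Q i) α α := by
      intro δ
      rw [h7, qf_add, qf_smul, qf_sum]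
      congr 1
      exact Finset.sum_congr rfl fun i _ => qf_smul _ _ _ _
    have hcp : 0 ≤ (1 + |Λ|) ^ q := by positivity
    have hi : ∀ i, (δ * ∏ j ∈ Finset.univ.erase i, (δ + μ j)) * qf (Q i) α α ≤
        (1 + |Λ|) ^ q * δ * qf (Q i) α α := fun i => by
      apply mul_le_mul_of_nonneg_right _ (gi i)
      rw [mul_comm]
      exact mul_le_mul_of_nonneg_right (hle _ _ hδ hδ1) hδ
    have hs : 0 ≤ ∑ i, qf (Q i) α α := Finset.sum_nonneg fun i _ => gi i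
    constructor
    · rw [eA, ew, mul_add, Finset.mul_sum]
      apply add_le_add (mul_le_mul_of_nonneg_right (hle _ _ hδ hδ1) g0)
      refine Finset.sum_le_sum fun i _ => (hi i).trans ?_
      apply mul_le_mul_of_nonneg_right _ (gi i)
      nlinarith
    · rw [eA, eA, ew]
      have e0 : ∑ i, ((0 : ℝ) * ∏ j ∈ Finset.univ.erase i, ((0 : ℝ) + μ j)) * qf (Q i) α α = 0 := by
        simp
      rw [e0, mul_add, Finset.mul_sum]
      have := Finset.sum_le_sum fun i (_ : i ∈ Finset.univ) => hi i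
      have h12 := mul_le_mul_of_nonneg_right hgap g0
      nlinarith

end Vale.Agent.P284.H279
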