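import Vale.Agent.P284.H279.A2d

/-!
# P284 (helper279): fields `bord` and `low` of `H402.A.A2Stmt`
-/

open scoped ComplexOrder MatrixOrder
open Matrix

set_option linter.unusedSectionVars false
set_option linter.unusedSimpArgs false

noncomputable section

namespace Vale.Agent.P284.H279

open Vale.Agent.P284.H402.A (WW AA qf tr1 tr2 ee)

variable {n q : ℕ} {w : Matrix (Fin n) (Fin n) ℂ} {θ : Matrix (Fin n) (Fin q) ℂ}

/-- the matrix `(θ, α)` -/
def cc (θ : Matrix (Fin n) (Fin q) ℂ) (α : Fin n → ℂ) : Matrix (Fin n) (Fin q ⊕ Fin 1) ℂ :=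
  Matrix.of fun i => Sum.elim (θ i) fun _ => α i

/-- bordered matrix -/
def BB (w : Matrix (Fin n) (Fin n) ℂ) (θ : Matrix (Fin n) (Fin q) ℂ) (δ : ℝ) (α β : Fin n → ℂ) :
    Matrix (Fin q ⊕ Fin 1) (Fin q ⊕ Fin 1) ℂ :=
  fromBlocks (H402.A.TT w θ δ) (θᴴ * w⁻¹ * replicateCol (Fin 1) α)
    ((replicateCol (Fin 1) β)ᴴ * w⁻¹ * θ) ((replicateCol (Fin 1) β)ᴴ * w⁻¹ * replicateCol (Fin 1) α)

theorem psd_T402 (hw : w.PosDef) (θ : Matrix (Fin n) (Fin q) ℂ) {δ : ℝ} (hδ : 0 ≤ δ) :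
    (H402.A.TT w θ δ).PosSemidef := by
  have h1 := psd_TT hw θ
  exact (PosSemidef.one.smul (by exact_mod_cast hδ)).add h1

theorem det_BB (hw : w.PosDef) (θ : Matrix (Fin n) (Fin q) ℂ) {δ : ℝ} (hδ : 0 ≤ δ)
    (α β : Fin n → ℂ) : (BB w θ δ α β).det = star β ⬝ᵥ AA w θ δ *ᵥ α := by
  rw [BB, det_bordered (psd_T402 hw θ hδ)]
  have e : ∀ A : Matrix (Fin n) (Fin n) ℂ,
      ((replicateCol (Fin 1) β)ᴴ * A * replicateCol (Fin 1) α) 0 0 = star β ⬝ᵥ A *ᵥ α := by
    intro A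
    rw [Matrix.mul_assoc]
    simp [Matrix.mul_apply, dotProduct, mulVec, replicateCol_apply, conjTranspose_apply]
  have e2 : (replicateCol (Fin 1) β)ᴴ * w⁻¹ * θ * (H402.A.TT w θ δ).adjugate *
      (θᴴ * w⁻¹ * replicateCol (Fin 1) α) = (replicateCol (Fin 1) β)ᴴ *
      (w⁻¹ * θ * (H402.A.TT w θ δ).adjugate * θᴴ * w⁻¹) * replicateCol (Fin 1) α := by
    simp only [Matrix.mul_assoc]
  rw [e2, e, e, AA, sub_mulVec, dotProduct_sub, smul_mulVec, dotProduct_smul, smul_eq_mul]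

theorem BB_zero (w : Matrix (Fin n) (Fin n) ℂ) (θ : Matrix (Fin n) (Fin q) ℂ) (α β : Fin n → ℂ) :
    BB w θ 0 α β = (cc θ β)ᴴ * w⁻¹ * cc θ α := by
  ext (i | i) (j | j) <;>
    simp [BB, cc, H402.A.TT, Matrix.mul_apply, conjTranspose_apply]

theorem bord (hw : w.PosDef) (θ : Matrix (Fin n) (Fin q) ℂ) (α β : Fin n → ℂ) :
    (star β ⬝ᵥ AA w θ 0 *ᵥ α) =
      ((Matrix.of fun i => Fin.snoc (θ i) (β i) : Matrix (Fin n) (Fin (q + 1)) ℂ)ᴴ * w⁻¹ *
        (Matrix.of fun i => Fin.snoc (θ i) (α i) : Matrix (Fin n) (Fin (q + 1)) ℂ)).det := by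
  rw [← det_BB hw θ le_rfl, BB_zero, ← det_submatrix_equiv_self (finSumFinEquiv (m := q) (n := 1))]
  congr 1
  have h : ∀ (α : Fin n → ℂ) (i : Fin n) (j : Fin q ⊕ Fin 1),
      (Matrix.of fun i => Fin.snoc (θ i) (α i) : Matrix (Fin n) (Fin (q + 1)) ℂ) i
        (finSumFinEquiv j) = cc θ α i j := by
    intro α i j
    rcases j with j | j
    · have : (finSumFinEquiv (Sum.inl j) : Fin (q + 1)) = Fin.castSucc j := rfl
      rw [this, of_apply]
      simp [cc]
    · have hj : j = 0 := Subsingleton.elim _ _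
      subst hj
      have : (finSumFinEquiv (Sum.inr 0 : Fin q ⊕ Fin 1) : Fin (q + 1)) = Fin.last q := rfl
      rw [this, of_apply]
      simp [cc]
  ext i j
  rw [submatrix_apply, Matrix.mul_apply, Matrix.mul_apply]
  refine Finset.sum_congr rfl fun k _ => ?_
  rw [h, Matrix.mul_apply, Matrix.mul_apply]
  congr 1
  refine Finset.sum_congr rfl fun l _ => ?_
  rw [conjTranspose_apply, conjTranspose_apply, h]

/-- columns of `θ.updateCol k α` are columns of `(θ, α)` -/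
def ek (k : Fin q) (j : Fin q) : {x : Fin q ⊕ Fin 1 // x ≠ Sum.inl k} :=
  if h : j = k then ⟨Sum.inr 0, by simp⟩ else ⟨Sum.inl j, by simpa using h⟩

theorem ek_bij (k : Fin q) : Function.Bijective (ek k) := by
  constructor
  · intro i j hij
    unfold ek at hij
    split_ifs at hij with h1 h2 h2
    · rw [h1, h2]
    · simp at hij
    · simp at hij
    · simpa using hij
  · rintro ⟨x | x, hx⟩
    · refine ⟨x, ?_⟩
      have : x ≠ k := by simpa using hx
      simp [ek, this]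
    · refine ⟨k, ?_⟩
      have : x = 0 := Subsingleton.elim _ _
      simp [ek, this]

theorem adj_BB (w : Matrix (Fin n) (Fin n) ℂ) (θ : Matrix (Fin n) (Fin q) ℂ) (α : Fin n → ℂ)
    (k : Fin q) : (BB w θ 0 α α).adjugate (Sum.inl k) (Sum.inl k) =
      ((θ.updateCol k α)ᴴ * w⁻¹ * θ.updateCol k α).det := by
  rw [adj_diag, ← det_submatrix_equiv_self (Equiv.ofBijective (ek k) (ek_bij k)), BB_zero]
  congr 1
  have h : ∀ (i : Fin n) (j : Fin q), cc θ α i (ek k j) = (θ.updateCol k α) i j := by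
    intro i j
    unfold ek
    split_ifs with hj
    · subst hj
      simp [cc]
    · simp [cc, updateCol_apply, hj]
  ext i j
  rw [submatrix_apply, submatrix_apply, Matrix.mul_apply, Matrix.mul_apply]
  refine Finset.sum_congr rfl fun l _ => ?_
  rw [Matrix.mul_apply, Matrix.mul_apply, Equiv.ofBijective_apply, Equiv.ofBijective_apply, h]
  congr 1
  refine Finset.sum_congr rfl fun l' _ => ?_
  rw [conjTranspose_apply, conjTranspose_apply, h]

theorem BB_add (w : Matrix (Fin n) (Fin n) ℂ) (θ : Matrix (Fin n) (Fin q) ℂ) (δ : ℝ)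
    (α : Fin n → ℂ) : BB w θ 0 α α + ∑ k ∈ Finset.univ.map ⟨Sum.inl, Sum.inl_injective⟩,
      (δ : ℂ) • single k k (1 : ℂ) = BB w θ δ α α := by
  have e : BB w θ δ α α = BB w θ 0 α α + fromBlocks ((δ : ℂ) • 1) 0 0 0 := by
    rw [BB, BB, fromBlocks_add, add_zero, add_zero, add_zero]
    congr 1
    rw [H402.A.TT, H402.A.TT]
    simp [add_comm]
  rw [e, Finset.sum_map]
  congr 1
  ext (i | i) (j | j)
  · rw [Matrix.sum_apply, fromBlocks_apply₁₁]
    by_cases hij : i = j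
    · subst hij
      rw [Finset.sum_eq_single i]
      · simp
      · intro b _ hb
        simp [hb]
      · simp
    · rw [Finset.sum_eq_zero]
      · simp [hij]
      · intro b _
        by_cases hb : b = i
        · subst hb
          simp [hij]
        · simp [hb]
  · rw [Matrix.sum_apply, fromBlocks_apply₁₂, Finset.sum_eq_zero]
    · simp
    · intro b _; simp
  · rw [Matrix.sum_apply, fromBlocks_apply₂₁, Finset.sum_eq_zero]
    · simp
    · intro b _; simp
  · rw [Matrix.sum_apply, fromBlocks_apply₂₂, Finset.sum_eq_zero]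
    · simp
    · intro b _; simp

theorem low (hw : w.PosDef) (θ : Matrix (Fin n) (Fin q) ℂ) {δ : ℝ} (hδ : 0 ≤ δ) (α : Fin n → ℂ) :
    0 ≤ ee w θ α ∧ qf (AA w θ 0) α α + δ * ee w θ α ≤ qf (AA w θ δ) α α := by
  have hA : (BB w θ 0 α α).PosSemidef := by
    rw [BB_zero]
    exact hw.inv.posSemidef.conjTranspose_mul_mul_same _
  have hk : ∀ k : Fin q, 0 ≤ ((θ.updateCol k α)ᴴ * w⁻¹ * θ.updateCol k α).det := fun k =>
    (hw.inv.posSemidef.conjTranspose_mul_mul_same _).det_nonneg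
  refine ⟨Finset.sum_nonneg fun k _ => (Complex.le_def.mp (hk k)).1, ?_⟩
  have h1 := det_lower hA (d := fun _ => δ) (fun _ => hδ) (Finset.univ.map ⟨Sum.inl, Sum.inl_injective⟩)
  have h2 := BB_add w θ δ α
  rw [h2, det_BB hw θ le_rfl, det_BB hw θ hδ, Finset.sum_map] at h1
  have h3 := (Complex.le_def.mp h1).1
  rw [Complex.add_re, Complex.re_sum] at h3
  rw [qf, qf, ee, Finset.mul_sum]
  refine le_trans (le_of_eq ?_) h3
  congr 1
  refine Finset.sum_congr rfl fun k _ => ?_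
  simp only [Function.Embedding.coeFn_mk]
  rw [adj_BB, Complex.re_ofReal_mul]

end Vale.Agent.P284.H279
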