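import Vale.Agent.P284.H279.A2Fin
import Mathlib.Analysis.Calculus.Deriv.Slope

/-!
# P284 (helper279), A2: the stronger main inequality and the exact value of `ee`
-/

open scoped ComplexOrder MatrixOrder Topology
open Matrix Filter

set_option linter.unusedSectionVars false
set_option linter.unusedSimpArgs false

noncomputable section

namespace Vale.Agent.P284.H279

section
variable {m q : Type*} [Fintype m] [DecidableEq m] [Fintype q] [DecidableEq q]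

/-- **Frame**: simultaneous diagonalisation of `w` and `θ θ*`, expressed by the inverse matrices. -/
theorem frameE0 {w : Matrix m m ℂ} (hw : w.PosDef) (θ : Matrix m q ℂ) :
    ∃ (μ : q → ℝ) (Q0 : Matrix m m ℂ) (Q : q → Matrix m m ℂ), (∀ i, 0 ≤ μ i) ∧ Q0.PosSemidef ∧
      (∀ i, (Q i).PosSemidef) ∧ w⁻¹ = Q0 + ∑ i, Q i ∧
      (∀ τ : ℝ, 0 ≤ τ → (wt w θ τ)⁻¹ = Q0 + ∑ i, (((1 + τ * μ i)⁻¹ : ℝ) : ℂ) • Q i) ∧
      (∀ Λ : ℝ, ((Λ : ℂ) • (1 : Matrix q q ℂ) - TT w θ).PosSemidef → ∀ i, μ i ≤ Λ) ∧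
      (∀ δ : ℝ, ((δ : ℂ) • (1 : Matrix q q ℂ) + TT w θ).det = ∏ i, ((δ : ℂ) + μ i)) ∧
      (∀ δ : ℝ, ((δ : ℂ) • (1 : Matrix q q ℂ) + TT w θ).det • w⁻¹ -
        w⁻¹ * θ * ((δ : ℂ) • (1 : Matrix q q ℂ) + TT w θ).adjugate * θᴴ * w⁻¹ =
        ((∏ i, (δ + μ i) : ℝ) : ℂ) • Q0 +
          ∑ i, ((δ * ∏ j ∈ Finset.univ.erase i, (δ + μ j) : ℝ) : ℂ) • Q i) ∧
      ((TT w θ).det ≠ 0 → w⁻¹ * θ * (TT w θ)⁻¹ * (TT w θ)⁻¹ * θᴴ * w⁻¹ =
        ∑ i, (((μ i)⁻¹ : ℝ) : ℂ) • Q i) := by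
  classical
  have hT := psd_TT hw θ
  set V : Matrix q q ℂ := (hT.1.eigenvectorUnitary : Matrix q q ℂ) with hV
  set μ : q → ℝ := hT.1.eigenvalues with hμ
  have hVV : Vᴴ * V = 1 := by
    have := (Matrix.mem_unitaryGroup_iff' (A := V)).mp hT.1.eigenvectorUnitary.2
    simpa [star_eq_conjTranspose] using this
  have hVV' : V * Vᴴ = 1 := by
    have := (Matrix.mem_unitaryGroup_iff (A := V)).mp hT.1.eigenvectorUnitary.2
    simpa [star_eq_conjTranspose] using this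
  have hspec : TT w θ = V * diagonal (fun i => (μ i : ℂ)) * Vᴴ := by
    have := hT.1.spectral_theorem
    rw [Unitary.conjStarAlgAut_apply] at this
    simpa [star_eq_conjTranspose, Function.comp_def] using this
  have hμ0 : ∀ i, 0 ≤ μ i := fun i => hT.eigenvalues_nonneg i
  -- replace `θ` by `θ V`
  set θ' : Matrix m q ℂ := θ * V with hθ'
  have hTT' : θ'ᴴ * w⁻¹ * θ' = diagonal (fun i => (μ i : ℂ)) := by
    have : θ'ᴴ * w⁻¹ * θ' = Vᴴ * TT w θ * V := by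
      simp only [hθ', TT, conjTranspose_mul, Matrix.mul_assoc]
    rw [this, hspec]
    calc Vᴴ * (V * diagonal (fun i => (μ i : ℂ)) * Vᴴ) * V
        = (Vᴴ * V) * diagonal (fun i => (μ i : ℂ)) * (Vᴴ * V) := by
          simp only [Matrix.mul_assoc]
      _ = _ := by rw [hVV]; simp
  have hAA : θ * θᴴ = θ' * θ'ᴴ := by
    rw [hθ', conjTranspose_mul]
    calc θ * θᴴ = θ * (V * Vᴴ) * θᴴ := by rw [hVV']; simp
      _ = _ := by simp only [Matrix.mul_assoc]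
  have hww : w * w⁻¹ = 1 := Matrix.mul_nonsing_inv w ((Matrix.isUnit_iff_isUnit_det w).mp hw.isUnit)
  have hww' : w⁻¹ * w = 1 := Matrix.nonsing_inv_mul w ((Matrix.isUnit_iff_isUnit_det w).mp hw.isUnit)
  -- the columns with `μ i = 0` vanish
  have hcol : ∀ i, μ i = 0 → ∀ j, θ' j i = 0 := by
    intro i hi
    have h1 : star (fun j => θ' j i) ⬝ᵥ (w⁻¹ *ᵥ fun j => θ' j i) = 0 := by
      have := congrFun (congrFun hTT' i) i
      rw [diagonal_apply_eq, hi] at this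
      rw [Matrix.mul_assoc, Matrix.mul_apply] at this
      simpa [dotProduct, mulVec, Matrix.mul_apply, conjTranspose_apply] using this
    by_contra h
    push Not at h
    obtain ⟨j, hj⟩ := h
    have h2 : (fun j => θ' j i) ≠ 0 := fun h => hj (congrFun h j)
    have h3 := hw.inv.dotProduct_mulVec_pos h2
    rw [h1] at h3
    exact lt_irrefl _ h3
  have hZc : ∀ d d' : q → ℝ, (∀ i, μ i ≠ 0 → d i = d' i) → ZZ w θ' d = ZZ w θ' d' := by
    intro d d' hd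
    have : θ' * diagonal (fun i => (d i : ℂ)) = θ' * diagonal (fun i => (d' i : ℂ)) := by
      ext j i
      rw [mul_diagonal, mul_diagonal]
      by_cases h : μ i = 0
      · rw [hcol i h j]; simp
      · rw [hd i h]
    have h2 : ZZ w θ' d = w⁻¹ * (θ' * diagonal (fun i => (d i : ℂ))) * θ'ᴴ * w⁻¹ := by
      simp only [ZZ, Matrix.mul_assoc]
    rw [h2, this]
    simp only [ZZ, Matrix.mul_assoc]
  have hZw : ∀ d d' : q → ℝ, ZZ w θ' d * w * ZZ w θ' d' = ZZ w θ' (fun i => d i * μ i * d' i) := by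
    intro d d'
    have h1 : (diagonal (fun i => ((d i * μ i * d' i : ℝ) : ℂ)) : Matrix q q ℂ) =
        diagonal (fun i => (d i : ℂ)) * diagonal (fun i => (μ i : ℂ)) *
          diagonal (fun i => (d' i : ℂ)) := by
      rw [diagonal_mul_diagonal, diagonal_mul_diagonal]; simp
    rw [ZZ, ZZ, ZZ, h1, ← hTT']
    calc w⁻¹ * θ' * diagonal (fun i => (d i : ℂ)) * θ'ᴴ * w⁻¹ * w *
          (w⁻¹ * θ' * diagonal (fun i => (d' i : ℂ)) * θ'ᴴ * w⁻¹)
        = w⁻¹ * θ' * diagonal (fun i => (d i : ℂ)) * θ'ᴴ * (w⁻¹ * w) *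
          (w⁻¹ * θ' * diagonal (fun i => (d' i : ℂ)) * θ'ᴴ * w⁻¹) := by
          simp only [Matrix.mul_assoc]
      _ = _ := by rw [hww']; simp only [Matrix.mul_assoc, Matrix.mul_one]
  set Q : q → Matrix m m ℂ := fun i => ZZ w θ' (fun k => if k = i then (μ i)⁻¹ else 0) with hQ
  have hQsum : ∀ c : q → ℝ, ∑ i, ((c i : ℝ) : ℂ) • Q i = ZZ w θ' (fun k => c k * (μ k)⁻¹) := by
    intro c
    have : (fun k => c k * (μ k)⁻¹) =
        fun k => ∑ i, c i * (if k = i then (μ i)⁻¹ else 0) := by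
      funext k
      simp
    rw [this, ZZ_sum]
    refine Finset.sum_congr rfl fun i _ => ?_
    rw [ZZ_smul]
  have hQ1 : ∑ i, Q i = ZZ w θ' (fun k => (μ k)⁻¹) := by
    have := hQsum (fun _ => 1)
    simpa using this
  have hVd : V.det * Vᴴ.det = 1 := by rw [← det_mul, hVV', det_one]
  have hTd : ∀ δ : ℝ, ((δ : ℂ) • (1 : Matrix q q ℂ) + TT w θ) =
      V * diagonal (fun i => (δ : ℂ) + μ i) * Vᴴ := by
    intro δ
    have h1 : (diagonal (fun i => (δ : ℂ) + μ i) : Matrix q q ℂ) =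
        (δ : ℂ) • (1 : Matrix q q ℂ) + diagonal (fun i => (μ i : ℂ)) := by
      rw [← diagonal_one, ← diagonal_smul, diagonal_add]; simp
    rw [h1, Matrix.mul_add, Matrix.add_mul, Matrix.mul_smul, Matrix.smul_mul, Matrix.mul_one, hVV',
      ← hspec]
  refine ⟨μ, w⁻¹ - ∑ i, Q i, Q, hμ0, ?_, fun i => ZZ_psd hw fun k => ?_, by abel, ?_, ?_, ?_, ?_, ?_⟩
  · -- positivity of `Q0`
    rw [hQ1]
    have hH : (w⁻¹ - ZZ w θ' (fun k => (μ k)⁻¹)).IsHermitian :=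
      hw.inv.1.sub (ZZ_psd hw fun k => inv_nonneg.mpr (hμ0 k)).1
    have h1 : (w⁻¹ - ZZ w θ' (fun k => (μ k)⁻¹))ᴴ * w * (w⁻¹ - ZZ w θ' (fun k => (μ k)⁻¹)) =
        w⁻¹ - ZZ w θ' (fun k => (μ k)⁻¹) := by
      rw [hH.eq]
      set Z := ZZ w θ' (fun k => (μ k)⁻¹) with hZ
      have hZZ : Z * w * Z = Z := by
        rw [hZ, hZw]
        congr 1
        funext i
        by_cases h : μ i = 0
        · simp [h]
        · field_simp
      have hl : w⁻¹ * w * Z = Z := by rw [hww', Matrix.one_mul]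
      have hr : Z * w * w⁻¹ = Z := by rw [Matrix.mul_assoc, hww, Matrix.mul_one]
      have hm : w⁻¹ * w * w⁻¹ = w⁻¹ := by rw [hww', Matrix.one_mul]
      calc (w⁻¹ - Z) * w * (w⁻¹ - Z) = w⁻¹ * w * w⁻¹ - w⁻¹ * w * Z - Z * w * w⁻¹ + Z * w * Z := by
            noncomm_ring
        _ = _ := by rw [hl, hr, hm, hZZ]; abel
    rw [← h1]
    exact hw.posSemidef.conjTranspose_mul_mul_same _
  · by_cases h : k = i
    · simpa [h] using hμ0 i
    · simp [h]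
  · intro τ hτ
    have hpos : ∀ i, 0 < 1 + τ * μ i := fun i => by
      have := mul_nonneg hτ (hμ0 i); linarith
    rw [hQsum, hQ1]
    have h1 : (wt w θ τ)⁻¹ = w⁻¹ - ZZ w θ' (fun i => τ / (1 + τ * μ i)) := by
      apply Matrix.inv_eq_right_inv
      rw [wt, hAA, ZZ]
      set Dg : Matrix q q ℂ := diagonal (fun i => ((τ / (1 + τ * μ i) : ℝ) : ℂ)) with hDg
      have h2 : (τ : ℂ) • (1 : Matrix q q ℂ) - Dg -
          (τ : ℂ) • (diagonal (fun i => (μ i : ℂ)) * Dg) = 0 := by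
        rw [hDg, diagonal_mul_diagonal, ← diagonal_one, ← diagonal_smul, ← diagonal_smul,
          diagonal_sub, diagonal_sub, ← diagonal_zero]
        congr 1
        funext i
        have := (hpos i).ne'
        have h3 : τ - τ / (1 + τ * μ i) - τ * (μ i * (τ / (1 + τ * μ i))) = 0 := by
          field_simp; ring
        have h4 : ((τ - τ / (1 + τ * μ i) - τ * (μ i * (τ / (1 + τ * μ i))) : ℝ) : ℂ) = 0 := by
          rw [h3]; simp
        simpa using h4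
      calc (w + (τ : ℂ) • (θ' * θ'ᴴ)) * (w⁻¹ - w⁻¹ * θ' * Dg * θ'ᴴ * w⁻¹)
          = w * w⁻¹ - (w * w⁻¹) * (θ' * Dg * θ'ᴴ * w⁻¹) + (τ : ℂ) • (θ' * θ'ᴴ * w⁻¹) -
            (τ : ℂ) • (θ' * (θ'ᴴ * w⁻¹ * θ') * Dg * θ'ᴴ * w⁻¹) := by
            rw [Matrix.mul_sub, Matrix.add_mul, Matrix.add_mul]
            simp only [Matrix.mul_assoc, Matrix.smul_mul]
            abel
        _ = 1 + θ' * ((τ : ℂ) • (1 : Matrix q q ℂ) - Dg -
            (τ : ℂ) • (diagonal (fun i => (μ i : ℂ)) * Dg)) * θ'ᴴ * w⁻¹ := by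
            rw [hww, hTT']
            simp only [Matrix.mul_sub, Matrix.sub_mul, Matrix.mul_smul, Matrix.smul_mul,
              Matrix.mul_one, Matrix.one_mul, Matrix.mul_assoc]
            abel
        _ = 1 := by rw [h2]; simp
    rw [h1]
    have h5 : ZZ w θ' (fun i => τ / (1 + τ * μ i)) + ZZ w θ' (fun k => (1 + τ * μ k)⁻¹ * (μ k)⁻¹) =
        ZZ w θ' (fun k => (μ k)⁻¹) := by
      rw [← ZZ_add]
      apply hZc
      intro i hi
      have := (hpos i).ne'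
      field_simp
      ring
    rw [← h5]
    abel
  · intro Λ hΛ i
    have h1 := hΛ.conjTranspose_mul_mul_same V
    have h2 : Vᴴ * ((Λ : ℂ) • (1 : Matrix q q ℂ) - TT w θ) * V =
        diagonal (fun i => ((Λ - μ i : ℝ) : ℂ)) := by
      have h3 : (diagonal (fun i => ((Λ - μ i : ℝ) : ℂ)) : Matrix q q ℂ) =
          (Λ : ℂ) • (1 : Matrix q q ℂ) - diagonal (fun i => (μ i : ℂ)) := by
        rw [← diagonal_one, ← diagonal_smul, diagonal_sub]; congr 1; funext i; simp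
      rw [h3, hspec, Matrix.mul_sub, Matrix.sub_mul]
      congr 1
      · rw [Matrix.mul_smul, Matrix.smul_mul, Matrix.mul_one, hVV]
      · calc Vᴴ * (V * diagonal (fun i => (μ i : ℂ)) * Vᴴ) * V
            = (Vᴴ * V) * diagonal (fun i => (μ i : ℂ)) * (Vᴴ * V) := by
              simp only [Matrix.mul_assoc]
          _ = _ := by rw [hVV]; simp
    rw [h2] at h1
    have h4 := h1.diag_nonneg (i := i)
    rw [diagonal_apply_eq] at h4
    have h5 : (0 : ℝ) ≤ Λ - μ i := by exact_mod_cast h4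
    linarith
  · intro δ
    rw [hTd δ, det_mul, det_mul, det_diagonal]
    linear_combination (∏ i, ((δ : ℂ) + μ i)) * hVd
  · intro δ
    have hdet : ((δ : ℂ) • (1 : Matrix q q ℂ) + TT w θ).det = ((∏ i, (δ + μ i) : ℝ) : ℂ) := by
      rw [hTd δ, det_mul, det_mul, det_diagonal]
      push_cast
      linear_combination (∏ i, ((δ : ℂ) + μ i)) * hVd
    have hadj : ((δ : ℂ) • (1 : Matrix q q ℂ) + TT w θ).adjugate =
        V * diagonal (fun i => ((∏ j ∈ Finset.univ.erase i, (δ + μ j) : ℝ) : ℂ)) * Vᴴ := by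
      rw [hTd δ, adjugate_mul_distrib, adjugate_mul_distrib, adjugate_diagonal]
      have hV1 : V.adjugate = V.det • Vᴴ := by
        calc V.adjugate = V.adjugate * (V * Vᴴ) := by rw [hVV', Matrix.mul_one]
          _ = V.det • Vᴴ := by rw [← Matrix.mul_assoc, adjugate_mul, Matrix.smul_mul, Matrix.one_mul]
      have hV2 : (Vᴴ).adjugate = (Vᴴ).det • V := by
        calc (Vᴴ).adjugate = (V * Vᴴ) * (Vᴴ).adjugate := by rw [hVV', Matrix.one_mul]
          _ = (Vᴴ).det • V := by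
            rw [Matrix.mul_assoc, mul_adjugate, Matrix.mul_smul, Matrix.mul_one]
      rw [hV1, hV2]
      have hd2 : (fun i => ∏ j ∈ Finset.univ.erase i, ((δ : ℂ) + μ j)) =
          fun i => ((∏ j ∈ Finset.univ.erase i, (δ + μ j) : ℝ) : ℂ) := by
        funext i; push_cast; rfl
      rw [hd2]
      simp only [Matrix.smul_mul, Matrix.mul_smul, smul_smul, Matrix.mul_assoc]
      rw [hVd, one_smul]
    have hQd : ∀ d : q → ℝ, ZZ w θ' d = ∑ i, ((d i * μ i : ℝ) : ℂ) • Q i := by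
      intro d
      rw [hQsum]
      apply hZc
      intro i hi
      field_simp
    have hleft : w⁻¹ * θ * ((δ : ℂ) • (1 : Matrix q q ℂ) + TT w θ).adjugate * θᴴ * w⁻¹ =
        ZZ w θ' (fun i => ∏ j ∈ Finset.univ.erase i, (δ + μ j)) := by
      rw [hadj, ZZ, hθ', conjTranspose_mul]
      simp only [Matrix.mul_assoc]
    rw [hleft, hdet, hQd, smul_sub, Finset.smul_sum, sub_add, sub_right_inj, ← Finset.sum_sub_distrib]
    refine Finset.sum_congr rfl fun i _ => ?_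
    rw [← sub_smul]
    congr 1
    have e4 : ∏ j, (δ + μ j) = (δ + μ i) * ∏ j ∈ Finset.univ.erase i, (δ + μ j) :=
      (Finset.mul_prod_erase _ _ (Finset.mem_univ i)).symm
    rw [e4]
    push_cast
    ring
  · intro hdet
    have hpr : (TT w θ).det = ∏ i, (μ i : ℂ) := by
      rw [hspec, det_mul, det_mul, det_diagonal]
      linear_combination (∏ i, (μ i : ℂ)) * hVd
    have hne : ∀ i, μ i ≠ 0 := by
      intro i hi
      apply hdet
      rw [hpr]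
      exact Finset.prod_eq_zero (Finset.mem_univ i) (by simp [hi])
    have hinv : (TT w θ)⁻¹ = V * diagonal (fun i => (((μ i)⁻¹ : ℝ) : ℂ)) * Vᴴ := by
      apply Matrix.inv_eq_right_inv
      rw [hspec]
      calc V * diagonal (fun i => (μ i : ℂ)) * Vᴴ * (V * diagonal (fun i => (((μ i)⁻¹ : ℝ) : ℂ)) * Vᴴ)
          = V * (diagonal (fun i => (μ i : ℂ)) * (Vᴴ * V) * diagonal (fun i => (((μ i)⁻¹ : ℝ) : ℂ))) *
            Vᴴ := by simp only [Matrix.mul_assoc]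
        _ = V * 1 * Vᴴ := by
            rw [hVV, Matrix.mul_one, diagonal_mul_diagonal]
            congr 2
            rw [← diagonal_one]
            congr 1
            funext i
            have : (μ i : ℂ) ≠ 0 := by exact_mod_cast hne i
            simp [this]
        _ = 1 := by rw [Matrix.mul_one, hVV']
    have hinv2 : (TT w θ)⁻¹ * (TT w θ)⁻¹ =
        V * diagonal (fun i => (((μ i)⁻¹ * (μ i)⁻¹ : ℝ) : ℂ)) * Vᴴ := by
      rw [hinv]
      have h1 : (diagonal (fun i => (((μ i)⁻¹ * (μ i)⁻¹ : ℝ) : ℂ)) : Matrix q q ℂ) =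
          diagonal (fun i => (((μ i)⁻¹ : ℝ) : ℂ)) * diagonal (fun i => (((μ i)⁻¹ : ℝ) : ℂ)) := by
        rw [diagonal_mul_diagonal]; simp
      rw [h1]
      calc V * diagonal (fun i => (((μ i)⁻¹ : ℝ) : ℂ)) * Vᴴ *
            (V * diagonal (fun i => (((μ i)⁻¹ : ℝ) : ℂ)) * Vᴴ)
          = V * (diagonal (fun i => (((μ i)⁻¹ : ℝ) : ℂ)) * (Vᴴ * V) *
            diagonal (fun i => (((μ i)⁻¹ : ℝ) : ℂ))) * Vᴴ := by simp only [Matrix.mul_assoc]
        _ = _ := by rw [hVV, Matrix.mul_one]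
    have hl : w⁻¹ * θ * (TT w θ)⁻¹ * (TT w θ)⁻¹ * θᴴ * w⁻¹ =
        w⁻¹ * θ * ((TT w θ)⁻¹ * (TT w θ)⁻¹) * θᴴ * w⁻¹ := by simp only [Matrix.mul_assoc]
    rw [hl, hinv2, hQsum, ZZ, hθ', conjTranspose_mul]
    simp only [Matrix.mul_assoc]


end

open Vale.Agent.P284.H402.A (WW AA qf tr1 tr2 ee)

/-- `w⁻¹ θ T⁻² θᴴ w⁻¹` -/
def KK {n q : ℕ} (w : Matrix (Fin n) (Fin n) ℂ) (θ : Matrix (Fin n) (Fin q) ℂ) :
    Matrix (Fin n) (Fin n) ℂ :=
  w⁻¹ * θ * (H402.A.TT w θ 0)⁻¹ * (H402.A.TT w θ 0)⁻¹ * θᴴ * w⁻¹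

/-- **Frame** for the definitions of `H402/A/Spec.lean`. -/
theorem frameE {n q : ℕ} {w : Matrix (Fin n) (Fin n) ℂ} (hw : w.PosDef)
    (θ : Matrix (Fin n) (Fin q) ℂ) :
    ∃ (μ : Fin q → ℝ) (Q0 : Matrix (Fin n) (Fin n) ℂ) (Q : Fin q → Matrix (Fin n) (Fin n) ℂ),
      (∀ i, 0 ≤ μ i) ∧ Q0.PosSemidef ∧ (∀ i, (Q i).PosSemidef) ∧ w⁻¹ = Q0 + ∑ i, Q i ∧
      (∀ δ : ℝ, (H402.A.TT w θ δ).det = ((∏ i, (δ + μ i) : ℝ) : ℂ)) ∧
      (∀ δ : ℝ, H402.A.DD w θ δ = ∏ i, (δ + μ i)) ∧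
      (∀ δ : ℝ, AA w θ δ = ((∏ i, (δ + μ i) : ℝ) : ℂ) • Q0 +
          ∑ i, ((δ * ∏ j ∈ Finset.univ.erase i, (δ + μ j) : ℝ) : ℂ) • Q i) ∧
      (∀ δ : ℝ, 0 < δ → (WW w θ δ)⁻¹ = Q0 + ∑ i, ((δ / (δ + μ i) : ℝ) : ℂ) • Q i) ∧
      (∀ Λ : ℝ, ((Λ : ℂ) • (1 : Matrix (Fin q) (Fin q) ℂ) - θᴴ * w⁻¹ * θ).PosSemidef →
        ∀ i, μ i ≤ Λ) ∧
      (H402.A.DD w θ 0 ≠ 0 → KK w θ = ∑ i, (((μ i)⁻¹ : ℝ) : ℂ) • Q i) := by
  obtain ⟨μ, Q0, Q, h1, h2, h3, h4, h5, h6, h7, h8, h9⟩ := frameE0 hw θ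
  have hdet : ∀ δ : ℝ, (H402.A.TT w θ δ).det = ((∏ i, (δ + μ i) : ℝ) : ℂ) := by
    intro δ
    have := h7 δ
    rw [TT] at this
    rw [H402.A.TT, this]
    push_cast; rfl
  refine ⟨μ, Q0, Q, h1, h2, h3, h4, hdet, fun δ => ?_, fun δ => h8 δ, fun δ hδ => ?_, h6,
    fun h => ?_⟩
  · rw [H402.A.DD, hdet, Complex.ofReal_re]
  · have : WW w θ δ = wt w θ δ⁻¹ := rfl
    rw [this, h5 _ (inv_nonneg.mpr hδ.le)]
    congr 1
    refine Finset.sum_congr rfl fun i _ => ?_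
    congr 2
    have := h1 i
    have h9 : 0 < δ + μ i := by linarith
    field_simp
  · have hT : H402.A.TT w θ 0 = TT w θ := by simp [H402.A.TT, TT]
    rw [KK, hT]
    apply h9
    intro h0
    apply h
    rw [H402.A.DD, hT, h0, Complex.zero_re]

/-- **stronger main inequality** -/
theorem main' (q : ℕ) (Λ : ℝ) (hq : 0 < q) : ∃ c : ℝ, 0 < c ∧ ∀ {n : ℕ}
    (w : Matrix (Fin n) (Fin n) ℂ) (θ : Matrix (Fin n) (Fin q) ℂ) (δ : ℝ)
    (x : Matrix (Fin n) (Fin n) ℂ), w.PosDef → 0 < δ → δ ≤ 1 → x.IsHermitian →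
    ((Λ : ℂ) • (1 : Matrix (Fin q) (Fin q) ℂ) - θᴴ * w⁻¹ * θ).PosSemidef →
    c * δ * (tr2 (AA w θ 0) w⁻¹ x + tr2 (AA w θ 0) (KK w θ) x) +
      tr2 (AA w θ 0) (AA w θ 0) x / H402.A.DD w θ 0 ≤
      H402.A.DD w θ δ * tr2 (WW w θ δ)⁻¹ (WW w θ δ)⁻¹ x := by
  refine ⟨(2 + |Λ|)⁻¹, by positivity, ?_⟩
  intro n w θ δ x hw hδ hδ1 hx hΛ
  obtain ⟨μ, Q0, Q, h1, h2, h3, h4, h5, h6, h7, h8, h9, h10⟩ := frameE hw θ
  have hμ := h9 Λ hΛ
  have a00 : 0 ≤ tr2 Q0 Q0 x := trq_nn h2 h2 hx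
  have a0i : ∀ i, 0 ≤ tr2 Q0 (Q i) x := fun i => trq_nn h2 (h3 i) hx
  have hpos : ∀ i, 0 < δ + μ i := fun i => by linarith [h1 i]
  -- `R`
  set R : Matrix (Fin n) (Fin n) ℂ := ∑ i, ((δ / (δ + μ i) : ℝ) : ℂ) • Q i with hR
  have hRp : R.PosSemidef := by
    refine posSemidef_sum _ fun i _ => (h3 i).smul ?_
    exact_mod_cast (div_pos hδ (hpos i)).le
  have s1 : ∀ (c : ℝ) (A B : Matrix (Fin n) (Fin n) ℂ), tr2 A ((c : ℂ) • B) x = c * tr2 A B x := by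
    intro c A B
    rw [tr2, tr2, Matrix.smul_mul, Matrix.mul_smul, re_tr_smul]
  have s1' : ∀ (c : ℝ) (A B : Matrix (Fin n) (Fin n) ℂ), tr2 ((c : ℂ) • A) B x = c * tr2 A B x := by
    intro c A B
    rw [tr2, tr2, Matrix.smul_mul, Matrix.smul_mul, re_tr_smul]
  have s2 : ∀ A B C : Matrix (Fin n) (Fin n) ℂ, tr2 A (B + C) x = tr2 A B x + tr2 A C x := by
    intro A B C
    rw [tr2, tr2, tr2, Matrix.add_mul, Matrix.mul_add, trace_add, Complex.add_re]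
  have s2' : ∀ A B C : Matrix (Fin n) (Fin n) ℂ, tr2 (A + B) C x = tr2 A C x + tr2 B C x := by
    intro A B C
    rw [tr2, tr2, tr2, Matrix.add_mul, Matrix.add_mul, trace_add, Complex.add_re]
  have s3 : ∀ A B : Matrix (Fin n) (Fin n) ℂ, tr2 A B x = tr2 B A x := by
    intro A B
    rw [tr2, tr2, trace_mul_comm]
  have s4 : ∀ (A : Matrix (Fin n) (Fin n) ℂ) (c : Fin q → ℝ),
      tr2 A (∑ i, ((c i : ℝ) : ℂ) • Q i) x = ∑ i, c i * tr2 A (Q i) x := by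
    intro A c
    rw [tr2, Finset.sum_mul, Matrix.mul_sum, trace_sum, Complex.re_sum]
    refine Finset.sum_congr rfl fun i _ => ?_
    rw [Matrix.smul_mul, Matrix.mul_smul, re_tr_smul, tr2]
  have e1 : tr2 (WW w θ δ)⁻¹ (WW w θ δ)⁻¹ x =
      tr2 Q0 Q0 x + 2 * ∑ i, δ / (δ + μ i) * tr2 Q0 (Q i) x + tr2 R R x := by
    rw [h8 δ hδ, ← hR, s2, s2', s2', s3 R Q0, hR, s4]
    ring
  have rr : 0 ≤ tr2 R R x := trq_nn hRp hRp hx
  have hP : ∀ δ' : ℝ, 0 ≤ δ' → ∀ i, ∏ j, (δ' + μ j) =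
      (δ' + μ i) * ∏ j ∈ Finset.univ.erase i, (δ' + μ j) := fun δ' _ i =>
    (Finset.mul_prod_erase _ _ (Finset.mem_univ i)).symm
  have hE : ∀ i, ∏ j ∈ Finset.univ.erase i, μ j ≤ ∏ j ∈ Finset.univ.erase i, (δ + μ j) := fun i =>
    Finset.prod_le_prod (fun j _ => h1 j) fun j _ => by linarith
  have hE0 : ∀ i, 0 ≤ ∏ j ∈ Finset.univ.erase i, μ j := fun i => Finset.prod_nonneg fun j _ => h1 j
  have hD0 : (0 : ℝ) ≤ ∏ j, μ j := Finset.prod_nonneg fun j _ => h1 j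
  have hDz : H402.A.DD w θ 0 = ∏ j, μ j := by rw [h6]; simp
  have hA0 : AA w θ 0 = ((∏ j, μ j : ℝ) : ℂ) • Q0 := by
    rw [h7]; simp
  have hDi : ∀ i, ∏ j, μ j = μ i * ∏ j ∈ Finset.univ.erase i, μ j := fun i =>
    (Finset.mul_prod_erase _ _ (Finset.mem_univ i)).symm
  set D : ℝ := ∏ j, μ j with hD
  have ev : tr2 (AA w θ 0) (AA w θ 0) x / H402.A.DD w θ 0 = D * tr2 Q0 Q0 x := by
    rw [hA0, hDz, s1, s1']
    by_cases h : D = 0
    · rw [h]; simp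
    · field_simp
  have ew : tr2 (AA w θ 0) w⁻¹ x = D * tr2 Q0 Q0 x + ∑ i, D * tr2 Q0 (Q i) x := by
    rw [hA0, s1', h4, s2]
    have := s4 Q0 (fun _ => 1)
    simp only [Complex.ofReal_one, one_smul, one_mul] at this
    rw [this, mul_add, Finset.mul_sum]
  have eK : tr2 (AA w θ 0) (KK w θ) x ≤ ∑ i, (∏ j ∈ Finset.univ.erase i, μ j) * tr2 Q0 (Q i) x := by
    by_cases h : D = 0
    · rw [hA0, s1', h, zero_mul]
      exact Finset.sum_nonneg fun i _ => mul_nonneg (hE0 i) (a0i i)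
    · have h' : H402.A.DD w θ 0 ≠ 0 := by rw [hDz]; exact h
      rw [hA0, s1', h10 h', s4, Finset.mul_sum]
      refine le_of_eq (Finset.sum_congr rfl fun i _ => ?_)
      have hi : μ i ≠ 0 := by
        intro h0
        apply h
        rw [hDi i, h0, zero_mul]
      rw [hDi i]
      field_simp
  obtain ⟨i0⟩ : Nonempty (Fin q) := ⟨⟨0, hq⟩⟩
  set P : ℝ := ∏ j, (δ + μ j) with hPd
  -- `P - D ≥ δ D / (2 + |Λ|)`
  have b1 : (2 + |Λ|)⁻¹ * δ * D ≤ P - D := by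
    have e2 : P = (δ + μ i0) * ∏ j ∈ Finset.univ.erase i0, (δ + μ j) := hP δ hδ.le i0
    have h11 := hE i0
    have h12 := hE0 i0
    have h13 := hDi i0
    set e := ∏ j ∈ Finset.univ.erase i0, μ j
    set f := ∏ j ∈ Finset.univ.erase i0, (δ + μ j)
    have h14 : μ i0 ≤ 2 + |Λ| := by linarith [hμ i0, le_abs_self Λ]
    have h15 : D ≤ (2 + |Λ|) * e := by rw [h13]; exact mul_le_mul_of_nonneg_right h14 h12
    have h16 : (2 + |Λ|)⁻¹ * D ≤ e := by
      rw [inv_mul_le_iff₀ (by positivity)]; exact h15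
    have h17 : D + δ * e ≤ P := by
      rw [h13, e2]
      nlinarith [mul_le_mul_of_nonneg_left h11 (hpos i0).le]
    nlinarith [mul_le_mul_of_nonneg_left h16 hδ.le]
  have b2 : ∀ i, (2 + |Λ|)⁻¹ * δ * (D + ∏ j ∈ Finset.univ.erase i, μ j) ≤ P * (δ / (δ + μ i)) := by
    intro i
    have e2 : P = (δ + μ i) * ∏ j ∈ Finset.univ.erase i, (δ + μ j) := hP δ hδ.le i
    have h11 := hE i
    have h12 := hE0 i
    have h13 := hDi i
    have h14 : μ i ≤ 1 + |Λ| := by linarith [hμ i, le_abs_self Λ]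
    have h18 : P * (δ / (δ + μ i)) = δ * ∏ j ∈ Finset.univ.erase i, (δ + μ j) := by
      rw [e2]
      have := (hpos i).ne'
      field_simp
    rw [h18]
    set e := ∏ j ∈ Finset.univ.erase i, μ j
    have h15 : D + e ≤ (2 + |Λ|) * e := by rw [h13]; nlinarith
    have h16 : (2 + |Λ|)⁻¹ * (D + e) ≤ e := by
      rw [inv_mul_le_iff₀ (by positivity)]; exact h15
    calc (2 + |Λ|)⁻¹ * δ * (D + e) = δ * ((2 + |Λ|)⁻¹ * (D + e)) := by ring
      _ ≤ δ * e := mul_le_mul_of_nonneg_left h16 hδ.le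
      _ ≤ _ := mul_le_mul_of_nonneg_left h11 hδ.le
  have hcc : (0 : ℝ) < (2 + |Λ|)⁻¹ := by positivity
  rw [ev, e1, h6, ew]
  have hPn : 0 ≤ P := (Finset.prod_pos fun j _ => hpos j).le
  have t1 : (2 + |Λ|)⁻¹ * δ * (D * tr2 Q0 Q0 x + ∑ i, D * tr2 Q0 (Q i) x +
      tr2 (AA w θ 0) (KK w θ) x) ≤ (2 + |Λ|)⁻¹ * δ * D * tr2 Q0 Q0 x +
      ∑ i, ((2 + |Λ|)⁻¹ * δ * (D + ∏ j ∈ Finset.univ.erase i, μ j)) * tr2 Q0 (Q i) x := by
    have : ∑ i, ((2 + |Λ|)⁻¹ * δ * (D + ∏ j ∈ Finset.univ.erase i, μ j)) * tr2 Q0 (Q i) x =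
        (2 + |Λ|)⁻¹ * δ * (∑ i, D * tr2 Q0 (Q i) x +
          ∑ i, (∏ j ∈ Finset.univ.erase i, μ j) * tr2 Q0 (Q i) x) := by
      rw [← Finset.sum_add_distrib, Finset.mul_sum]
      exact Finset.sum_congr rfl fun i _ => by ring
    rw [this]
    have h20 := mul_le_mul_of_nonneg_left eK (mul_nonneg hcc.le hδ.le)
    nlinarith
  have t2 : ∑ i, ((2 + |Λ|)⁻¹ * δ * (D + ∏ j ∈ Finset.univ.erase i, μ j)) * tr2 Q0 (Q i) x ≤
      P * ∑ i, δ / (δ + μ i) * tr2 Q0 (Q i) x := by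
    rw [Finset.mul_sum]
    refine Finset.sum_le_sum fun i _ => ?_
    rw [← mul_assoc]
    exact mul_le_mul_of_nonneg_right (b2 i) (a0i i)
  have t3 : 0 ≤ P * ∑ i, δ / (δ + μ i) * tr2 Q0 (Q i) x :=
    mul_nonneg hPn (Finset.sum_nonneg fun i _ => mul_nonneg (div_pos hδ (hpos i)).le (a0i i))
  have t4 := mul_le_mul_of_nonneg_right b1 a00
  have t5 : 0 ≤ P * tr2 R R x := mul_nonneg hPn rr
  nlinarith

/-! ### the exact value of `ee` -/

theorem hasDeriv_det {m : Type*} [Fintype m] [DecidableEq m] (A : Matrix m m ℂ) (s : Finset m) :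
    HasDerivAt (fun δ : ℝ => (A + ∑ k ∈ s, (δ : ℂ) • single k k (1 : ℂ)).det)
      (∑ k ∈ s, A.adjugate k k) 0 := by
  induction s using Finset.induction_on with
  | empty => simpa using hasDerivAt_const (0 : ℝ) A.det
  | insert a s ha ih =>
    have h1 : (fun δ : ℝ => (A + ∑ k ∈ insert a s, (δ : ℂ) • single k k (1 : ℂ)).det) =
        fun δ : ℝ => (A + ∑ k ∈ s, (δ : ℂ) • single k k (1 : ℂ)).det +
          (δ : ℂ) * (A + ∑ k ∈ s, (δ : ℂ) • single k k (1 : ℂ)).adjugate a a := by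
      funext δ
      rw [Finset.sum_insert ha, add_comm ((δ : ℂ) • single a a (1 : ℂ)), ← add_assoc,
        det_add_single]
    rw [h1, Finset.sum_insert ha, add_comm (A.adjugate a a)]
    refine ih.add ?_
    rw [hasDerivAt_iff_tendsto_slope_zero]
    have hc : Continuous fun δ : ℝ => (A + ∑ k ∈ s, (δ : ℂ) • single k k (1 : ℂ)).adjugate a a := by
      have : Continuous fun δ : ℝ => (A + ∑ k ∈ s, (δ : ℂ) • single k k (1 : ℂ)) := by fun_prop
      exact this.matrix_adjugate.matrix_elem a a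
    have h2 := (hc.tendsto 0).mono_left (nhdsWithin_le_nhds (s := {0}ᶜ))
    simp only [Complex.ofReal_zero, zero_smul, Finset.sum_const_zero, add_zero] at h2
    refine h2.congr' ?_
    filter_upwards [self_mem_nhdsWithin] with t ht
    have ht' : (t : ℂ) ≠ 0 := by exact_mod_cast ht
    simp only [zero_add, Complex.ofReal_zero, zero_mul, sub_zero]
    rw [Complex.real_smul, Complex.ofReal_inv, ← mul_assoc, inv_mul_cancel₀ ht', one_mul]

/-- `D · ξᴴ w⁻¹ θ T⁻² θᴴ w⁻¹ ξ ≤ Σ_k |θ_1 ∧ … ξ … ∧ θ_q|²` -/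
theorem KK_le_ee {n q : ℕ} {w : Matrix (Fin n) (Fin n) ℂ} (hw : w.PosDef)
    (θ : Matrix (Fin n) (Fin q) ℂ) (α : Fin n → ℂ) :
    H402.A.DD w θ 0 * qf (KK w θ) α α ≤ ee w θ α := by
  obtain ⟨μ, Q0, Q, h1, h2, h3, h4, h5, h6, h7, h8, h9, h10⟩ := frameE hw θ
  have g0 := qf_nn h2 α
  have gi := fun i => qf_nn (h3 i) α
  have eA : ∀ δ : ℝ, qf (AA w θ δ) α α = (∏ i, (δ + μ i)) * qf Q0 α α +
      ∑ i, (δ * ∏ j ∈ Finset.univ.erase i, (δ + μ j)) * qf (Q i) α α := by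
    intro δ
    rw [h7, qf_add, qf_smul, qf_sum]
    congr 1
    exact Finset.sum_congr rfl fun i _ => qf_smul _ _ _ _
  -- `S`
  have hS : H402.A.DD w θ 0 * qf (KK w θ) α α ≤
      ∑ i, (∏ j ∈ Finset.univ.erase i, μ j) * qf (Q i) α α := by
    by_cases h : H402.A.DD w θ 0 = 0
    · rw [h, zero_mul]
      exact Finset.sum_nonneg fun i _ => mul_nonneg (Finset.prod_nonneg fun j _ => h1 j) (gi i)
    · rw [h10 h, qf_sum, Finset.mul_sum]
      refine le_of_eq (Finset.sum_congr rfl fun i _ => ?_)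
      have hD : H402.A.DD w θ 0 = μ i * ∏ j ∈ Finset.univ.erase i, μ j := by
        rw [h6, Finset.mul_prod_erase _ _ (Finset.mem_univ i)]
        simp
      have hi : μ i ≠ 0 := by
        intro h0
        apply h
        rw [hD, h0, zero_mul]
      rw [qf_smul, hD]
      field_simp
  refine hS.trans ?_
  have hlow : ∀ δ : ℝ, 0 < δ → ∑ i, (∏ j ∈ Finset.univ.erase i, μ j) * qf (Q i) α α ≤
      δ⁻¹ * (qf (AA w θ δ) α α - qf (AA w θ 0) α α) := by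
    intro δ hδ
    rw [← div_eq_inv_mul, le_div_iff₀ hδ, eA, eA]
    have e1 : ∏ i, ((0 : ℝ) + μ i) ≤ ∏ i, (δ + μ i) :=
      Finset.prod_le_prod (fun i _ => by simpa using h1 i) fun i _ => by linarith
    have e2 := mul_le_mul_of_nonneg_right e1 g0
    have e3 : ∑ i, ((0 : ℝ) * ∏ j ∈ Finset.univ.erase i, ((0 : ℝ) + μ j)) * qf (Q i) α α = 0 := by
      simp
    have e4 : (∑ i, (∏ j ∈ Finset.univ.erase i, μ j) * qf (Q i) α α) * δ ≤
        ∑ i, (δ * ∏ j ∈ Finset.univ.erase i, (δ + μ j)) * qf (Q i) α α := by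
      rw [Finset.sum_mul]
      refine Finset.sum_le_sum fun i _ => ?_
      have e5 : ∏ j ∈ Finset.univ.erase i, μ j ≤ ∏ j ∈ Finset.univ.erase i, (δ + μ j) :=
        Finset.prod_le_prod (fun j _ => h1 j) fun j _ => by linarith
      calc (∏ j ∈ Finset.univ.erase i, μ j) * qf (Q i) α α * δ
          = (δ * ∏ j ∈ Finset.univ.erase i, μ j) * qf (Q i) α α := by ring
        _ ≤ _ := mul_le_mul_of_nonneg_right (mul_le_mul_of_nonneg_left e5 hδ.le) (gi i)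
    rw [e3]
    linarith
  -- the derivative of the bordered determinant
  have hder := hasDeriv_det (BB w θ 0 α α) (Finset.univ.map ⟨Sum.inl, Sum.inl_injective⟩)
  rw [hasDerivAt_iff_tendsto_slope_zero] at hder
  have h12 := hder.mono_left (nhdsWithin_mono (0 : ℝ) (show Set.Ioi (0 : ℝ) ⊆ {0}ᶜ from
    fun t ht => ne_of_gt ht))
  have h13 := (Complex.continuous_re.tendsto _).comp h12
  have h14 : (∑ k ∈ Finset.univ.map (⟨Sum.inl, Sum.inl_injective⟩ : Fin q ↪ Fin q ⊕ Fin 1),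
      (BB w θ 0 α α).adjugate k k).re = ee w θ α := by
    rw [Finset.sum_map, Complex.re_sum, ee]
    refine Finset.sum_congr rfl fun k _ => ?_
    simp only [Function.Embedding.coeFn_mk]
    rw [adj_BB]
  rw [h14] at h13
  refine ge_of_tendsto h13 ?_
  filter_upwards [self_mem_nhdsWithin] with δ hδ
  refine (hlow δ hδ).trans (le_of_eq ?_)
  have hδ' : (0 : ℝ) ≤ δ := le_of_lt hδ
  simp only [Function.comp_apply, zero_add]
  rw [BB_add, Complex.real_smul, Complex.re_ofReal_mul]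
  have h15 : (BB w θ 0 α α + ∑ k ∈ Finset.univ.map (⟨Sum.inl, Sum.inl_injective⟩ :
      Fin q ↪ Fin q ⊕ Fin 1), ((0 : ℝ) : ℂ) • single k k (1 : ℂ)) = BB w θ 0 α α := by simp
  rw [h15, det_BB hw θ hδ', det_BB hw θ le_rfl, Complex.sub_re]
  rfl

end Vale.Agent.P284.H279
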