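import Vale.Agent.P284.H494.NoPole
import Vale.Agent.P284.H837.Ker

/-!
# P284 (helper279), T1', MF(I): the group acting trivially on the base of the reduced map acts on the
values of the sheet function through a finite group
-/

open scoped Manifold ContDiff Topology
open Filter Set Metric

noncomputable section

namespace Vale.Agent.P284.H279.Fin

open Vale.Agent.P272.K Vale.Agent.P284.H894.W Vale.Agent.P284.H894.G Vale.Agent.P284.H10
  Vale.Agent.P284.H494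

section
variable {n : ℕ} {X : Type} [TopologicalSpace X] [ChartedSpace (Cm n) X] {E : Type}
  [TopologicalSpace E] {p : E → X} {Γ : Type} [Group Γ] [MulAction Γ E]
  {w : Chart n X → Cm n → Matrix (Fin n) (Fin n) ℂ} {q r : ℕ} {F : E → Cm q} {c : Γ → Cm q}
  [IsManifold 𝓘(ℂ, Cm n) ω X]
  {W : Type} [NormedAddCommGroup W] [InnerProductSpace ℂ W] [CompleteSpace W] {h : E → W}

/-- Analytic continuation over the regular values, strong form of helper494's `sweep` (same proof): if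
`h = k ∘ F` near a point, `k` analytic on the connected open set `O` of regular values, then over every
point of `O` there is a point near which `h = k ∘ F`. -/
theorem sweep' [CompactSpace X] [Nonempty E] (hp : IsGalois Γ p) (hP : Per p w F c)
    (hloc : ∀ y, Reg (n := n) p F y → ∃ f : Cm q → W, AnalyticAt ℂ f (F y) ∧
      ∀ᶠ y' in 𝓝 y, h y' = f (F y'))
    (heq : ∀ g : Γ, ∃ U : W →ₗᵢ[ℂ] W, ∀ y, Reg (n := n) p F y → h (g • y) = U (h y))
    {k : Cm q → W} {O : Set (Cm q)} (hO : IsOpen O) (hpre : IsPreconnected O)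
    (hk : AnalyticOnNhd ℂ k O) (hOR : O ⊆ RV n p F) {y₁ : E} (hy₁ : F y₁ ∈ O)
    (h₁ : ∀ᶠ y in 𝓝 y₁, h y = k (F y)) :
    ∀ τ ∈ O, ∃ z, F z = τ ∧ Reg (n := n) p F z ∧ ∀ᶠ y in 𝓝 z, h y = k (F y) := by
  obtain ⟨B, hB⟩ := hP.hol
  have hFc := hP.continuous hp.cov
  set u : Set (Cm q) := {τ | ∃ z, F z = τ ∧ Reg (n := n) p F z ∧ ∀ᶠ y in 𝓝 z, h y = k (F y)} with hu
  have huo : IsOpen u := by
    rw [isOpen_iff_mem_nhds]
    rintro τ ⟨z, rfl, hz, hPz⟩
    rw [← reg_map_nhds hp.cov hB hz]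
    show {z' | F z' ∈ u} ∈ 𝓝 z
    filter_upwards [(reg_open hp.cov hB).mem_nhds hz, hPz.eventually_nhds] with z' h1 h2
      using ⟨z', rfl, h1, h2⟩
  have hcl : closure u ∩ O ⊆ u := by
    rintro τ₀ ⟨hτ₀u, hτ₀⟩
    obtain ⟨C, hC, hcov⟩ := hP.exists_compact hp (‖τ₀‖ + 1)
    have hne : (𝓝[u] τ₀).NeBot := mem_closure_iff_nhdsWithin_neBot.1 hτ₀u
    -- choose the points
    have hch : ∀ τ : Cm q, ∃ (z : E) (g : Γ), τ ∈ u → ‖τ‖ ≤ ‖τ₀‖ + 1 →
        F z = τ ∧ Reg (n := n) p F z ∧ (∀ᶠ y in 𝓝 z, h y = k (F y)) ∧ c g = 0 ∧ g • z ∈ C := by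
      intro τ
      by_cases h1 : τ ∈ u ∧ ‖τ‖ ≤ ‖τ₀‖ + 1
      · obtain ⟨⟨z, hz1, hz2, hz3⟩, h2⟩ := h1
        obtain ⟨g, hg1, hg2⟩ := hcov z (by rw [hz1]; exact h2)
        exact ⟨z, g, fun _ _ => ⟨hz1, hz2, hz3, hg1, hg2⟩⟩
      · exact ⟨Classical.arbitrary E, 1, fun h2 h3 => absurd ⟨h2, h3⟩ h1⟩
    choose z g hzg using hch
    have hnorm : ∀ᶠ τ in 𝓝[u] τ₀, ‖τ‖ ≤ ‖τ₀‖ + 1 := by
      apply eventually_nhdsWithin_of_eventually_nhds
      have h1 : ∀ᶠ τ in 𝓝 τ₀, ‖τ‖ < ‖τ₀‖ + 1 :=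
        continuous_norm.continuousAt.eventually (gt_mem_nhds (by linarith))
      exact h1.mono fun τ h => h.le
    have hgood : ∀ᶠ τ in 𝓝[u] τ₀, τ ∈ u ∧ ‖τ‖ ≤ ‖τ₀‖ + 1 := by
      filter_upwards [self_mem_nhdsWithin, hnorm] with τ h1 h2 using ⟨h1, h2⟩
    obtain ⟨x, hxC, hx⟩ := hC.exists_mapClusterPt (u := fun τ => g τ • z τ) (f := 𝓝[u] τ₀) (by
      rw [le_principal_iff]
      show ∀ᶠ τ in 𝓝[u] τ₀, g τ • z τ ∈ C
      filter_upwards [hgood] with τ h1 using (hzg τ h1.1 h1.2).2.2.2.2)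
    have hFG : ∀ τ, τ ∈ u → ‖τ‖ ≤ ‖τ₀‖ + 1 → F (g τ • z τ) = τ := by
      intro τ h1 h2
      obtain ⟨h3, -, -, h4, -⟩ := hzg τ h1 h2
      rw [hP.equiv, h4, add_zero, h3]
    have hFx : F x = τ₀ := by
      by_contra hne'
      obtain ⟨A, A', hA, hA', hxA, hτA, hdis⟩ := t2_separation hne'
      have h1 : ∃ᶠ τ in 𝓝[u] τ₀, g τ • z τ ∈ F ⁻¹' A :=
        hx.frequently (hFc.continuousAt.eventually (hA.mem_nhds hxA))
      have h2 : ∀ᶠ τ in 𝓝[u] τ₀, τ ∈ A' :=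
        eventually_nhdsWithin_of_eventually_nhds (hA'.mem_nhds hτA)
      obtain ⟨τ, h3, h4, h5⟩ := (h1.and_eventually (h2.and hgood)).exists
      have h6 : F (g τ • z τ) ∈ A := h3
      rw [hFG τ h5.1 h5.2] at h6
      exact Set.disjoint_left.1 hdis h6 h4
    have hxr : Reg (n := n) p F x := hOR hτ₀ x hFx
    obtain ⟨f, hfa, hf⟩ := hloc x hxr
    rw [hFx] at hfa
    obtain ⟨ρ, hρ, hρb⟩ := Metric.eventually_nhds_iff_ball.1
      (hfa.eventually_analyticAt.and (hO.mem_nhds hτ₀ : ∀ᶠ τ in 𝓝 τ₀, τ ∈ O))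
    have hN : ∀ᶠ y in 𝓝 x, (∀ᶠ y' in 𝓝 y, h y' = f (F y')) ∧ F y ∈ ball τ₀ ρ := by
      refine hf.eventually_nhds.and ?_
      have : ball τ₀ ρ ∈ 𝓝 (F x) := by rw [hFx]; exact ball_mem_nhds _ hρ
      exact hFc.continuousAt.eventually this
    obtain ⟨τ, ⟨h3, h4⟩, h5, h6⟩ := ((hx.frequently hN).and_eventually hgood).exists
    obtain ⟨hz1, hz2, hz3, hg1, -⟩ := hzg τ h5 h6
    rw [hFG τ h5 h6] at h4
    obtain ⟨U, hU⟩ := heq (g τ)
    have hinv : ∀ y, F ((g τ)⁻¹ • y) = F y := by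
      intro y
      have h7 := hP.equiv (g τ) ((g τ)⁻¹ • y)
      rw [smul_inv_smul, hg1, add_zero] at h7
      exact h7.symm
    have hcg : Tendsto (fun y : E => (g τ)⁻¹ • y) (𝓝 (g τ • z τ)) (𝓝 (z τ)) := by
      have := (hp.cont (g τ)⁻¹).tendsto (g τ • z τ)
      simpa using this
    have h7 : ∀ᶠ y in 𝓝 (g τ • z τ), f (F y) = U (k (F y)) := by
      filter_upwards [h3, hcg.eventually hz3,
        hcg.eventually ((reg_open hp.cov hB).mem_nhds hz2)] with y h8 h9 h10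
      have h11 := hU _ h10
      rw [smul_inv_smul, h9, hinv] at h11
      rw [← h8, h11]
    have hzr : Reg (n := n) p F (g τ • z τ) := (hP.reg_smul_iff hp _ _).2 hz2
    have h8 : ∀ᶠ τ' in 𝓝 τ, f τ' = U (k τ') := by
      have h9 := reg_map_nhds hp.cov hB hzr
      rw [hFG τ h5 h6] at h9
      rw [← h9]
      exact h7
    have hUk : AnalyticOnNhd ℂ (fun τ' => U (k τ')) (ball τ₀ ρ) := fun τ' hτ' =>
      (U.toContinuousLinearMap.analyticAt _).comp (hk τ' (hρb τ' hτ').2)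
    have hfb : AnalyticOnNhd ℂ f (ball τ₀ ρ) := fun τ' hτ' => (hρb τ' hτ').1
    have h9 : EqOn f (fun τ' => U (k τ')) (ball τ₀ ρ) :=
      hfb.eqOn_of_preconnected_of_eventuallyEq hUk (convex_ball τ₀ ρ).isPreconnected h4 h8
    have h10 : ∀ᶠ y in 𝓝 x, h y = U (k (F y)) := by
      filter_upwards [hN] with y hy
      rw [hy.1.self_of_nhds]
      exact h9 hy.2
    have hcg' : Tendsto (fun y : E => g τ • y) (𝓝 ((g τ)⁻¹ • x)) (𝓝 x) := by
      have := (hp.cont (g τ)).tendsto ((g τ)⁻¹ • x)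
      simpa using this
    have hxr' : Reg (n := n) p F ((g τ)⁻¹ • x) := (hP.reg_smul_iff hp _ _).2 hxr
    refine ⟨(g τ)⁻¹ • x, by rw [hinv, hFx], hxr', ?_⟩
    filter_upwards [hcg'.eventually h10, (reg_open hp.cov hB).mem_nhds hxr'] with y h11 h12
    rw [hU y h12, hP.equiv, hg1, add_zero] at h11
    exact U.injective h11
  have hyr : Reg (n := n) p F y₁ := hOR hy₁ y₁ rfl
  have hsub := hpre.subset_of_closure_inter_subset huo ⟨F y₁, hy₁, y₁, rfl, hyr, h₁⟩ hcl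
  exact fun τ hτ => hsub hτ

omit [CompleteSpace W] in
/-- identity theorem on the regular points -/
theorem reg_ident [CompleteSpace W] [ConnectedSpace E] {B : ℝ} (hq : 1 ≤ q) (hp : IsCoveringMap p)
    (hB : HolB p w F B) (hex : ∃ y, Reg (n := n) p F y) {u₁ u₂ : E → W}
    (h₁ : ∀ y, Reg (n := n) p F y → ∃ f : Cm q → W, AnalyticAt ℂ f (F y) ∧
      ∀ᶠ y' in 𝓝 y, u₁ y' = f (F y'))
    (h₂ : ∀ y, Reg (n := n) p F y → ∃ f : Cm q → W, AnalyticAt ℂ f (F y) ∧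
      ∀ᶠ y' in 𝓝 y, u₂ y' = f (F y')) {y₀ : E} (hy₀ : Reg (n := n) p F y₀)
    (h0 : ∀ᶠ y in 𝓝 y₀, u₁ y = u₂ y) {y : E} (hy : Reg (n := n) p F y) : u₁ y = u₂ y := by
  have hFc := hol_continuous hp hB
  have hpre : IsPreconnected {y | Reg (n := n) p F y} := reg_preconnected hq hp hB hex
  set u : Set E := {y | Reg (n := n) p F y ∧ ∀ᶠ y' in 𝓝 y, u₁ y' = u₂ y'} with hu
  have huo : IsOpen u := by
    rw [isOpen_iff_mem_nhds]
    rintro y ⟨h3, h4⟩
    filter_upwards [(reg_open hp hB).mem_nhds h3, h4.eventually_nhds] with y' h5 h6 using ⟨h5, h6⟩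
  have hcl : closure u ∩ {y | Reg (n := n) p F y} ⊆ u := by
    rintro y ⟨hyu, hyr⟩
    obtain ⟨f₁, hf₁a, hf₁⟩ := h₁ y hyr
    obtain ⟨f₂, hf₂a, hf₂⟩ := h₂ y hyr
    obtain ⟨ρ, hρ, hρb⟩ := Metric.eventually_nhds_iff_ball.1
      (hf₁a.eventually_analyticAt.and hf₂a.eventually_analyticAt)
    have hN : ∀ᶠ y' in 𝓝 y, (u₁ y' = f₁ (F y') ∧ u₂ y' = f₂ (F y')) ∧ F y' ∈ ball (F y) ρ :=
      (hf₁.and hf₂).and (hFc.continuousAt.eventually (ball_mem_nhds _ hρ))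
    obtain ⟨y', ⟨h3, h4⟩, h5⟩ := (mem_closure_iff_frequently.1 hyu).and_eventually
      hN.eventually_nhds |>.exists
    have h6 : ∀ᶠ t in 𝓝 (F y'), f₁ t = f₂ t := by
      rw [← reg_map_nhds hp hB h3]
      show ∀ᶠ y'' in 𝓝 y', f₁ (F y'') = f₂ (F y'')
      filter_upwards [h4, h5] with y'' h7 h8
      rw [← h8.1.1, ← h8.1.2, h7]
    have h7 : EqOn f₁ f₂ (ball (F y) ρ) :=
      AnalyticOnNhd.eqOn_of_preconnected_of_eventuallyEq (fun t ht => (hρb t ht).1)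
        (fun t ht => (hρb t ht).2) (convex_ball _ _).isPreconnected h5.self_of_nhds.2 h6
    refine ⟨hyr, ?_⟩
    filter_upwards [hN] with z hz
    rw [hz.1.1, hz.1.2, h7 hz.2]
  have hsub := hpre.subset_of_closure_inter_subset huo ⟨y₀, hy₀, hy₀, h0⟩ hcl
  exact (hsub hy).2.self_of_nhds

variable (h) in
/-- the elements which act trivially on `π ∘ F` and on `h` -/
def fixS [Nonempty E] (hp : IsGalois Γ p) (hP : Per p w F c) (π : Cm q →L[ℂ] Cm r) : Subgroup Γ where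
  carrier := {g | π (c g) = 0 ∧ ∀ y, Reg (n := n) p F y → h (g • y) = h y}
  mul_mem' := by
    rintro a b ⟨ha, ha'⟩ ⟨hb, hb'⟩
    refine ⟨by rw [hP.add, map_add, ha, hb, add_zero], fun y hy => ?_⟩
    rw [mul_smul, ha' _ ((hP.reg_smul_iff hp b y).2 hy), hb' y hy]
  one_mem' := by
    have h1 : c (1 : Γ) = 0 := by
      have := hP.add 1 1
      rw [mul_one] at this
      exact left_eq_add.1 this
    exact ⟨by rw [h1, map_zero], fun y _ => by rw [one_smul]⟩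
  inv_mem' := by
    rintro a ⟨ha, ha'⟩
    have h1 : c (1 : Γ) = 0 := by
      have := hP.add 1 1
      rw [mul_one] at this
      exact left_eq_add.1 this
    have h2 := hP.add a⁻¹ a
    rw [inv_mul_cancel, h1] at h2
    have h3 : π (c a⁻¹) = 0 := by
      have := congrArg π h2
      rw [map_zero, map_add, ha, add_zero] at this
      exact this.symm
    refine ⟨h3, fun y hy => ?_⟩
    have h4 : Reg (n := n) p F (a⁻¹ • y) := (hP.reg_smul_iff hp _ _).2 hy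
    rw [← ha' _ h4, smul_inv_smul]

/-- **FIN**: the group of the elements which act trivially on `π ∘ F` acts on the values of `h` through
a finite group. -/
theorem fin_of [CompactSpace X] [ConnectedSpace E] (hq : 1 ≤ q) (hp : IsGalois Γ p)
    (hP : Per p w F c) (hex : ∃ y, Reg (n := n) p F y)
    (heq : ∀ g : Γ, ∃ U : W →ₗᵢ[ℂ] W, ∀ y, Reg (n := n) p F y → h (g • y) = U (h y))
    (hker : ∀ g : Γ, c g = 0 → ∀ y, Reg (n := n) p F y → h (g • y) = h y)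
    (π : Cm q →L[ℂ] Cm r) (hπ : Function.Surjective π)
    (hloc : ∀ y, Reg (n := n) p F y → ∃ f : Cm r → W, AnalyticAt ℂ f (π (F y)) ∧
      ∀ᶠ y' in 𝓝 y, h y' = f (π (F y'))) :
    {a : Γ ⧸ fixS h hp hP π | ∃ g : Γ, (g : Γ ⧸ fixS h hp hP π) = a ∧ π (c g) = 0}.Finite := by
  obtain ⟨B, hB⟩ := hP.hol
  have hFc := hP.continuous hp.cov
  have hlocF : ∀ y, Reg (n := n) p F y → ∃ f : Cm q → W, AnalyticAt ℂ f (F y) ∧
      ∀ᶠ y' in 𝓝 y, h y' = f (F y') := by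
    intro y hy
    obtain ⟨f, hfa, hf⟩ := hloc y hy
    exact ⟨fun τ => f (π τ), hfa.fun_comp_of_eq (π.analyticAt _) rfl, hf⟩
  set S₁ : Set (Cm q) := F '' {y | ¬ Reg (n := n) p F y} with hS₁
  have hS₁c : Cov (q - 1) S₁ := hP.cov_crit hq hp
  have hrk : q - 1 + 1 ≤ Module.finrank ℂ (Cm q) := by simp; omega
  have hRVS : ∀ τ, τ ∉ S₁ → τ ∈ RV n p F := by
    intro τ hτ y hy
    by_contra hr
    exact hτ ⟨y, hr, hy⟩
  -- a point over a regular value
  obtain ⟨y₀, hy₀⟩ : ∃ y₀, F y₀ ∈ RV n p F := by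
    obtain ⟨y, hy⟩ := hex
    have h1 : F '' univ ∈ 𝓝 (F y) := by
      rw [← reg_map_nhds hp.cov hB hy]
      exact image_mem_map univ_mem
    obtain ⟨τ, hτ1, hτ2⟩ := nonempty_diff (S := S₁) (O := interior (F '' univ))
      (hS₁c.mono inter_subset_left) hrk isOpen_interior ⟨F y, mem_interior_iff_mem_nhds.2 h1⟩
    obtain ⟨y₀, -, rfl⟩ := interior_subset hτ1
    exact ⟨y₀, hRVS _ hτ2⟩
  have hy₀r : Reg (n := n) p F y₀ := hy₀ y₀ rfl
  obtain ⟨f₀, hf₀a, hf₀⟩ := hloc y₀ hy₀r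
  obtain ⟨ρ, hρ, hρb⟩ := Metric.eventually_nhds_iff_ball.1 hf₀a.eventually_analyticAt
  set O : Set (Cm q) := π ⁻¹' ball (π (F y₀)) ρ \ S₁ with hO_def
  have hO : IsOpen O := (isOpen_ball.preimage π.continuous).sdiff (hP.closed_crit hp)
  have hconv : Convex ℝ (π ⁻¹' ball (π (F y₀)) ρ) :=
    (convex_ball (π (F y₀)) ρ).is_linear_preimage (π.restrictScalars ℝ).toLinearMap.isLinear
  have hpre : IsPreconnected O := preconn_diff (hS₁c.mono inter_subset_left) hrk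
    (isOpen_ball.preimage π.continuous) hconv
  have hOR : O ⊆ RV n p F := fun τ hτ => hRVS τ hτ.2
  have hRV0 : F y₀ ∉ S₁ := by
    rintro ⟨y, hy, hyy⟩
    exact hy (hy₀ y hyy)
  have hF0 : F y₀ ∈ O := ⟨mem_ball_self hρ, hRV0⟩
  obtain ⟨C, hC, hcov⟩ := hP.exists_compact hp ‖F y₀‖
  choose U hU using heq
  -- the germs over `F y₀`
  have hz : ∀ g : Γ, π (c g) = 0 → ∃ z ∈ C, F z = F y₀ ∧ Reg (n := n) p F z ∧
      ∀ᶠ y in 𝓝 z, h y = U g (f₀ (π (F y))) := by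
    intro g hg
    have hinv : ∀ y, π (F (g⁻¹ • y)) = π (F y) := by
      intro y
      have h1 := hP.equiv g (g⁻¹ • y)
      rw [smul_inv_smul] at h1
      rw [h1, map_add, hg, add_zero]
    have hcg : Tendsto (fun y : E => g⁻¹ • y) (𝓝 (g • y₀)) (𝓝 y₀) := by
      have := (hp.cont g⁻¹).tendsto (g • y₀)
      simpa using this
    have h1 : ∀ᶠ y in 𝓝 (g • y₀), h y = (fun τ => U g (f₀ (π τ))) (F y) := by
      filter_upwards [hcg.eventually hf₀,
        hcg.eventually ((reg_open hp.cov hB).mem_nhds hy₀r)] with y h2 h3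
      have h4 := hU g _ h3
      rw [smul_inv_smul] at h4
      rw [h4, h2, hinv]
    have h2 : F (g • y₀) ∈ O := by
      refine ⟨?_, ?_⟩
      · show π (F (g • y₀)) ∈ ball (π (F y₀)) ρ
        rw [hP.equiv, map_add, hg, add_zero]
        exact mem_ball_self hρ
      · rintro ⟨y, hy, hyy⟩
        refine hRV0 ⟨g⁻¹ • y, fun h3 => hy ((hP.reg_smul_iff hp g⁻¹ y).1 h3), ?_⟩
        have h3 := hP.equiv g (g⁻¹ • y)
        rw [smul_inv_smul, hyy, hP.equiv] at h3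
        exact (add_right_cancel h3).symm
    have hka : AnalyticOnNhd ℂ (fun τ => U g (f₀ (π τ))) O := fun τ hτ =>
      ((U g).toContinuousLinearMap.analyticAt _).comp
        ((hρb _ hτ.1).fun_comp_of_eq (π.analyticAt τ) rfl)
    obtain ⟨z, hz1, hz2, hz3⟩ := sweep' hp hP hlocF (fun g => ⟨U g, hU g⟩) hO hpre hka hOR h2 h1
      (F y₀) hF0
    obtain ⟨l, hl, hlz⟩ := hcov z (by rw [hz1])
    have hlinv : ∀ y, F (l⁻¹ • y) = F y := by
      intro y
      have h3 := hP.equiv l (l⁻¹ • y)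
      rw [smul_inv_smul, hl, add_zero] at h3
      exact h3.symm
    have hcl : Tendsto (fun y : E => l⁻¹ • y) (𝓝 (l • z)) (𝓝 z) := by
      have := (hp.cont l⁻¹).tendsto (l • z)
      simpa using this
    refine ⟨l • z, hlz, by rw [hP.equiv, hl, add_zero, hz1], (hP.reg_smul_iff hp _ _).2 hz2, ?_⟩
    filter_upwards [hcl.eventually hz3, hcl.eventually ((reg_open hp.cov hB).mem_nhds hz2)]
      with y h3 h4
    have h5 := hker l hl _ h4
    rw [smul_inv_smul, h3, hlinv] at h5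
    exact h5
  choose z hzC hzF hzr hzh using hz
  -- finitely many germs
  have hfz : ∀ x : E, F x = F y₀ → ∃ (V : Set E) (f : Cm r → W), V ∈ 𝓝 x ∧
      ∀ y ∈ V, ∀ᶠ y' in 𝓝 y, h y' = f (π (F y')) := by
    intro x hx
    obtain ⟨f, -, hf⟩ := hloc x (hy₀ x hx)
    exact ⟨{y | ∀ᶠ y' in 𝓝 y, h y' = f (π (F y'))}, f, hf.eventually_nhds, fun y hy => hy⟩
  choose! V f hV hVf using hfz
  have hC0 : IsCompact (C ∩ F ⁻¹' {F y₀}) := hC.inter_right (isClosed_singleton.preimage hFc)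
  obtain ⟨s, hs, hsC⟩ := hC0.elim_nhds_subcover V fun x hx => hV x hx.2
  have hzs : ∀ (g : Γ) (hg : π (c g) = 0), ∃ x ∈ s, z g hg ∈ V x := by
    intro g hg
    have h1 := hsC ⟨hzC g hg, hzF g hg⟩
    obtain ⟨x, hx, h2⟩ := mem_iUnion₂.1 h1
    exact ⟨x, hx, h2⟩
  choose x hxs hxV using hzs
  have hgerm : ∀ (g : Γ) (hg : π (c g) = 0), ∀ᶠ t in 𝓝 (π (F y₀)), f (x g hg) t = U g (f₀ t) := by
    intro g hg
    have h1 := hVf (x g hg) (hs _ (hxs g hg)).2 _ (hxV g hg)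
    have h2 := reg_map_nhds hp.cov (holB_comp π hB) (reg_comp hp.cov π hπ hB (hzr g hg))
    rw [hzF g hg] at h2
    rw [← h2]
    show ∀ᶠ y in 𝓝 (z g hg), f (x g hg) (π (F y)) = U g (f₀ (π (F y)))
    filter_upwards [h1, hzh g hg] with y h3 h4
    rw [← h3, h4]
  have hkey : ∀ (g g' : Γ) (hg : π (c g) = 0) (hg' : π (c g') = 0), x g hg = x g' hg' →
      ((g : Γ ⧸ fixS h hp hP π) = (g' : Γ ⧸ fixS h hp hP π)) := by
    intro g g' hg hg' hxx
    have h1 : ∀ᶠ t in 𝓝 (π (F y₀)), U g (f₀ t) = U g' (f₀ t) := by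
      filter_upwards [hgerm g hg, hgerm g' hg'] with t h2 h3
      rw [← h2, ← h3, hxx]
    have hπF : Continuous fun y => π (F y) := π.continuous.comp hFc
    have h2 : ∀ᶠ y in 𝓝 y₀, U g (h y) = U g' (h y) := by
      filter_upwards [hf₀, hπF.continuousAt.eventually h1] with y h3 h4
      rw [h3, h4]
    have h3 : ∀ y, Reg (n := n) p F y → U g (h y) = U g' (h y) := by
      intro y hy
      refine reg_ident hq hp.cov hB hex (u₁ := fun y => U g (h y)) (u₂ := fun y => U g' (h y))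
        (fun y hy => ?_) (fun y hy => ?_) hy₀r h2 hy
      · obtain ⟨k, hk, hk'⟩ := hlocF y hy
        exact ⟨fun τ => U g (k τ), ((U g).toContinuousLinearMap.analyticAt _).comp hk, by
          filter_upwards [hk'] with y' h4
          rw [h4]⟩
      · obtain ⟨k, hk, hk'⟩ := hlocF y hy
        exact ⟨fun τ => U g' (k τ), ((U g').toContinuousLinearMap.analyticAt _).comp hk, by
          filter_upwards [hk'] with y' h4
          rw [h4]⟩
    symm
    rw [QuotientGroup.eq]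
    have hc1 : c (1 : Γ) = 0 := by
      have := hP.add 1 1
      rw [mul_one] at this
      exact left_eq_add.1 this
    have hci : π (c g'⁻¹) = 0 := by
      have h4 := hP.add g'⁻¹ g'
      rw [inv_mul_cancel, hc1] at h4
      have h5 := congrArg π h4
      rw [map_zero, map_add, hg', add_zero] at h5
      exact h5.symm
    refine ⟨by rw [hP.add, map_add, hci, hg, add_zero], fun y hy => ?_⟩
    have h4 : Reg (n := n) p F ((g'⁻¹ * g) • y) := (hP.reg_smul_iff hp _ _).2 hy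
    apply (U g').injective
    rw [← hU g' _ h4, ← mul_smul, mul_inv_cancel_left, hU g y hy, h3 y hy]
  -- conclusion
  have hch : ∀ a : Γ ⧸ fixS h hp hP π, ∃ g : Γ, (∃ g : Γ, (g : Γ ⧸ fixS h hp hP π) = a ∧
      π (c g) = 0) → (g : Γ ⧸ fixS h hp hP π) = a ∧ π (c g) = 0 := by
    intro a
    by_cases h1 : ∃ g : Γ, (g : Γ ⧸ fixS h hp hP π) = a ∧ π (c g) = 0
    · obtain ⟨g, hg⟩ := h1
      exact ⟨g, fun _ => hg⟩
    · exact ⟨1, fun h2 => absurd h2 h1⟩
  choose g hg using hch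
  refine Set.Finite.of_injOn (f := fun a => if ha : π (c (g a)) = 0 then x (g a) ha else y₀)
    (t := (s : Set E)) ?_ ?_ s.finite_toSet
  · intro a ha
    have h1 := (hg a ha).2
    simp only [h1, dif_pos]
    exact hxs _ h1
  · intro a ha b hb hab
    have h1 := hg a ha
    have h2 := hg b hb
    simp only [h1.2, h2.2, dif_pos] at hab
    rw [← h1.1, ← h2.1]
    exact hkey _ _ h1.2 h2.2 hab

end

end Vale.Agent.P284.H279.Fin
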