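import Vale.Agent.P284.H174.GoodD
import Vale.Agent.P284.H812.Cal

/-!
# P284 (helper279): a criterion for good points

On a connected covering with one good point, a point is good as soon as the form does not vanish and its
projectivisation has rank `R` there; in particular if the pull-back to a slice is projectively immersive.
-/

open scoped InnerProductSpace ENNReal ComplexConjugate Topology Manifold ContDiff
open Filter Set Metric

noncomputable section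

namespace Vale.Agent.P284.H279.GC

open Vale.Agent.P284.H619 Vale.Agent.P284.H573 Vale.Agent.P272.K Vale.Agent.P284.H174
  Vale.Agent.P284.H174.GD

section
variable {n R m : ℕ} {H : Type} [NormedAddCommGroup H] [InnerProductSpace ℂ H] [CompleteSpace H]

/-- **Local criterion** (the proof is that of helper174's `loc_good'`). -/
theorem loc_crit {K : Set (Cm n)} (hKo : IsOpen K) (hKc : IsPreconnected K)
    {f : (Fin R → Cm n) → Cm n → H} (hf : ∀ ξ, AnalyticOnNhd ℂ (f ξ) K) {P₀ : H →L[ℂ] ℂ}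
    {P : H →L[ℂ] Cm R} {ξ₀ : Fin R → Cm n} {s : Cm n} (hs : s ∈ K)
    {b : Cm n → Cm R} {γ : Cm R → H} (hb : AnalyticAt ℂ b s) (hγ : AnalyticAt ℂ γ (b s))
    (hnf : ∀ᶠ z in 𝓝 s, ∀ ξ, f ξ z = Jd b z ξ ^ m • γ (b z)) (h0s : P₀ (f ξ₀ s) ≠ 0)
    (h1s : (mm (fun z => P₀ (f ξ₀ z)) (fun z => P (f ξ₀ z)) s ξ₀).det ≠ 0) {z : Cm n}
    (hzK : z ∈ K) (hz0 : P₀ (f ξ₀ z) ≠ 0)
    (hz1 : (mm (fun z => P₀ (f ξ₀ z)) (fun z => P (f ξ₀ z)) z ξ₀).det ≠ 0) :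
    AnalyticAt ℂ (bt (fun z => P₀ (f ξ₀ z)) (fun z => P (f ξ₀ z))) z ∧
      Function.Surjective (fderiv ℂ (bt (fun z => P₀ (f ξ₀ z)) (fun z => P (f ξ₀ z))) z) ∧
      ∃ g : Cm R → H, AnalyticAt ℂ g (bt (fun z => P₀ (f ξ₀ z)) (fun z => P (f ξ₀ z)) z) ∧
      ImmAt g (bt (fun z => P₀ (f ξ₀ z)) (fun z => P (f ξ₀ z)) z) ∧
      ∀ᶠ z' in 𝓝 z, ∀ ξ, f ξ z' = Jd (bt (fun z => P₀ (f ξ₀ z)) (fun z => P (f ξ₀ z))) z' ξ ^ m •
        g (bt (fun z => P₀ (f ξ₀ z)) (fun z => P (f ξ₀ z)) z') := by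
  have hus : f ξ₀ s = Jd b s ξ₀ ^ m • γ (b s) := hnf.self_of_nhds ξ₀
  have hJbm : Jd b s ξ₀ ^ m ≠ 0 := by
    intro h
    exact h0s (by rw [hus, h, zero_smul, map_zero])
  have hPγ : P₀ (γ (b s)) ≠ 0 := by
    intro h
    exact h0s (by rw [hus, map_smul, h, smul_zero])
  set u : Cm n → H := f ξ₀ with hu
  set a₀ : Cm n → ℂ := fun z => P₀ (u z) with ha₀
  set a : Cm n → Cm R := fun z => P (u z) with ha
  have hua : ∀ z ∈ K, AnalyticAt ℂ u z := fun z hz => hf ξ₀ z hz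
  have ha₀a : ∀ z ∈ K, AnalyticAt ℂ a₀ z := fun z hz => (P₀.analyticAt _).comp (hua z hz)
  have haa : ∀ z ∈ K, AnalyticAt ℂ a z := fun z hz => (P.analyticAt _).comp (hua z hz)
  set N : Cm n → ℂ := fun z => a₀ z ^ (2 * R) with hN
  set D : (Fin R → Cm n) → Cm n → ℂ := fun ξ z => (mm a₀ a z ξ).det with hD
  have hNa : ∀ z ∈ K, AnalyticAt ℂ N z := fun z hz => (ha₀a z hz).pow _
  have hDa : ∀ ξ, ∀ z ∈ K, AnalyticAt ℂ (D ξ) z := fun ξ z hz => mm_an (ha₀a z hz) (haa z hz) ξ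
  -- the coordinates of `γ`
  set c₀ : Cm R → Cm R := bt (fun t => P₀ (γ t)) (fun t => P (γ t)) with hc₀
  have e1 : AnalyticAt ℂ (fun t => P₀ (γ t)) (b s) := (P₀.analyticAt _).comp hγ
  have e2 : AnalyticAt ℂ (fun t => P (γ t)) (b s) := (P.analyticAt _).comp hγ
  have hc₀a : AnalyticAt ℂ c₀ (b s) := bt_an e1 e2 hPγ
  set fr : Fin R → Cm R := fun i => Pi.single i 1 with hfr
  -- at `s`
  have hJbm' : ∀ᶠ z in 𝓝 s, Jd b z ξ₀ ^ m ≠ 0 :=
    ((jd_an hb ξ₀).pow m).continuousAt.eventually_ne hJbm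
  have hev0 : bt a₀ a =ᶠ[𝓝 s] fun z => c₀ (b z) := by
    filter_upwards [hnf, hJbm', hb.continuousAt.eventually (e1.continuousAt.eventually_ne hPγ)]
      with y l8 l7 l6
    simp only [bt, ha₀, ha, hu, l8, hc₀, map_smul, smul_eq_mul, smul_smul]
    congr 1
    field_simp
  have hD0 : D ξ₀ s = N s * (Jd c₀ (b s) fr * Jd b s ξ₀) := by
    show (mm a₀ a s ξ₀).det = _
    rw [det_mm (ha₀a s hs) (haa s hs) h0s, Jd_congr hev0,
      Jd_comp hc₀a.differentiableAt hb.differentiableAt]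
  have hDs' : D ξ₀ s ≠ 0 := h1s
  have hJc : Jd c₀ (b s) fr ≠ 0 := by
    intro h
    exact hDs' (by rw [hD0, h]; ring)
  have hJ0 : Jd b s ξ₀ ≠ 0 := by
    intro h
    exact hDs' (by rw [hD0, h]; ring)
  -- near `s`
  have hJc' : ∀ᶠ t in 𝓝 (b s), Jd c₀ t fr ≠ 0 :=
    (jd_an hc₀a fr).continuousAt.eventually_ne hJc
  have hP₀' : ∀ᶠ t in 𝓝 (b s), P₀ (γ t) ≠ 0 :=
    e1.continuousAt.eventually_ne hPγ
  have hJb' : ∀ᶠ z in 𝓝 s, Jd b z ξ₀ ≠ 0 :=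
    (jd_an hb ξ₀).continuousAt.eventually_ne hJ0
  -- all properties near `s`
  have hnear : ∀ᶠ z in 𝓝 s, z ∈ K ∧ AnalyticAt ℂ b z ∧ AnalyticAt ℂ γ (b z) ∧
      AnalyticAt ℂ c₀ (b z) ∧ Jd c₀ (b z) fr ≠ 0 ∧ P₀ (γ (b z)) ≠ 0 ∧ Jd b z ξ₀ ≠ 0 ∧
      ∀ ξ, f ξ z = Jd b z ξ ^ m • γ (b z) := by
    have hbc := hb.continuousAt
    filter_upwards [hKo.mem_nhds hs, hb.eventually_analyticAt,
      hbc.eventually hγ.eventually_analyticAt, hbc.eventually hc₀a.eventually_analyticAt,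
      hbc.eventually hJc', hbc.eventually hP₀', hJb', hnf] with z h1 h2 h3 h4 h5 h6 h7 h8
    exact ⟨h1, h2, h3, h4, h5, h6, h7, h8⟩
  have hnear2 : ∀ᶠ z in 𝓝 s, a₀ z ≠ 0 ∧ bt a₀ a =ᶠ[𝓝 z] (fun z => c₀ (b z)) ∧
      (∀ ξ, D ξ z = N z * (Jd c₀ (b z) fr * Jd b z ξ)) := by
    filter_upwards [hnear, hnear.eventually_nhds] with z hz hz'
    obtain ⟨k1, k2, k3, k4, k5, k6, k7, k8⟩ := hz
    have hne : a₀ z ≠ 0 := by
      simp only [ha₀, hu, k8, map_smul, smul_eq_mul]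
      exact mul_ne_zero (pow_ne_zero _ k7) k6
    have hev : bt a₀ a =ᶠ[𝓝 z] fun z => c₀ (b z) := by
      filter_upwards [hz'] with y hy
      obtain ⟨l1, l2, l3, l4, l5, l6, l7, l8⟩ := hy
      simp only [bt, ha₀, ha, hu, l8, hc₀, map_smul, smul_eq_mul, smul_smul]
      congr 1
      have : Jd b y ξ₀ ^ m ≠ 0 := pow_ne_zero _ l7
      field_simp
    refine ⟨hne, hev, fun ξ => ?_⟩
    show (mm a₀ a z ξ).det = _
    rw [det_mm (ha₀a z k1) (haa z k1) hne, Jd_congr hev,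
      Jd_comp k4.differentiableAt k2.differentiableAt]
  have hs1 := hnear.self_of_nhds
  have hs2 := hnear2.self_of_nhds
  -- identity (i)
  have hi1 : ∀ ξ, EqOn (fun z => D ξ₀ z ^ m • f ξ z - D ξ z ^ m • u z) 0 K := by
    intro ξ
    refine AnalyticOnNhd.eqOn_zero_of_preconnected_of_eventuallyEq_zero (𝕜 := ℂ) ?_ hKc hs ?_
    · intro z hz
      exact (((hDa ξ₀ z hz).pow m).smul (hf ξ z hz)).sub (((hDa ξ z hz).pow m).smul (hua z hz))
    · filter_upwards [hnear, hnear2] with z h1 h2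
      obtain ⟨k1, k2, k3, k4, k5, k6, k7, k8⟩ := h1
      simp only [hu, k8, h2.2.2, smul_smul, Pi.zero_apply, sub_eq_zero]
      congr 1
      ring
  -- identity (ii)
  have hi2 : ∀ x, EqOn (fun z => TT m N (D ξ₀) u z (kp a₀ a ξ₀ z x)) 0 K := by
    intro x
    refine AnalyticOnNhd.eqOn_zero_of_preconnected_of_eventuallyEq_zero (𝕜 := ℂ) ?_ hKc hs ?_
    · intro z hz
      exact TT_an (hNa z hz) (hDa ξ₀ z hz) (hua z hz) (kp_an (ha₀a z hz) (haa z hz) ξ₀ x)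
    · filter_upwards [hnear, hnear2, hnear.eventually_nhds, hnear2.eventually_nhds] with z h1 h2 h3 h4
      obtain ⟨k1, k2, k3, k4, k5, k6, k7, k8⟩ := h1
      have hNz : N z ≠ 0 := pow_ne_zero _ h2.1
      have hDz : D ξ₀ z ≠ 0 := by
        rw [h2.2.2]
        exact mul_ne_zero hNz (mul_ne_zero k5 k7)
      -- `G` is a function of `b`
      have hG : (fun z => (N z / D ξ₀ z) ^ m • u z) =ᶠ[𝓝 z]
          fun z => (fun t => ((Jd c₀ t fr)⁻¹ ^ m) • γ t) (b z) := by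
        filter_upwards [h3, h4] with y hy1 hy2
        obtain ⟨l1, l2, l3, l4, l5, l6, l7, l8⟩ := hy1
        have hNy : N y ≠ 0 := pow_ne_zero _ hy2.1
        simp only [hu, l8, hy2.2.2, smul_smul]
        congr 1
        rw [← mul_pow]
        congr 1
        field_simp
      have hga : AnalyticAt ℂ (fun t => ((Jd c₀ t fr)⁻¹ ^ m) • γ t) (b z) :=
        (((jd_an k4 fr).inv k5).pow m).smul k3
      have hker : fderiv ℂ b z (kp a₀ a ξ₀ z x) = 0 := by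
        have m1 := mv_kp a₀ a ξ₀ z x
        rw [bt_fderiv (ha₀a z k1) (haa z k1) h2.1] at m1
        have m2 : fderiv ℂ (bt a₀ a) z (kp a₀ a ξ₀ z x) = 0 := by
          rcases smul_eq_zero.1 m1 with m3 | m3
          · exact absurd m3 (pow_ne_zero 2 h2.1)
          · exact m3
        rw [h2.2.1.fderiv_eq] at m2
        have m4 : fderiv ℂ (fun z => c₀ (b z)) z = (fderiv ℂ c₀ (b z)).comp (fderiv ℂ b z) :=
          fderiv_comp z (g := c₀) k4.differentiableAt k2.differentiableAt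
        rw [m4, ContinuousLinearMap.comp_apply] at m2
        have m5 : Function.Surjective (fderiv ℂ c₀ (b z)) := surj_of_Jd k5
        have m6 : Function.Injective (fderiv ℂ c₀ (b z)) :=
          LinearMap.injective_iff_surjective.2
            (show Function.Surjective ((fderiv ℂ c₀ (b z) : Cm R →ₗ[ℂ] Cm R)) from m5)
        exact m6 (by rw [m2, map_zero])
      have hdG : fderiv ℂ (fun z => (N z / D ξ₀ z) ^ m • u z) z (kp a₀ a ξ₀ z x) = 0 := by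
        rw [hG.fderiv_eq]
        have m4 := fderiv_comp z (g := fun t => ((Jd c₀ t fr)⁻¹ ^ m) • γ t) (f := b)
          hga.differentiableAt k2.differentiableAt
        have m5 := congrArg (fun L : Cm n →L[ℂ] H => L (kp a₀ a ξ₀ z x)) m4
        simp only [ContinuousLinearMap.comp_apply, hker, map_zero] at m5
        exact m5
      have h5 := TT_fderiv (m := m) (hNa z k1) (hDa ξ₀ z k1) (hua z k1) hDz (kp a₀ a ξ₀ z x)
      rw [hdG, smul_zero] at h5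
      rcases smul_eq_zero.1 h5.symm with h6 | h6
      · exact absurd h6 (pow_ne_zero _ hNz)
      · exact h6
  have hza : a₀ z ≠ 0 := hz0
  have hzD : D ξ₀ z ≠ 0 := hz1
  have hβa : AnalyticAt ℂ (bt a₀ a) z := bt_an (ha₀a z hzK) (haa z hzK) hza
  have hβs : Function.Surjective (fderiv ℂ (bt a₀ a) z) := by
    refine surj_of_Jd (ξ := ξ₀) fun h0 => hzD ?_
    show (mm a₀ a z ξ₀).det = 0
    rw [det_mm (ha₀a z hzK) (haa z hzK) hza, h0, mul_zero]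
  have hGa : AnalyticAt ℂ (fun z => (N z / D ξ₀ z) ^ m • u z) z :=
    (((hNa z hzK).div (hDa ξ₀ z hzK) hzD).pow m).smul (hua z hzK)
  have hgood : ∀ᶠ z' in 𝓝 z, z' ∈ K ∧ a₀ z' ≠ 0 ∧ D ξ₀ z' ≠ 0 := by
    filter_upwards [hKo.mem_nhds hzK, (ha₀a z hzK).continuousAt.eventually_ne hza,
      (hDa ξ₀ z hzK).continuousAt.eventually_ne hzD] with z' h1 h2 h3 using ⟨h1, h2, h3⟩
  have hker : ∀ᶠ z' in 𝓝 z, ∀ x, fderiv ℂ (bt a₀ a) z' x = 0 →
      fderiv ℂ (fun z => (N z / D ξ₀ z) ^ m • u z) z' x = 0 := by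
    filter_upwards [hgood] with z' hz' x hx
    obtain ⟨k1, k2, k3⟩ := hz'
    have h1 : mv a₀ a z' x = 0 := by
      rw [bt_fderiv (ha₀a z' k1) (haa z' k1) k2, hx, smul_zero]
    have h2 := hi2 x k1
    simp only [kp_of_ker h1, TT_smul, Pi.zero_apply] at h2
    have h3 : TT m N (D ξ₀) u z' x = 0 := by
      rcases smul_eq_zero.1 h2 with h3 | h3
      · exact absurd h3 k3
      · exact h3
    have h4 := TT_fderiv (m := m) (hNa z' k1) (hDa ξ₀ z' k1) (hua z' k1) k3 x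
    rw [h3, smul_zero] at h4
    rcases smul_eq_zero.1 h4 with h5 | h5
    · exact absurd h5 (mul_ne_zero (pow_ne_zero _ k2) (pow_ne_zero _ k3))
    · exact h5
  obtain ⟨g, hga, hG⟩ := exists_factor hβa hβs hGa hker
  refine ⟨hβa, hβs, g, hga, ?_, ?_⟩
  · -- immersion
    have hg0 : P₀ (g (bt a₀ a z)) ≠ 0 := by
      rw [← hG.self_of_nhds, map_smul, smul_eq_mul]
      exact mul_ne_zero (pow_ne_zero _ (div_ne_zero (pow_ne_zero _ hza) hzD)) hza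
    refine imm_of_ratio (P := P) hga hg0 ?_
    have hopen : map (bt a₀ a) (𝓝 z) = 𝓝 (bt a₀ a z) :=
      hβa.hasStrictFDerivAt.map_nhds_eq_of_surj (LinearMap.range_eq_top.2 hβs)
    rw [← hopen, eventually_map]
    filter_upwards [hG, hgood] with z' h1 h2
    obtain ⟨k1, k2, k3⟩ := h2
    rw [← h1, map_smul, map_smul]
    show _ • a z' = (_ • a₀ z') • bt a₀ a z'
    rw [bt, smul_eq_mul, smul_smul]
    congr 1
    field_simp
  · filter_upwards [hG, hgood] with z' h1 h2 ξ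
    obtain ⟨k1, k2, k3⟩ := h2
    rw [← h1]
    have h3 := hi1 ξ k1
    simp only [Pi.zero_apply, sub_eq_zero] at h3
    have h4 : D ξ z' = N z' * Jd (bt a₀ a) z' ξ := det_mm (ha₀a z' k1) (haa z' k1) k2 ξ
    have h5 : f ξ z' = (D ξ₀ z' ^ m)⁻¹ • D ξ z' ^ m • u z' := by
      rw [← h3, smul_smul, inv_mul_cancel₀ (pow_ne_zero _ k3), one_smul]
    rw [h5, h4, smul_smul, smul_smul]
    congr 1
    rw [mul_pow, div_pow]
    field_simp

/-- **Rank criterion**: if `v(ξ₀)` does not vanish at `z₁` and its projectivisation is immersive along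
the span of `ξ₀`, there is a normal form at `z₁`. -/
theorem loc_rank {K : Set (Cm n)} (hKo : IsOpen K) (hKc : IsPreconnected K)
    {f : (Fin R → Cm n) → Cm n → H} (hf : ∀ ξ, AnalyticOnNhd ℂ (f ξ) K) {s : Cm n} (hs : s ∈ K)
    {b : Cm n → Cm R} {γ : Cm R → H} (hb : AnalyticAt ℂ b s) (hγ : AnalyticAt ℂ γ (b s))
    (hnf : ∀ᶠ z in 𝓝 s, ∀ ξ, f ξ z = Jd b z ξ ^ m • γ (b z)) {z₁ : Cm n} (hz₁ : z₁ ∈ K)
    {ξ₀ : Fin R → Cm n} (hne : f ξ₀ z₁ ≠ 0)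
    (him : ∀ (η : Fin R → ℂ) (a : ℂ), fderiv ℂ (f ξ₀) z₁ (∑ i, η i • ξ₀ i) = a • f ξ₀ z₁ → η = 0) :
    ∃ (β : Cm n → Cm R) (g : Cm R → H), AnalyticAt ℂ β z₁ ∧
      Function.Surjective (fderiv ℂ β z₁) ∧ AnalyticAt ℂ g (β z₁) ∧ ImmAt g (β z₁) ∧
      (∀ᶠ z' in 𝓝 z₁, ∀ ξ, f ξ z' = Jd β z' ξ ^ m • g (β z')) ∧ Jd β z₁ ξ₀ ≠ 0 := by
  have hli : LinearIndependent ℂ (Fin.cons (f ξ₀ z₁) (fun j : Fin R => fderiv ℂ (f ξ₀) z₁ (ξ₀ j)) :
      Fin (R + 1) → H) := by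
    rw [Fintype.linearIndependent_iff]
    intro c hc
    rw [Fin.sum_univ_succ] at hc
    simp only [Fin.cons_zero, Fin.cons_succ] at hc
    have h1 : fderiv ℂ (f ξ₀) z₁ (∑ j : Fin R, c j.succ • ξ₀ j) = (-c 0) • f ξ₀ z₁ := by
      rw [map_sum]
      simp only [map_smul]
      rw [neg_smul, eq_neg_iff_add_eq_zero, add_comm]
      exact hc
    have h2 := him _ _ h1
    have h3 : c 0 = 0 := by
      have h2' : ∀ j : Fin R, c j.succ = 0 := fun j => congrFun h2 j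
      simp only [h2', zero_smul, Finset.sum_const_zero, add_zero] at hc
      exact (smul_eq_zero.1 hc).resolve_right hne
    intro i
    refine Fin.cases h3 (fun j => ?_) i
    exact congrFun h2 j
  obtain ⟨hd, hh⟩ := exists_dual hli
  set P₀ : H →L[ℂ] ℂ := innerSL ℂ (hd 0) with hP₀
  set P : H →L[ℂ] Cm R := ContinuousLinearMap.pi fun i => innerSL ℂ (hd i.succ) with hP
  have hP₀1 : P₀ (f ξ₀ z₁) = 1 := by
    have := hh 0 0
    simpa [hP₀] using this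
  have hP1 : P (f ξ₀ z₁) = 0 := by
    funext i
    have := hh i.succ 0
    simpa [hP, Fin.succ_ne_zero] using this
  have hP2 : ∀ j, P (fderiv ℂ (f ξ₀) z₁ (ξ₀ j)) = Pi.single j 1 := by
    intro j
    funext i
    have := hh i.succ j.succ
    simp only [Fin.cons_succ, Fin.succ_inj] at this
    show ⟪hd i.succ, fderiv ℂ (f ξ₀) z₁ (ξ₀ j)⟫_ℂ = _
    rw [this, Pi.single_apply]
  set a₀ : Cm n → ℂ := fun z => P₀ (f ξ₀ z) with ha₀
  set a : Cm n → Cm R := fun z => P (f ξ₀ z) with ha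
  have hua : ∀ z ∈ K, AnalyticAt ℂ (f ξ₀) z := fun z hz => hf ξ₀ z hz
  have ha₀a : ∀ z ∈ K, AnalyticAt ℂ a₀ z := fun z hz => (P₀.analyticAt _).comp (hua z hz)
  have haa : ∀ z ∈ K, AnalyticAt ℂ a z := fun z hz => (P.analyticAt _).comp (hua z hz)
  have hda : ∀ x, fderiv ℂ a z₁ x = P (fderiv ℂ (f ξ₀) z₁ x) := by
    intro x
    have : HasFDerivAt a (P.comp (fderiv ℂ (f ξ₀) z₁)) z₁ :=
      P.hasFDerivAt.comp z₁ (hua z₁ hz₁).differentiableAt.hasFDerivAt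
    rw [this.fderiv]
    rfl
  have hmm : mm a₀ a z₁ ξ₀ = 1 := by
    ext i j
    show mv a₀ a z₁ (ξ₀ j) i = _
    have h1 : a z₁ = 0 := hP1
    have h2 : a₀ z₁ = 1 := hP₀1
    rw [mv, hda, hP2, h1, h2, smul_zero, sub_zero, one_smul, Matrix.one_apply, Pi.single_apply]
  have hD1 : (mm a₀ a z₁ ξ₀).det ≠ 0 := by
    rw [hmm, Matrix.det_one]
    exact one_ne_zero
  have h01 : a₀ z₁ ≠ 0 := by
    show P₀ (f ξ₀ z₁) ≠ 0
    rw [hP₀1]
    exact one_ne_zero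
  have hDa : ∀ z ∈ K, AnalyticAt ℂ (fun z => (mm a₀ a z ξ₀).det) z := fun z hz =>
    mm_an (ha₀a z hz) (haa z hz) ξ₀
  have hfreq : ∃ᶠ z in 𝓝 s, a₀ z * (mm a₀ a z ξ₀).det ≠ 0 := by
    intro hcon
    have h1 : (fun z => a₀ z * (mm a₀ a z ξ₀).det) =ᶠ[𝓝 s] 0 := by
      filter_upwards [hcon] with z hz
      exact not_not.1 hz
    have h2 := AnalyticOnNhd.eqOn_zero_of_preconnected_of_eventuallyEq_zero (𝕜 := ℂ)
      (fun z hz => (ha₀a z hz).mul (hDa z hz)) hKc hs h1 hz₁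
    exact mul_ne_zero h01 hD1 h2
  have hall : ∀ᶠ z in 𝓝 s, z ∈ K ∧ AnalyticAt ℂ b z ∧ AnalyticAt ℂ γ (b z) ∧
      ∀ᶠ z' in 𝓝 z, ∀ ξ, f ξ z' = Jd b z' ξ ^ m • γ (b z') := by
    filter_upwards [hKo.mem_nhds hs, hb.eventually_analyticAt,
      hb.continuousAt.eventually hγ.eventually_analyticAt, hnf.eventually_nhds] with z h1 h2 h3 h4
    exact ⟨h1, h2, h3, h4⟩
  obtain ⟨s', h1, h2, h3, h4, h5⟩ := (hfreq.and_eventually hall).exists
  obtain ⟨k1, k2, g, k3, k4, k5⟩ := loc_crit hKo hKc hf (P₀ := P₀) (P := P) (ξ₀ := ξ₀) h2 h3 h4 h5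
    (left_ne_zero_of_mul h1) (right_ne_zero_of_mul h1) hz₁ h01 hD1
  refine ⟨_, g, k1, k2, k3, k4, k5, fun h6 => hD1 ?_⟩
  rw [det_mm (ha₀a z₁ hz₁) (haa z₁ hz₁) h01 ξ₀]
  have h7 : Jd (bt a₀ a) z₁ ξ₀ = 0 := h6
  rw [h7, mul_zero]

omit [CompleteSpace H] in
/-- near a normal form all the values are proportional -/
lemma prop_all {K : Set (Cm n)} (hKc : IsPreconnected K)
    {f : (Fin R → Cm n) → Cm n → H} (hf : ∀ ξ, AnalyticOnNhd ℂ (f ξ) K) {s : Cm n} (hs : s ∈ K)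
    {b : Cm n → Cm R} {γ : Cm R → H}
    (hnf : ∀ᶠ z in 𝓝 s, ∀ ξ, f ξ z = Jd b z ξ ^ m • γ (b z)) {z₁ : Cm n} (hz₁ : z₁ ∈ K)
    {ξ₀ : Fin R → Cm n} (hne : f ξ₀ z₁ ≠ 0) (ξ : Fin R → Cm n) :
    f ξ z₁ = (⟪f ξ₀ z₁, f ξ z₁⟫_ℂ / ⟪f ξ₀ z₁, f ξ₀ z₁⟫_ℂ) • f ξ₀ z₁ := by
  set L : H →L[ℂ] ℂ := innerSL ℂ (f ξ₀ z₁) with hL
  have h1 : EqOn (fun z => L (f ξ₀ z) • f ξ z - L (f ξ z) • f ξ₀ z) 0 K := by
    refine AnalyticOnNhd.eqOn_zero_of_preconnected_of_eventuallyEq_zero (𝕜 := ℂ) ?_ hKc hs ?_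
    · intro z hz
      exact (((L.analyticAt _).comp (hf ξ₀ z hz)).smul (hf ξ z hz)).sub
        (((L.analyticAt _).comp (hf ξ z hz)).smul (hf ξ₀ z hz))
    · filter_upwards [hnf] with z h1
      simp only [h1, map_smul, smul_eq_mul, smul_smul, Pi.zero_apply, sub_eq_zero]
      congr 1
      ring
  have h2 := h1 hz₁
  simp only [Pi.zero_apply, sub_eq_zero] at h2
  have h3 : L (f ξ₀ z₁) = ⟪f ξ₀ z₁, f ξ₀ z₁⟫_ℂ := rfl
  have h4 : L (f ξ z₁) = ⟪f ξ₀ z₁, f ξ z₁⟫_ℂ := rfl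
  have h5 : ⟪f ξ₀ z₁, f ξ₀ z₁⟫_ℂ ≠ 0 := inner_self_ne_zero.2 hne
  rw [h3, h4] at h2
  rw [div_eq_inv_mul, mul_smul, ← h2, smul_smul, inv_mul_cancel₀ h5, one_smul]

end

end Vale.Agent.P284.H279.GC
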