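import Vale.Agent.P284.H279.GoodC

/-!
# P284 (helper279): a criterion for good points, global form
-/

open scoped InnerProductSpace ENNReal ComplexConjugate Topology Manifold ContDiff
open Filter Set Metric

noncomputable section

namespace Vale.Agent.P284.H279.GC

open Vale.Agent.P284.H619 Vale.Agent.P284.H573 Vale.Agent.P272.K Vale.Agent.P284.H174
  Vale.Agent.P284.H174.GD Vale.Agent.P284.H812

section
variable {n R m : ℕ} {X : Type} [TopologicalSpace X] [ChartedSpace (Cm n) X]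
  [IsManifold 𝓘(ℂ, Cm n) ω X] {E : Type} [TopologicalSpace E] [PreconnectedSpace E] {p : E → X}
  {H : Type} [NormedAddCommGroup H] [InnerProductSpace ℂ H] [CompleteSpace H]
  {v : E → Chart n X → (Fin R → Cm n) → H}

/-- the local data near any point: a ball, the local expression and a normal form somewhere in it -/
lemma exists_data (hv : HForm n R m p H v) (hp : IsCoveringMap p) {y₀ : E}
    (h0 : GoodAt p R m v y₀) {y : E} {e : Chart n X} (he : At e (p y)) :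
    ∃ (ε : ℝ) (f : (Fin R → Cm n) → Cm n → H) (s : Cm n) (b : Cm n → Cm R) (γ : Cm R → H), 0 < ε ∧
      (∀ ξ, AnalyticOnNhd ℂ (f ξ) (ball (e (p y)) ε)) ∧
      (∀ᶠ y' in 𝓝 y, ∀ ξ, v y' e ξ = f ξ (e (p y'))) ∧ s ∈ ball (e (p y)) ε ∧
      AnalyticAt ℂ b s ∧ AnalyticAt ℂ γ (b s) ∧
      ∀ᶠ z in 𝓝 s, ∀ ξ, f ξ z = Jd b z ξ ^ m • γ (b z) := by
  obtain ⟨ε, hε, f, hf, hev⟩ := exists_fam hv hp he
  have hU : ∀ᶠ y' in 𝓝 y, e (p y') ∈ ball (e (p y)) ε ∧ At e (p y') ∧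
      ∀ ξ, v y' e ξ = f ξ (e (p y')) :=
    ((tendsto_ep hp he).eventually (ball_mem_nhds _ hε)).and ((at_ev hp he).and hev)
  obtain ⟨y₂, ⟨e', b', γ, hnf'⟩, hy₂⟩ :=
    ((good_dense hv hp h0 y).and_eventually hU.eventually_nhds).exists
  have he2 := hy₂.self_of_nhds.2.1
  have hnf := nf_chg hv hp hnf' he2
  refine ⟨ε, f, e (p y₂), _, γ, hε, hf, hev, hy₂.self_of_nhds.1, hnf.ban, hnf.γan, ?_⟩
  rw [← ev_iff hp he2]
  filter_upwards [hnf.nf, hy₂] with y' h1 h2 ξ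
  rw [← h2.2.2 ξ]
  exact h1 ξ

/-- all the values at a point are proportional -/
theorem prop_E (hv : HForm n R m p H v) (hp : IsCoveringMap p) {y₀ : E}
    (h0 : GoodAt p R m v y₀) {y : E} {e : Chart n X} (he : At e (p y)) {ξ₀ : Fin R → Cm n}
    (hne : v y e ξ₀ ≠ 0) (ξ : Fin R → Cm n) :
    v y e ξ = (⟪v y e ξ₀, v y e ξ⟫_ℂ / ⟪v y e ξ₀, v y e ξ₀⟫_ℂ) • v y e ξ₀ := by
  obtain ⟨ε, f, s, b, γ, hε, hf, hev, hs, hb, hγ, hnf⟩ := exists_data hv hp h0 he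
  have h1 := hev.self_of_nhds
  rw [h1 ξ₀] at hne
  rw [h1 ξ₀, h1 ξ]
  exact prop_all (convex_ball _ _).isPreconnected hf hs hnf (mem_ball_self hε) hne ξ

/-- **Rank criterion for good points.** -/
theorem good_of_rank (hv : HForm n R m p H v) (hp : IsCoveringMap p) {y₀ : E}
    (h0 : GoodAt p R m v y₀) {y : E} {e : Chart n X} (he : At e (p y)) {ξ₀ : Fin R → Cm n}
    {u : Cm n → H} (hu : ∀ᶠ y' in 𝓝 y, v y' e ξ₀ = u (e (p y'))) (hne : u (e (p y)) ≠ 0)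
    (him : ∀ (η : Fin R → ℂ) (a : ℂ),
      fderiv ℂ u (e (p y)) (∑ i, η i • ξ₀ i) = a • u (e (p y)) → η = 0) :
    ∃ (b : Cm n → Cm R) (γ : Cm R → H), IsNF m p v y e b γ ∧ Jd b (e (p y)) ξ₀ ≠ 0 := by
  obtain ⟨ε, f, s, b, γ, hε, hf, hev, hs, hb, hγ, hnf⟩ := exists_data hv hp h0 he
  have hfu : f ξ₀ =ᶠ[𝓝 (e (p y))] u := by
    rw [Filter.EventuallyEq, ← ev_iff hp he]
    filter_upwards [hev, hu] with y' h1 h2
    rw [← h1, h2]
  obtain ⟨β, g, k1, k2, k3, k4, k5, k6⟩ := loc_rank isOpen_ball (convex_ball _ _).isPreconnected hf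
    hs hb hγ hnf (mem_ball_self hε) (ξ₀ := ξ₀) (by rw [hfu.self_of_nhds]; exact hne)
    (by rw [hfu.fderiv_eq, hfu.self_of_nhds]; exact him)
  refine ⟨β, g, ⟨he, k1, k2, k3, k4, ?_⟩, k6⟩
  filter_upwards [hev, (ev_iff hp he).2 k5] with y' h1 h2 ξ
  rw [h1 ξ]
  exact h2 ξ

/-- **Slice criterion for good points**: if the pull-back of `v` to a slice `ψ` is projectively
immersive, the point is good and `b` restricts to local coordinates of the slice. -/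
theorem good_of_slice (hv : HForm n R m p H v) (hp : IsCoveringMap p) {y₀ : E}
    (h0 : GoodAt p R m v y₀) {e : Chart n X} {ψ : Cm R → E} {z₀ : Cm R}
    (he : At e (p (ψ z₀))) (hψ : ContinuousAt ψ z₀)
    (hg : AnalyticAt ℂ (fun z => e (p (ψ z))) z₀) (hne : pull p v e ψ z₀ ≠ 0)
    (him : ∀ (η : Cm R) (a : ℂ), fderiv ℂ (pull p v e ψ) z₀ η = a • pull p v e ψ z₀ → η = 0) :
    ∃ (b : Cm n → Cm R) (γ : Cm R → H), IsNF m p v (ψ z₀) e b γ ∧
      Function.Bijective (fderiv ℂ (fun z => b (e (p (ψ z)))) z₀) := by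
  set g : Cm R → Cm n := fun z => e (p (ψ z)) with hgd
  set M : Cm R → (Fin R → Cm n) := fun z i => fderiv ℂ g z (Pi.single i 1) with hM
  obtain ⟨F, hF, hev⟩ := hv.hol (ψ z₀) e he
  set ξ₀ : Fin R → Cm n := M z₀ with hξ₀
  have hMa : AnalyticAt ℂ M z₀ := by
    refine AnalyticAt.pi fun i => ?_
    exact (ContinuousLinearMap.apply ℂ (Cm n) (Pi.single i (1 : ℂ) : Cm R)).analyticAt _ |>.fun_comp
      hg.fderiv
  have hw : pull p v e ψ =ᶠ[𝓝 z₀] fun z => F (g z, M z) := by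
    filter_upwards [hψ.eventually hev] with z hz
    exact hz _
  have hw0 : pull p v e ψ z₀ = F (g z₀, ξ₀) := hw.self_of_nhds
  have hvF : ∀ ξ, v (ψ z₀) e ξ = F (g z₀, ξ) := hev.self_of_nhds
  have hne' : F (g z₀, ξ₀) ≠ 0 := by rw [← hw0]; exact hne
  set DF := fderiv ℂ F (g z₀, ξ₀) with hDF
  have hFd : HasFDerivAt F DF (g z₀, ξ₀) := (hF ξ₀).differentiableAt.hasFDerivAt
  -- the derivative in the direction of the vectors
  have hvert : ∀ δ : Fin R → Cm n, ∃ c : ℂ, DF (0, δ) = c • F (g z₀, ξ₀) := by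
    intro δ
    have h1 : HasFDerivAt (fun ξ : Fin R → Cm n => F (g z₀, ξ))
        (DF.comp (ContinuousLinearMap.inr ℂ (Cm n) (Fin R → Cm n))) ξ₀ :=
      hFd.comp ξ₀ (hasFDerivAt_prodMk_right (g z₀) ξ₀)
    set u₀ := F (g z₀, ξ₀) with hu₀
    set T : H →L[ℂ] H := ContinuousLinearMap.id ℂ H -
      (innerSL ℂ ((⟪u₀, u₀⟫_ℂ)⁻¹ • u₀)).smulRight u₀ with hT
    have hT' : ∀ h : H, T h = h - (⟪u₀, h⟫_ℂ / ⟪u₀, u₀⟫_ℂ) • u₀ := by
      intro h
      have h2 : ⟪(⟪u₀, u₀⟫_ℂ)⁻¹ • u₀, h⟫_ℂ = ⟪u₀, h⟫_ℂ / ⟪u₀, u₀⟫_ℂ := by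
        rw [inner_smul_left, map_inv₀, inner_conj_symm, div_eq_inv_mul]
      show h - ⟪(⟪u₀, u₀⟫_ℂ)⁻¹ • u₀, h⟫_ℂ • u₀ = _
      rw [h2]
    have h3 : HasFDerivAt (fun ξ : Fin R → Cm n => T (F (g z₀, ξ)))
        (T.comp (DF.comp (ContinuousLinearMap.inr ℂ (Cm n) (Fin R → Cm n)))) ξ₀ :=
      T.hasFDerivAt.comp ξ₀ h1
    have h4 : (fun ξ : Fin R → Cm n => T (F (g z₀, ξ))) = fun _ => 0 := by
      funext ξ
      rw [hT', ← hvF ξ, hu₀, ← hvF ξ₀, sub_eq_zero]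
      exact prop_E hv hp h0 he (by rw [hvF]; exact hne') ξ
    rw [h4] at h3
    have h5 := h3.unique (hasFDerivAt_const (0 : H) ξ₀)
    have h6 : T (DF (0, δ)) = 0 := congrArg (fun L : (Fin R → Cm n) →L[ℂ] H => L δ) h5
    rw [hT', sub_eq_zero] at h6
    exact ⟨_, h6⟩
  have hdw : ∀ η, fderiv ℂ (pull p v e ψ) z₀ η = DF (fderiv ℂ g z₀ η, fderiv ℂ M z₀ η) := by
    intro η
    rw [hw.fderiv_eq]
    have h1 : HasFDerivAt (fun z => F (g z, M z))
        (DF.comp ((fderiv ℂ g z₀).prod (fderiv ℂ M z₀))) z₀ :=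
      HasFDerivAt.comp z₀ (g := F) (f := fun z => (g z, M z)) hFd
        (hg.differentiableAt.hasFDerivAt.prodMk hMa.differentiableAt.hasFDerivAt)
    rw [h1.fderiv]
    rfl
  have hu : ∀ᶠ y' in 𝓝 (ψ z₀), v y' e ξ₀ = (fun z => F (z, ξ₀)) (e (p y')) := by
    filter_upwards [hev] with y' h1
    exact h1 ξ₀
  have hdu : HasFDerivAt (fun z => F (z, ξ₀))
      (DF.comp (ContinuousLinearMap.inl ℂ (Cm n) (Fin R → Cm n))) (g z₀) :=
    hFd.comp (g z₀) (hasFDerivAt_prodMk_left (g z₀) ξ₀)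
  obtain ⟨b, γ, h1, h2⟩ := good_of_rank hv hp h0 he hu hne' (by
    intro η a hη
    have h3 : ∑ i, η i • ξ₀ i = fderiv ℂ g z₀ η := (clm_sum (fderiv ℂ g z₀) η).symm
    rw [show fderiv ℂ (fun z => F (z, ξ₀)) (e (p (ψ z₀))) = _ from hdu.fderiv, h3] at hη
    obtain ⟨c, hc⟩ := hvert (fderiv ℂ M z₀ η)
    refine him η (a + c) ?_
    have h4 : DF (fderiv ℂ g z₀ η, 0) = a • F (g z₀, ξ₀) := hη
    have h5 : ((fderiv ℂ g z₀ η, fderiv ℂ M z₀ η) : Cm n × (Fin R → Cm n)) =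
        (fderiv ℂ g z₀ η, 0) + (0, fderiv ℂ M z₀ η) := by simp
    rw [hdw, h5, map_add, h4, hc, hw0, add_smul])
  refine ⟨b, γ, h1, bij_of_det_ne ?_⟩
  rw [← det_comp (g := g) h1.ban hg]
  exact h2

/-- immersivity only depends on the norm (Calabi) -/
lemma imm_of_norm {w v' : Cm R → H} {z₀ : Cm R} (hw : AnalyticAt ℂ w z₀)
    (hv' : AnalyticAt ℂ v' z₀) (h : ∀ᶠ z in 𝓝 z₀, ‖w z‖ ^ 2 = ‖v' z‖ ^ 2)
    (him : ∀ (η : Cm R) (a : ℂ), fderiv ℂ v' z₀ η = a • v' z₀ → η = 0) (η : Cm R) (a : ℂ)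
    (hη : fderiv ℂ w z₀ η = a • w z₀) : η = 0 := by
  refine him η a ?_
  obtain ⟨ε, hε, hb⟩ := Metric.eventually_nhds_iff_ball.1
    ((hw.eventually_analyticAt.and hv'.eventually_analyticAt).and h)
  have h1 : ∀ l : H, ⟪l, fderiv ℂ v' z₀ η⟫_ℂ = ⟪l, a • v' z₀⟫_ℂ := by
    intro l
    obtain ⟨l', -, hl'⟩ := calabi (B := ball z₀ ε) isOpen_ball (convex_ball _ _) (f := v') (g := w)
      (fun z hz => (hb z hz).1.2.differentiableAt.differentiableWithinAt)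
      (fun z hz => (hb z hz).1.1.differentiableAt.differentiableWithinAt)
      (fun z hz => by
        have h2 := (hb z hz).2
        exact ((sq_eq_sq₀ (norm_nonneg _) (norm_nonneg _)).1 h2).symm) l
    have h3 : (fun z => ⟪l, v' z⟫_ℂ) =ᶠ[𝓝 z₀] fun z => ⟪l', w z⟫_ℂ := by
      filter_upwards [ball_mem_nhds z₀ hε] with z hz using hl' z hz
    have h4 : HasFDerivAt (fun z => ⟪l, v' z⟫_ℂ) ((innerSL ℂ l).comp (fderiv ℂ v' z₀)) z₀ :=
      (innerSL ℂ l).hasFDerivAt.comp z₀ hv'.differentiableAt.hasFDerivAt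
    have h5 : HasFDerivAt (fun z => ⟪l', w z⟫_ℂ) ((innerSL ℂ l').comp (fderiv ℂ w z₀)) z₀ :=
      (innerSL ℂ l').hasFDerivAt.comp z₀ hw.differentiableAt.hasFDerivAt
    have h6 := congrArg (fun L : Cm R →L[ℂ] ℂ => L η) ((h4.congr_of_eventuallyEq h3.symm).unique h5)
    have h7 : ⟪l, fderiv ℂ v' z₀ η⟫_ℂ = ⟪l', fderiv ℂ w z₀ η⟫_ℂ := h6
    have h8 : ⟪l, v' z₀⟫_ℂ = ⟪l', w z₀⟫_ℂ := h3.self_of_nhds
    rw [h7, hη, inner_smul_right, inner_smul_right, h8]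
  exact ext_inner_left ℂ h1

end

section
variable {n R m : ℕ} {X : Type} [TopologicalSpace X] [ChartedSpace (Cm n) X]
  [IsManifold 𝓘(ℂ, Cm n) ω X] {E : Type} [TopologicalSpace E] [PreconnectedSpace E] {p : E → X}
  {H : Type} [NormedAddCommGroup H] [InnerProductSpace ℂ H] [CompleteSpace H]
  {v : E → Chart n X → (Fin R → Cm n) → H}
  {Z : Type} [TopologicalSpace Z] [ChartedSpace (Cm R) Z] [IsManifold 𝓘(ℂ, Cm R) ω Z]

/-- **Converse of `himm_NZ`**: if the weight `NZ` of the slice `j : Z → X` is immersive at `x`, every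
point `y` over `j x` is good, and `b ∘ j` is a local coordinate system at `x`. -/
theorem good_of_himm (hv : HForm n R m p H v) (hp : IsCoveringMap p) (hps : Function.Surjective p)
    {y₀ : E} (h0 : GoodAt p R m v y₀) {j : Z → X} (hj : ContMDiff 𝓘(ℂ, Cm R) 𝓘(ℂ, Cm n) ω j)
    {c : Chart R Z} {x : Z} (hx : At c x) (him : HImmPt R H (NZ v hps j) c (c x)) {y : E}
    (hy : p y = j x) {e : Chart n X} (he : At e (p y)) :
    ∃ (b : Cm n → Cm R) (γ : Cm R → H), IsNF m p v y e b γ ∧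
      Function.Bijective (fderiv ℂ (fun z => b (e (j (c.symm z)))) (c x)) := by
  obtain ⟨hN0, v', hv'a, hNv, hvim⟩ := him
  obtain ⟨φ, hφ, hφp⟩ := hp.isLocalHomeomorph y
  set ψ : Cm R → E := fun z => φ.symm (j (c.symm z)) with hψ
  have hx' : c.symm (c x) = x := hx.left_inv
  have hjx : j x ∈ φ.target := by
    rw [← hy, hφp]; exact φ.map_source hφ
  have hc1 : ContinuousAt (fun z => j (c.symm z)) (c x) :=
    continuousAt_map (hj _) hx.mem_target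
  have hψc : ContinuousAt ψ (c x) := by
    refine ContinuousAt.comp (g := φ.symm) (f := fun z => j (c.symm z)) ?_ hc1
    rw [hx']
    exact φ.continuousAt_symm hjx
  have hψx : ψ (c x) = y := by
    show φ.symm (j (c.symm (c x))) = y
    rw [hx', ← hy, hφp]
    exact φ.left_inv hφ
  have hej : At e (j x) := hy ▸ he
  have hev : ∀ᶠ z in 𝓝 (c x), z ∈ c.target ∧ j (c.symm z) ∈ φ.target ∧
      At e (j (c.symm z)) := by
    have h1 : ∀ᶠ z in 𝓝 (c x), j (c.symm z) ∈ φ.target :=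
      hc1.eventually_mem (φ.open_target.mem_nhds (by simpa only [hx'] using hjx))
    have h2 : ∀ᶠ z in 𝓝 (c x), j (c.symm z) ∈ e.source :=
      hc1.eventually_mem (e.open_source.mem_nhds (by simpa only [hx'] using hej.2))
    filter_upwards [hx.nhds_target, h1, h2] with z hz hz1 hz2
    exact ⟨hz, hz1, hej.1, hz2⟩
  have hpψ : (fun z => p (ψ z)) =ᶠ[𝓝 (c x)] fun z => j (c.symm z) := by
    filter_upwards [hev] with z hz
    rw [hψ, hφp]
    exact φ.right_inv hz.2.1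
  have hga : AnalyticAt ℂ (fun z => e (j (c.symm z))) (c x) :=
    analyticAt_map (hj _) hx.1 hx.mem_target (by rw [hx']; exact hej)
  have hepψ : (fun z => e (p (ψ z))) =ᶠ[𝓝 (c x)] fun z => e (j (c.symm z)) := by
    filter_upwards [hpψ] with z hz
    rw [hz]
  have hga' : AnalyticAt ℂ (fun z => e (p (ψ z))) (c x) := hga.congr hepψ.symm
  have heψ : At e (p (ψ (c x))) := by rw [hψx]; exact he
  have hNw : ∀ᶠ z in 𝓝 (c x), NZ v hps j c z = ‖pull p v e ψ z‖ ^ 2 := by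
    filter_upwards [hev, hpψ.eventuallyEq_nhds, hepψ.eventuallyEq_nhds] with z hz hz' hz''
    have hz0 : p (ψ z) = j (c.symm z) := hz'.eq_of_nhds
    rw [NZ_eq hv hps (hj _) hx.1 hz.1 (y := ψ z) hz0 hz.2.2, pull, hz''.fderiv_eq]
  have hwa : AnalyticAt ℂ (pull p v e ψ) (c x) := pull_an hv hψc heψ hga'
  have hne : pull p v e ψ (c x) ≠ 0 := by
    intro h
    refine hN0 ?_
    rw [hNw.self_of_nhds, h, norm_zero]
    norm_num
  have hww : ∀ᶠ z in 𝓝 (c x), ‖pull p v e ψ z‖ ^ 2 = ‖v' z‖ ^ 2 := by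
    filter_upwards [hNw, hNv] with z h1 h2
    rw [← h1, h2]
  obtain ⟨b, γ, h1, h2⟩ := good_of_slice hv hp h0 heψ hψc hga' hne
    (imm_of_norm hwa hv'a hww hvim)
  rw [hψx] at h1
  refine ⟨b, γ, h1, ?_⟩
  have h3 : (fun z => b (e (p (ψ z)))) =ᶠ[𝓝 (c x)] fun z => b (e (j (c.symm z))) := by
    filter_upwards [hpψ] with z hz
    rw [hz]
  rw [h3.fderiv_eq] at h2
  exact h2

end

end Vale.Agent.P284.H279.GC
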