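import Vale.Agent.P284.H279.TPS
import Vale.Agent.P284.H359.Moll
import Vale.Agent.P284.H35.TAN.Mean

/-!
# P284 (helper279), TP1: averaging operator on periodic functions
-/

open scoped ContDiff Topology
open Filter Set Metric MeasureTheory

set_option linter.unusedSectionVars false

noncomputable section

namespace Vale.Agent.P284.H279

open Vale.Agent.P272.K Vale.Agent.P284.H359.Moll

variable {q : ℕ}

/-- smooth kernels invariant under the circle -/
structure Ker (r : ℝ) (ν : Cm q → ℝ) : Prop where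
  smooth : ContDiff ℝ ∞ ν
  hcs : HasCompactSupport ν
  nn : ∀ t, 0 ≤ ν t
  supp : ∀ t, r ≤ ‖t‖ → ν t = 0
  circ : ∀ a : ℂ, ‖a‖ = 1 → ∀ t, ν (a • t) = ν t
  one : ∫ t, ν t = 1
  pos : ∃ ρ > 0, ∀ t, ‖t‖ < ρ → 0 < ν t

theorem exists_ker {r : ℝ} (hr : 0 < r) : ∃ ν : Cm q → ℝ, Ker r ν := by
  set η : Cm q → ℝ := fun t => Real.smoothTransition (1 - (∑ j, ‖t j‖ ^ 2) / r ^ 2) with hη
  have h0 : ContDiff ℝ ∞ fun t : Cm q => 1 - (∑ j, ‖t j‖ ^ 2) / r ^ 2 := by
    refine contDiff_const.sub (ContDiff.div_const ?_ _)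
    refine ContDiff.sum fun j _ => ?_
    exact (contDiff_norm_sq ℝ).comp (contDiff_apply ℝ ℂ j)
  have h1 : ContDiff ℝ ∞ η := Real.smoothTransition.contDiff.comp h0
  have hn : ∀ t, 0 ≤ η t := fun t => Real.smoothTransition.nonneg _
  have hz : ∀ t : Cm q, r ≤ ‖t‖ → η t = 0 := by
    intro t ht
    refine Real.smoothTransition.zero_of_nonpos ?_
    have : r ^ 2 ≤ ∑ j, ‖t j‖ ^ 2 := by
      by_cases hq : Nonempty (Fin q)
      · obtain ⟨j, hj⟩ := (Finite.exists_max fun j => ‖t j‖)
        have h2 : ‖t‖ ≤ ‖t j‖ := (pi_norm_le_iff_of_nonneg (norm_nonneg _)).2 hj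
        calc r ^ 2 ≤ ‖t j‖ ^ 2 := pow_le_pow_left₀ hr.le (ht.trans h2) 2
          _ ≤ _ := Finset.single_le_sum (f := fun j => ‖t j‖ ^ 2) (fun i _ => by positivity)
            (Finset.mem_univ j)
      · have : IsEmpty (Fin q) := not_nonempty_iff.mp hq
        have h3 : ‖t‖ = 0 := by
          have : t = 0 := Subsingleton.elim _ _
          rw [this, norm_zero]
        linarith
    have : 1 ≤ (∑ j, ‖t j‖ ^ 2) / r ^ 2 := by
      rw [one_le_div (by positivity)]
      exact this
    linarith
  have hc : HasCompactSupport η := by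
    refine HasCompactSupport.intro (isCompact_closedBall 0 r) fun t ht => hz t ?_
    rw [mem_closedBall, dist_zero_right, not_le] at ht
    exact ht.le
  have hpos : ∀ t : Cm q, ‖t‖ < r / (q + 1) → 0 < η t := by
    intro t ht
    refine Real.smoothTransition.pos_of_pos ?_
    have h2 : ∑ j, ‖t j‖ ^ 2 ≤ q * (r / (q + 1)) ^ 2 := by
      calc ∑ j, ‖t j‖ ^ 2 ≤ ∑ _j : Fin q, (r / (q + 1)) ^ 2 := by
            refine Finset.sum_le_sum fun j _ => ?_
            exact pow_le_pow_left₀ (norm_nonneg _) ((norm_le_pi_norm t j).trans ht.le) 2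
        _ = _ := by simp
    have h3 : q * (r / (q + 1)) ^ 2 < r ^ 2 := by
      have hq : (0 : ℝ) ≤ q := Nat.cast_nonneg q
      rw [div_pow, mul_div_assoc', div_lt_iff₀ (by positivity)]
      have : (q : ℝ) < (q + 1) ^ 2 := by nlinarith
      have := mul_lt_mul_of_pos_right this (show 0 < r ^ 2 by positivity)
      linarith
    have : (∑ j, ‖t j‖ ^ 2) / r ^ 2 < 1 := by
      rw [div_lt_one (by positivity)]
      exact h2.trans_lt h3
    linarith
  have hp : 0 < ∫ t, η t := by
    refine h1.continuous.integral_pos_of_hasCompactSupport_nonneg_nonzero hc hn (x := 0) ?_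
    exact (hpos 0 (by rw [norm_zero]; positivity)).ne'
  refine ⟨fun t => (∫ t, η t)⁻¹ * η t, contDiff_const.mul h1, hc.mul_left, fun t => mul_nonneg
    (inv_nonneg.2 hp.le) (hn t), fun t ht => by simp [hz t ht], fun a ha t => ?_, ?_, ?_⟩
  · simp only [hη, Pi.smul_apply, smul_eq_mul, norm_mul, ha, one_mul]
  · rw [integral_const_mul, inv_mul_cancel₀ hp.ne']
  · exact ⟨r / (q + 1), by positivity, fun t ht => mul_pos (inv_pos.mpr hp) (hpos t ht)⟩

section Op

variable {r : ℝ} {ν : Cm q → ℝ}

theorem mo_shift (ν F : Cm q → ℝ) (z l : Cm q) :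
    mo ν F (z + l) = mo ν (fun y => F (y + l)) z := by
  unfold mo
  rw [← integral_add_right_eq_self (fun y => ν (z + l - y) • F y) l]
  refine integral_congr_ae (Eventually.of_forall fun y => ?_)
  simp only [add_sub_add_right_eq_sub]

theorem mo_const (h : Ker r ν) (c : ℝ) (z : Cm q) : mo ν (fun _ => c) z = c := by
  unfold mo
  simp only [smul_eq_mul]
  rw [integral_mul_const, integral_sub_left_eq_self, h.one, one_mul]

theorem mo_mono (h : Ker r ν) {F G : Cm q → ℝ} (hF : LocallyIntegrable F volume)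
    (hG : LocallyIntegrable G volume) (hFG : ∀ y, F y ≤ G y) (z : Cm q) :
    mo ν F z ≤ mo ν G z :=
  integral_mono (integrable_mo h.smooth.continuous h.hcs hF z)
    (integrable_mo h.smooth.continuous h.hcs hG z) fun y =>
      mul_le_mul_of_nonneg_left (hFG y) (h.nn _)

theorem mo_cont (h : Ker r ν) {F : Cm q → ℝ} (hF : Continuous F) : Continuous (mo ν F) :=
  (contDiff_mo h.smooth h.hcs hF.locallyIntegrable).continuous

theorem mo_le (h : Ker r ν) {F : Cm q → ℝ} (hF : Continuous F) {b : ℝ} (hb : ∀ y, F y ≤ b)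
    (z : Cm q) : mo ν F z ≤ b := by
  rw [← mo_const h b z]
  exact mo_mono h hF.locallyIntegrable continuous_const.locallyIntegrable hb z

theorem le_mo (h : Ker r ν) {F : Cm q → ℝ} (hF : Continuous F) {b : ℝ} (hb : ∀ y, b ≤ F y)
    (z : Cm q) : b ≤ mo ν F z := by
  rw [← mo_const h b z]
  exact mo_mono h continuous_const.locallyIntegrable hF.locallyIntegrable hb z

theorem mo_affine (h : Ker r ν) {F : Cm q → ℝ} (hF : Continuous F) (a c : ℝ) (z : Cm q) :
    mo ν (fun y => a + c * F y) z = a + c * mo ν F z := by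
  have h1 : mo ν (fun y => a + c * F y) z = mo ν (fun _ => a) z + c * mo ν F z := by
    unfold mo
    rw [← integral_const_mul, ← integral_add]
    · refine integral_congr_ae (Eventually.of_forall fun y => ?_)
      simp only [smul_eq_mul]; ring
    · exact integrable_mo h.smooth.continuous h.hcs continuous_const.locallyIntegrable z
    · exact (integrable_mo h.smooth.continuous h.hcs hF.locallyIntegrable z).const_mul c
  rw [h1, mo_const h]

theorem mo_per {F : Cm q → ℝ} {l : Cm q} (hF : ∀ z, F (z + l) = F z) (z : Cm q) :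
    mo ν F (z + l) = mo ν F z := by
  rw [mo_shift]
  simp only [hF]

/-- equicontinuity of averages -/
theorem mo_equi (h : Ker r ν) (_hr : 0 < r) : ∃ s > 0, ∀ F : Cm q → ℝ, Continuous F →
    (∀ z, |F z| ≤ 1) → ∀ z z', ‖z - z'‖ < s → |mo ν F z - mo ν F z'| ≤ 1 / 4 := by
  have hu : UniformContinuous ν := h.hcs.uniformContinuous_of_continuous h.smooth.continuous
  set V : ℝ := volume.real (closedBall (0 : Cm q) (r + 1)) with hV
  have hV0 : 0 ≤ V := measureReal_nonneg
  obtain ⟨s, hs, hsu⟩ := Metric.uniformContinuous_iff.1 hu (1 / (4 * (V + 1))) (by positivity)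
  refine ⟨min s 1, by positivity, fun F hF hF1 z z' hzz => ?_⟩
  have hz1 : ‖z - z'‖ < s := hzz.trans_le (min_le_left _ _)
  have hz2 : ‖z - z'‖ < 1 := hzz.trans_le (min_le_right _ _)
  have e1 : mo ν F z - mo ν F z' = ∫ y in closedBall z (r + 1), (ν (z - y) - ν (z' - y)) * F y := by
    rw [setIntegral_eq_integral_of_forall_compl_eq_zero]
    · unfold mo
      rw [← integral_sub (integrable_mo h.smooth.continuous h.hcs hF.locallyIntegrable z)
        (integrable_mo h.smooth.continuous h.hcs hF.locallyIntegrable z')]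
      refine integral_congr_ae (Eventually.of_forall fun y => ?_)
      simp only [smul_eq_mul]; ring
    · intro y hy
      rw [mem_closedBall, not_le, dist_eq_norm] at hy
      have h1 : r ≤ ‖z - y‖ := by rw [norm_sub_rev]; linarith
      have h2 : r ≤ ‖z' - y‖ := by
        have : ‖y - z‖ ≤ ‖y - z'‖ + ‖z' - z‖ := norm_sub_le_norm_sub_add_norm_sub _ _ _
        rw [norm_sub_rev z' z] at this
        rw [norm_sub_rev z' y]
        linarith
      rw [h.supp _ h1, h.supp _ h2]; ring
  rw [e1, ← Real.norm_eq_abs]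
  have h3 : ∀ y ∈ closedBall z (r + 1), ‖(ν (z - y) - ν (z' - y)) * F y‖ ≤ 1 / (4 * (V + 1)) := by
    intro y _
    rw [norm_mul, Real.norm_eq_abs, Real.norm_eq_abs]
    have h4 : dist (z - y) (z' - y) < s := by
      rw [dist_eq_norm, sub_sub_sub_cancel_right]; exact hz1
    have h5 := hsu h4
    rw [Real.dist_eq] at h5
    calc |ν (z - y) - ν (z' - y)| * |F y| ≤ 1 / (4 * (V + 1)) * 1 :=
          mul_le_mul h5.le (hF1 y) (abs_nonneg _) (by positivity)
      _ = _ := mul_one _
  refine (norm_setIntegral_le_of_norm_le_const measure_closedBall_lt_top h3).trans ?_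
  have h6 : volume.real (closedBall z (r + 1)) = V := by
    rw [hV, measureReal_def, measureReal_def, Measure.addHaar_closedBall_center volume z]
  rw [h6]
  rw [div_mul_eq_mul_div, one_mul, div_le_div_iff₀ (by positivity) (by norm_num)]
  nlinarith

/-- positivity spreads -/
theorem mo_grow (h : Ker r ν) {ρ : ℝ} (hρ : 0 < ρ) (hp : ∀ t, ‖t‖ < ρ → 0 < ν t) {s : ℝ}
    (hs : 0 < s) : ∃ κ > 0, ∀ F : Cm q → ℝ, Continuous F → (∀ z, 0 ≤ F z) → ∀ c, 0 ≤ c → ∀ z₀,
      (∀ z ∈ ball z₀ s, c ≤ F z) → ∀ z ∈ closedBall z₀ (s + ρ / 2), κ * c ≤ mo ν F z := by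
  set I : Cm q → ℝ := (ball (0 : Cm q) s).indicator fun _ => 1 with hI
  have hIint : Integrable I := (integrable_indicator_iff measurableSet_ball).2
    (integrableOn_const measure_ball_lt_top.ne)
  have hIl : LocallyIntegrable I volume := hIint.locallyIntegrable
  have hkc : Continuous (mo ν I) := (contDiff_mo h.smooth h.hcs hIl).continuous
  obtain ⟨w₀, hw₀, hmin⟩ := (isCompact_closedBall (0 : Cm q) (s + ρ / 2)).exists_isMinOn
    ⟨0, mem_closedBall_self (by positivity)⟩ hkc.continuousOn
  have hpos : 0 < mo ν I w₀ := by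
    have e1 : mo ν I w₀ = ∫ y in ball (0 : Cm q) s, ν (w₀ - y) := by
      rw [← integral_indicator measurableSet_ball]
      unfold mo
      refine integral_congr_ae (Eventually.of_forall fun y => ?_)
      by_cases hy : y ∈ ball (0 : Cm q) s
      · simp only [hI, smul_eq_mul, indicator_of_mem hy, mul_one]
      · simp only [hI, smul_eq_mul, indicator_of_notMem hy, mul_zero]
    have hint : IntegrableOn (fun y => ν (w₀ - y)) (ball 0 s) := by
      have hc : Continuous fun y => ν (w₀ - y) := h.smooth.continuous.comp (by fun_prop)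
      exact (hc.continuousOn.integrableOn_compact (isCompact_closedBall (0 : Cm q) s)).mono_set
        ball_subset_closedBall
    rw [e1, setIntegral_pos_iff_support_of_nonneg_ae (Eventually.of_forall fun y => h.nn _) hint]
    set ε : ℝ := min s ρ / 4 with hε
    have hε0 : 0 < ε := by positivity
    have hε1 : ε < s := by
      have := min_le_left s ρ; rw [hε]; linarith
    have hε2 : ε < ρ / 2 := by
      have := min_le_right s ρ; rw [hε]; linarith
    set c : ℝ := (s - ε) / (s + ρ / 2) with hc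
    have hsp : 0 < s + ρ / 2 := by positivity
    have hc0 : 0 ≤ c := div_nonneg (by linarith) hsp.le
    have hc1 : c ≤ 1 := by rw [hc, div_le_one hsp]; linarith
    have hwn : ‖w₀‖ ≤ s + ρ / 2 := by simpa using hw₀
    have hy1 : ‖c • w₀‖ < s := by
      rw [norm_smul, Real.norm_of_nonneg hc0]
      have : c * ‖w₀‖ ≤ c * (s + ρ / 2) := mul_le_mul_of_nonneg_left hwn hc0
      have h2 : c * (s + ρ / 2) = s - ε := by rw [hc]; field_simp
      linarith
    have hy2 : ‖w₀ - c • w₀‖ < ρ := by
      have e2 : w₀ - c • w₀ = (1 - c) • w₀ := by rw [sub_smul, one_smul]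
      rw [e2, norm_smul, Real.norm_of_nonneg (by linarith)]
      have : (1 - c) * ‖w₀‖ ≤ (1 - c) * (s + ρ / 2) := mul_le_mul_of_nonneg_left hwn (by linarith)
      have h2 : (1 - c) * (s + ρ / 2) = ρ / 2 + ε := by rw [hc]; field_simp; ring
      linarith
    have hopen : IsOpen (ball (0 : Cm q) s ∩ ball w₀ ρ) := isOpen_ball.inter isOpen_ball
    have hne : (ball (0 : Cm q) s ∩ ball w₀ ρ).Nonempty :=
      ⟨c • w₀, by simpa using hy1, by rw [mem_ball, dist_eq_norm, norm_sub_rev]; exact hy2⟩
    refine (hopen.measure_pos volume hne).trans_le (measure_mono fun y hy => ⟨?_, hy.1⟩)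
    have : ‖w₀ - y‖ < ρ := by rw [norm_sub_rev, ← dist_eq_norm]; exact hy.2
    exact (hp _ this).ne'
  refine ⟨mo ν I w₀, hpos, fun F hF hF0 c hc z₀ hz₀ z hz => ?_⟩
  have h1 : mo ν I w₀ ≤ mo ν I (z - z₀) := hmin (by
    rw [mem_closedBall, dist_zero_right, ← dist_eq_norm]; exact hz)
  have h2 : mo ν I (z - z₀) = mo ν (fun y => I (y - z₀)) z := by
    have := mo_shift ν I z (-z₀)
    simpa [sub_eq_add_neg] using this
  have hIl' : LocallyIntegrable (fun y => c * I (y - z₀)) volume :=
    ((hIint.comp_sub_right z₀).const_mul c).locallyIntegrable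
  have h3 : mo ν (fun y => c * I (y - z₀)) z ≤ mo ν F z := by
    refine mo_mono h hIl' hF.locallyIntegrable (fun y => ?_) z
    by_cases hy : y ∈ ball z₀ s
    · have : y - z₀ ∈ ball (0 : Cm q) s := by
        rw [mem_ball, dist_zero_right, ← dist_eq_norm]; exact hy
      simp only [hI, indicator_of_mem this, mul_one]
      exact hz₀ y hy
    · have : y - z₀ ∉ ball (0 : Cm q) s := by
        rw [mem_ball, dist_zero_right, ← dist_eq_norm]; exact hy
      simp only [hI, indicator_of_notMem this, mul_zero]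
      exact hF0 y
  have h4 : mo ν (fun y => c * I (y - z₀)) z = c * mo ν (fun y => I (y - z₀)) z := by
    unfold mo
    rw [← integral_const_mul]
    refine integral_congr_ae (Eventually.of_forall fun y => ?_)
    simp only [smul_eq_mul]; ring
  rw [h4, ← h2] at h3
  calc mo ν I w₀ * c ≤ mo ν I (z - z₀) * c := mul_le_mul_of_nonneg_right h1 hc
    _ = c * mo ν I (z - z₀) := mul_comm _ _
    _ ≤ _ := h3

end Op

end Vale.Agent.P284.H279
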