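import Vale.Agent.P284.H279.TPa

/-!
# P284 (helper279), TP1: the averaging operator contracts the oscillation of periodic functions
-/

open scoped ContDiff Topology
open Filter Set Metric MeasureTheory

set_option linter.unusedSectionVars false

noncomputable section

namespace Vale.Agent.P284.H279

open Vale.Agent.P272.K Vale.Agent.P284.H359.Moll

variable {q : ℕ} {r : ℝ} {ν : Cm q → ℝ}

theorem it_cont (h : Ker r ν) {F : Cm q → ℝ} (hF : Continuous F) (k : ℕ) :
    Continuous ((mo ν)^[k] F) := by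
  induction k with
  | zero => exact hF
  | succ k ih => rw [Function.iterate_succ_apply']; exact mo_cont h ih

theorem it_per {F : Cm q → ℝ} {l : Cm q} (hF : ∀ z, F (z + l) = F z) (k : ℕ) (z : Cm q) :
    (mo ν)^[k] F (z + l) = (mo ν)^[k] F z := by
  induction k generalizing z with
  | zero => exact hF z
  | succ k ih => rw [Function.iterate_succ_apply']; exact mo_per ih z

theorem it_le (h : Ker r ν) {F : Cm q → ℝ} (hF : Continuous F) {b : ℝ} (hb : ∀ y, F y ≤ b) (k : ℕ)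
    (z : Cm q) : (mo ν)^[k] F z ≤ b := by
  induction k generalizing z with
  | zero => exact hb z
  | succ k ih => rw [Function.iterate_succ_apply']; exact mo_le h (it_cont h hF k) ih z

theorem le_it (h : Ker r ν) {F : Cm q → ℝ} (hF : Continuous F) {b : ℝ} (hb : ∀ y, b ≤ F y) (k : ℕ)
    (z : Cm q) : b ≤ (mo ν)^[k] F z := by
  induction k generalizing z with
  | zero => exact hb z
  | succ k ih => rw [Function.iterate_succ_apply']; exact le_mo h (it_cont h hF k) ih z

theorem it_affine (h : Ker r ν) {F : Cm q → ℝ} (hF : Continuous F) (a c : ℝ) (k : ℕ) (z : Cm q) :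
    (mo ν)^[k] (fun y => a + c * F y) z = a + c * (mo ν)^[k] F z := by
  induction k generalizing z with
  | zero => rfl
  | succ k ih =>
    rw [Function.iterate_succ_apply', Function.iterate_succ_apply', ← mo_affine h (it_cont h hF k)]
    congr 1
    funext y
    exact ih y

theorem it_grow (h : Ker r ν) {ρ : ℝ} (hρ : 0 < ρ) (hp : ∀ t, ‖t‖ < ρ → 0 < ν t) (k : ℕ) :
    ∀ s : ℝ, 0 < s → ∃ κ > 0, ∀ F : Cm q → ℝ, Continuous F → (∀ z, 0 ≤ F z) → ∀ c, 0 ≤ c → ∀ z₀,
      (∀ z ∈ ball z₀ s, c ≤ F z) → ∀ z ∈ ball z₀ (s + k * (ρ / 2)), κ * c ≤ (mo ν)^[k] F z := by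
  induction k with
  | zero =>
    intro s _
    refine ⟨1, one_pos, fun F _ _ c _ z₀ hz₀ z hz => ?_⟩
    simpa using hz₀ z (by simpa using hz)
  | succ k ih =>
    intro s hs
    obtain ⟨κ₁, hκ₁, h1⟩ := mo_grow h hρ hp hs
    obtain ⟨κ₂, hκ₂, h2⟩ := ih (s + ρ / 2) (by positivity)
    refine ⟨κ₂ * κ₁, by positivity, fun F hF hF0 c hc z₀ hz₀ z hz => ?_⟩
    rw [Function.iterate_succ_apply]
    have h3 := h2 (mo ν F) (mo_cont h hF) (fun z => le_mo h hF hF0 z) (κ₁ * c) (by positivity) z₀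
      (fun w hw => h1 F hF hF0 c hc z₀ hz₀ w (ball_subset_closedBall hw)) z (by
        refine ball_subset_ball (le_of_eq ?_) hz
        push_cast; ring)
    calc κ₂ * κ₁ * c = κ₂ * (κ₁ * c) := by ring
      _ ≤ _ := h3

/-- **Doeblin** -/
theorem doeb (h : Ker r ν) (hr : 0 < r) {Λ : AddSubgroup (Cm q)} (hΛ : Coco Λ) :
    ∃ (K : ℕ) (t : ℝ), 0 < K ∧ 0 < t ∧ t < 1 ∧ ∀ F : Cm q → ℝ, Continuous F →
      (∀ l ∈ Λ, ∀ z, F (z + l) = F z) → (∀ z, 0 ≤ F z) → (∀ z, F z ≤ 1) →
      ∃ a b : ℝ, b - a ≤ t ∧ (∀ z, a ≤ (mo ν)^[K] F z) ∧ ∀ z, (mo ν)^[K] F z ≤ b := by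
  obtain ⟨R, hR⟩ := hΛ
  obtain ⟨ρ, hρ, hp⟩ := h.pos
  obtain ⟨s, hs, hse⟩ := mo_equi h hr
  obtain ⟨k, hk⟩ := exists_nat_gt (R / (ρ / 2))
  have hk' : R < s + k * (ρ / 2) := by
    rw [div_lt_iff₀ (by positivity)] at hk
    linarith
  obtain ⟨κ, hκ, hg⟩ := it_grow h hρ hp k s hs
  refine ⟨k + 1, max (1 / 2) (1 - κ / 4), by omega, lt_max_of_lt_left (by norm_num),
    max_lt (by norm_num) (by linarith), fun F hF hper h0 h1 => ?_⟩
  set G := mo ν F with hG
  have hGc : Continuous G := mo_cont h hF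
  have hG0 : ∀ z, 0 ≤ G z := fun z => le_mo h hF h0 z
  have hG1 : ∀ z, G z ≤ 1 := fun z => mo_le h hF h1 z
  have hGp : ∀ l ∈ Λ, ∀ z, G (z + l) = G z := fun l hl z => mo_per (hper l hl) z
  have hit : ∀ z, (mo ν)^[k + 1] F z = (mo ν)^[k] G z := fun z => by
    rw [Function.iterate_succ_apply]
  by_cases hc : ∀ z, G z ≤ 1 / 2
  · refine ⟨0, 1 / 2, by simp, fun z => ?_, fun z => ?_⟩
    · rw [hit]; exact le_it h hGc hG0 k z
    · rw [hit]; exact it_le h hGc hc k z
  · push Not at hc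
    obtain ⟨z₀, hz₀⟩ := hc
    have h2 : ∀ z ∈ ball z₀ s, 1 / 4 ≤ G z := by
      intro z hz
      have h3 := hse F hF (fun z => by rw [abs_of_nonneg (h0 z)]; exact h1 z) z z₀ (by
        rw [← dist_eq_norm]; exact hz)
      have := (abs_le.1 h3).1
      simp only [hG] at hz₀ ⊢
      linarith
    have h3 := hg G hGc hG0 (1 / 4) (by norm_num) z₀ h2
    refine ⟨κ / 4, 1, (le_max_right _ _), fun z => ?_, fun z => ?_⟩
    · obtain ⟨l, hl, hlz⟩ := hR (z - z₀)
      have h4 : z - l ∈ ball z₀ (s + k * (ρ / 2)) := by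
        rw [mem_ball, dist_eq_norm]
        have : z - l - z₀ = z - z₀ - l := by abel
        rw [this]
        exact hlz.trans_lt hk'
      have h5 := h3 _ h4
      have h6 := it_per (ν := ν) (hGp l hl) k (z - l)
      rw [sub_add_cancel] at h6
      rw [hit, h6]
      linarith
    · rw [hit]; exact it_le h hGc hG1 k z

theorem doeb' (h : Ker r ν) (hr : 0 < r) {Λ : AddSubgroup (Cm q)} (hΛ : Coco Λ) :
    ∃ (K : ℕ) (t : ℝ), 0 < K ∧ 0 < t ∧ t < 1 ∧ ∀ F : Cm q → ℝ, Continuous F →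
      (∀ l ∈ Λ, ∀ z, F (z + l) = F z) → ∀ a b : ℝ, (∀ z, a ≤ F z) → (∀ z, F z ≤ b) →
      ∃ a' b' : ℝ, b' - a' ≤ t * (b - a) ∧ (∀ z, a' ≤ (mo ν)^[K] F z) ∧ ∀ z, (mo ν)^[K] F z ≤ b' := by
  obtain ⟨K, t, hK, ht0, ht1, hD⟩ := doeb h hr hΛ
  refine ⟨K, t, hK, ht0, ht1, fun F hF hper a b ha hb => ?_⟩
  have hab : a ≤ b := (ha 0).trans (hb 0)
  rcases hab.eq_or_lt with hab | hab
  · refine ⟨a, b, by rw [hab]; simp, fun z => le_it h hF ha K z, fun z => it_le h hF hb K z⟩
  · have hab' : 0 < b - a := by linarith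
    set F' : Cm q → ℝ := fun z => (F z - a) / (b - a) with hF'
    have hF'c : Continuous F' := (hF.sub continuous_const).div_const _
    obtain ⟨a', b', h1, h2, h3⟩ := hD F' hF'c (fun l hl z => by simp only [hF', hper l hl])
      (fun z => div_nonneg (by linarith [ha z]) hab'.le)
      (fun z => by simp only [hF']; rw [div_le_one hab']; linarith [hb z])
    have e : F = fun z => a + (b - a) * F' z := by
      funext z; simp only [hF']; field_simp; ring
    refine ⟨a + (b - a) * a', a + (b - a) * b', by nlinarith, fun z => ?_, fun z => ?_⟩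
    · rw [e, it_affine h hF'c]
      have := mul_le_mul_of_nonneg_left (h2 z) hab'.le
      linarith
    · rw [e, it_affine h hF'c]
      have := mul_le_mul_of_nonneg_left (h3 z) hab'.le
      linarith

theorem per_bdd {Λ : AddSubgroup (Cm q)} (hΛ : Coco Λ) {F : Cm q → ℝ} (hF : Continuous F)
    (hper : ∀ l ∈ Λ, ∀ z, F (z + l) = F z) : ∃ B : ℝ, 0 ≤ B ∧ ∀ z, |F z| ≤ B := by
  obtain ⟨R, hR⟩ := hΛ
  obtain ⟨B, hB⟩ := (isCompact_closedBall (0 : Cm q) R).exists_bound_of_continuousOn hF.continuousOn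
  refine ⟨|B|, abs_nonneg _, fun z => ?_⟩
  obtain ⟨l, hl, hlz⟩ := hR z
  have := hper l hl (z - l)
  rw [sub_add_cancel] at this
  rw [this]
  exact (hB _ (by simpa using hlz)).trans (le_abs_self _)

theorem floor_pow {K : ℕ} (hK : 0 < K) {t : ℝ} (ht0 : 0 < t) (ht1 : t < 1) :
    ∃ (C ρ : ℝ), 0 < C ∧ 0 < ρ ∧ ρ < 1 ∧ ∀ j : ℕ, t ^ (j / K) ≤ C * ρ ^ j := by
  refine ⟨t⁻¹, t ^ (1 / (K : ℝ)), by positivity, by positivity,
    Real.rpow_lt_one ht0.le ht1 (by positivity), fun j => ?_⟩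
  have h1 : (j : ℝ) / K - 1 ≤ ((j / K : ℕ) : ℝ) := by
    have : (j : ℝ) < ((j / K : ℕ) + 1) * K := by
      have := Nat.lt_div_mul_add (a := j) hK
      have h2 : j < (j / K + 1) * K := by rw [add_mul, one_mul]; exact this
      exact_mod_cast h2
    have hK' : (0 : ℝ) < K := by exact_mod_cast hK
    rw [sub_le_iff_le_add, div_le_iff₀ hK']
    exact this.le
  calc t ^ (j / K) = t ^ ((j / K : ℕ) : ℝ) := (Real.rpow_natCast _ _).symm
    _ ≤ t ^ ((j : ℝ) / K - 1) := Real.rpow_le_rpow_of_exponent_ge ht0 ht1.le h1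
    _ = t ^ ((j : ℝ) / K) * t⁻¹ := by rw [Real.rpow_sub_one ht0.ne', div_eq_mul_inv]
    _ = t⁻¹ * (t ^ (1 / (K : ℝ))) ^ j := by
        rw [← Real.rpow_natCast, ← Real.rpow_mul ht0.le]
        rw [mul_comm]
        congr 2
        ring

theorem it_lim (h : Ker r ν) (hr : 0 < r) {Λ : AddSubgroup (Cm q)} (hΛ : Coco Λ) {F : Cm q → ℝ}
    (hF : Continuous F) (hper : ∀ l ∈ Λ, ∀ z, F (z + l) = F z) :
    ∃ (m C ρ : ℝ), 0 < C ∧ 0 < ρ ∧ ρ < 1 ∧ ∀ (j : ℕ) z, |(mo ν)^[j] F z - m| ≤ C * ρ ^ j := by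
  obtain ⟨K, t, hK, ht0, ht1, hD⟩ := doeb' h hr hΛ
  obtain ⟨B, hB0, hB⟩ := per_bdd hΛ hF hper
  have key : ∀ n : ℕ, ∃ a b : ℝ, b - a ≤ t ^ n * (2 * B) ∧
      ∀ j, K * n ≤ j → ∀ z, a ≤ (mo ν)^[j] F z ∧ (mo ν)^[j] F z ≤ b := by
    intro n
    induction n with
    | zero =>
      refine ⟨-B, B, by linarith, fun j _ z => ⟨?_, ?_⟩⟩
      · exact le_it h hF (fun y => (abs_le.1 (hB y)).1) j z
      · exact it_le h hF (fun y => (abs_le.1 (hB y)).2) j z
    | succ n ih =>
      obtain ⟨a, b, hab, hj⟩ := ih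
      obtain ⟨a', b', h1, h2, h3⟩ := hD ((mo ν)^[K * n] F) (it_cont h hF _)
        (fun l hl z => it_per (hper l hl) _ z) a b (fun z => (hj _ le_rfl z).1)
        (fun z => (hj _ le_rfl z).2)
      refine ⟨a', b', h1.trans ?_, fun j hj' z => ?_⟩
      · rw [pow_succ]
        calc t * (b - a) ≤ t * (t ^ n * (2 * B)) := mul_le_mul_of_nonneg_left hab ht0.le
          _ = _ := by ring
      · obtain ⟨i, rfl⟩ : ∃ i, j = i + (K + K * n) := ⟨j - (K + K * n), by
          have : K * (n + 1) = K + K * n := by ring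
          omega⟩
        rw [Function.iterate_add_apply, Function.iterate_add_apply]
        have hc : Continuous ((mo ν)^[K] ((mo ν)^[K * n] F)) := it_cont h (it_cont h hF _) _
        exact ⟨le_it h hc h2 i z, it_le h hc h3 i z⟩
  have hosc : ∀ n i j, K * n ≤ i → K * n ≤ j → ∀ z z',
      |(mo ν)^[i] F z - (mo ν)^[j] F z'| ≤ t ^ n * (2 * B) := by
    intro n i j hi hj z z'
    obtain ⟨a, b, hab, hj'⟩ := key n
    have h1 := hj' i hi z
    have h2 := hj' j hj z'
    rw [abs_le]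
    constructor <;> linarith
  have htend : Tendsto (fun n => t ^ n * (2 * B)) atTop (𝓝 0) := by
    simpa using (tendsto_pow_atTop_nhds_zero_of_lt_one ht0.le ht1).mul_const (2 * B)
  have hcau : CauchySeq fun j => (mo ν)^[j] F 0 := by
    rw [Metric.cauchySeq_iff]
    intro ε hε
    obtain ⟨n, hn⟩ := (htend.eventually (gt_mem_nhds hε)).exists
    refine ⟨K * n, fun i hi j hj => ?_⟩
    rw [Real.dist_eq]
    exact (hosc n i j hi hj 0 0).trans_lt hn
  obtain ⟨m, hm⟩ := cauchySeq_tendsto_of_complete hcau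
  obtain ⟨C, ρ, hC, hρ0, hρ1, hCρ⟩ := floor_pow hK ht0 ht1
  refine ⟨m, C * (2 * B + 1), ρ, by positivity, hρ0, hρ1, fun j z => ?_⟩
  have h1 : |(mo ν)^[j] F z - m| ≤ t ^ (j / K) * (2 * B) := by
    have h2 : Tendsto (fun i => |(mo ν)^[j] F z - (mo ν)^[i] F 0|) atTop
        (𝓝 |(mo ν)^[j] F z - m|) := (tendsto_const_nhds.sub hm).abs
    refine le_of_tendsto h2 ?_
    filter_upwards [eventually_ge_atTop (K * (j / K))] with i hi
    exact hosc _ _ _ (Nat.mul_div_le j K) hi _ _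
  refine h1.trans ?_
  calc t ^ (j / K) * (2 * B) ≤ C * ρ ^ j * (2 * B + 1) :=
        mul_le_mul (hCρ j) (by linarith) (by positivity) (by positivity)
    _ = _ := by ring

/-- **Poisson equation** for the averaging operator -/
theorem exists_S (h : Ker r ν) (hr : 0 < r) {Λ : AddSubgroup (Cm q)} (hΛ : Coco Λ) {F : Cm q → ℝ}
    (hF : Continuous F) (hper : ∀ l ∈ Λ, ∀ z, F (z + l) = F z) :
    ∃ (S : Cm q → ℝ) (m : ℝ), Continuous S ∧ (∀ l ∈ Λ, ∀ z, S (z + l) = S z) ∧
      ∀ z, S z = mo ν S z + F z - m := by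
  obtain ⟨m, C, ρ, hC, hρ0, hρ1, hb⟩ := it_lim h hr hΛ hF hper
  set g : ℕ → Cm q → ℝ := fun j z => (mo ν)^[j] F z - m with hg
  have hgc : ∀ j, Continuous (g j) := fun j => (it_cont h hF j).sub continuous_const
  have hsum : Summable fun j : ℕ => C * ρ ^ j :=
    (summable_geometric_of_lt_one hρ0.le hρ1).mul_left C
  have hgs : ∀ z, Summable fun j => g j z := fun z =>
    Summable.of_norm_bounded hsum fun j => hb j z
  refine ⟨fun z => ∑' j, g j z, m, continuous_tsum hgc hsum fun j z => hb j z,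
    fun l hl z => ?_, fun z => ?_⟩
  · show ∑' j, g j (z + l) = ∑' j, g j z
    refine tsum_congr fun j => ?_
    simp only [hg]
    rw [it_per (hper l hl) j z]
  · have h0 : ∑' j, ∫ y, ν (z - y) • g j y = ∫ y, ∑' j, ν (z - y) • g j y := by
      refine integral_tsum_of_summable_integral_norm (fun j => ?_) ?_
      · exact integrable_mo h.smooth.continuous h.hcs (hgc j).locallyIntegrable z
      · refine Summable.of_nonneg_of_le (fun j => integral_nonneg fun y => norm_nonneg _)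
          (fun j => ?_) hsum
        have e1 : ∀ y, ‖ν (z - y) • g j y‖ ≤ ν (z - y) • (C * ρ ^ j) := by
          intro y
          rw [norm_smul, Real.norm_of_nonneg (h.nn _), smul_eq_mul]
          exact mul_le_mul_of_nonneg_left (hb j y) (h.nn _)
        have i1 := integrable_mo h.smooth.continuous h.hcs (hgc j).locallyIntegrable z
        have i2 := integrable_mo h.smooth.continuous h.hcs
          (continuous_const (y := C * ρ ^ j)).locallyIntegrable z
        refine (integral_mono i1.norm i2 e1).trans (le_of_eq ?_)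
        exact mo_const h (C * ρ ^ j) z
    have h1 : mo ν (fun z => ∑' j, g j z) z = ∑' j, mo ν (g j) z := by
      unfold mo
      rw [h0]
      refine integral_congr_ae (Eventually.of_forall fun y => ?_)
      simp only [smul_eq_mul]
      rw [tsum_mul_left]
    have h2 : ∀ j, mo ν (g j) z = g (j + 1) z := by
      intro j
      have h3 := mo_affine h (it_cont h hF j) (-m) 1 z
      have h4 : g j = fun y => -m + 1 * (mo ν)^[j] F y := by
        funext y; simp only [hg]; ring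
      rw [h4, h3]
      simp only [hg, Function.iterate_succ_apply']
      ring
    rw [h1]
    simp only [h2]
    rw [(hgs z).tsum_eq_zero_add]
    simp only [hg, Function.iterate_zero, id_eq]
    ring

end Vale.Agent.P284.H279
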