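import Vale.Agent.P284.H279.TPb
import Vale.Agent.P284.H15.TP3
import Vale.Agent.P301.H98.L1

/-!
# P284 (helper279), TP1: local equations of a periodic divisor, mean values of `log |θ|²`
-/

open scoped ContDiff Topology
open Filter Set Metric MeasureTheory

set_option linter.unusedSectionVars false

noncomputable section

namespace Vale.Agent.P284.H279

open Vale.Agent.P272.K Vale.Agent.P284.H359.Moll Vale.Agent.P284.H15.TP3

variable {q : ℕ} {Λ : AddSubgroup (Cm q)} {E : (Cm q → ℂ) → Cm q → Prop}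

/-- local equations on balls of a uniform radius -/
theorem exists_rad (hE : PerDiv Λ E) (hΛ : Coco Λ) :
    ∃ r > 0, ∀ c, ∃ θ, ∀ z ∈ ball c (8 * r), E θ z := by
  obtain ⟨R, hR⟩ := hΛ
  choose θ hθ using hE.ex
  have h1 : ∀ x, ∃ ε > 0, ∀ z ∈ ball x ε, E (θ x) z := fun x =>
    Metric.eventually_nhds_iff_ball.1 (hE.opn _ _ (hθ x))
  choose ε hε hεE using h1
  obtain ⟨δ, hδ, hδs⟩ := lebesgue_number_lemma_of_metric (isCompact_closedBall (0 : Cm q) R)
    (c := fun x : Cm q => ball x (ε x)) (fun x => isOpen_ball) fun x _ =>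
      mem_iUnion.2 ⟨x, mem_ball_self (hε x)⟩
  refine ⟨δ / 8, by positivity, fun c => ?_⟩
  obtain ⟨l, hl, hlc⟩ := hR c
  obtain ⟨x, hx⟩ := hδs (c - l) (by simpa using hlc)
  refine ⟨fun z => θ x (z - l), fun z hz => ?_⟩
  have hz' : z - l ∈ ball (c - l) δ := by
    have e : 8 * (δ / 8) = δ := by ring
    rw [e] at hz
    rw [mem_ball, dist_eq_norm] at hz ⊢
    simpa using hz
  have := hE.per _ _ (hεE x _ (hx hz')) l hl
  rwa [sub_add_cancel] at this

/-- the quotient of two local equations on an open set -/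
theorem exists_unit (hE : PerDiv Λ E) {θ θ' : Cm q → ℂ} {U : Set (Cm q)} (hU : IsOpen U)
    (h : ∀ z ∈ U, E θ z) (h' : ∀ z ∈ U, E θ' z) :
    ∃ u : Cm q → ℂ, (∀ z ∈ U, AnalyticAt ℂ u z ∧ u z ≠ 0) ∧ ∀ z ∈ U, θ z = u z * θ' z := by
  classical
  have h1 : ∀ z, ∃ u : Cm q → ℂ, z ∈ U → AnalyticAt ℂ u z ∧ u z ≠ 0 ∧
      ∀ᶠ w in 𝓝 z, θ w = u w * θ' w := by
    intro z
    by_cases hz : z ∈ U
    · obtain ⟨u, hu⟩ := hE.unit θ θ' z (h z hz) (h' z hz)
      exact ⟨u, fun _ => hu⟩
    · exact ⟨fun _ => 0, fun h => absurd h hz⟩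
  choose v hv using h1
  have key : ∀ z ∈ U, ∀ᶠ w in 𝓝 z, v w w = v z w := by
    intro z hz
    obtain ⟨hva, hv0, hve⟩ := hv z hz
    filter_upwards [hva.eventually_analyticAt, hve.eventually_nhds, hU.mem_nhds hz]
      with w hw1 hw2 hwU
    obtain ⟨hwa, hw0, hwe⟩ := hv w hwU
    obtain ⟨R, hR, -, hae⟩ := Vale.Agent.P301.H98.exists_log_integrable
      (hE.ana θ' w (h' w hwU)) (hE.ne θ' w (h' w hwU))
    have hev : ∀ᶠ y in 𝓝 w, AnalyticAt ℂ (v w) y ∧ AnalyticAt ℂ (v z) y ∧
        θ y = v w y * θ' y ∧ θ y = v z y * θ' y :=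
      hwa.eventually_analyticAt.and (hw1.eventually_analyticAt.and (hwe.and hw2))
    obtain ⟨s, hs, hsb⟩ := Metric.eventually_nhds_iff_ball.1 hev
    have hsub : ball w (min s R) ⊆ ball w R := ball_subset_ball (min_le_right _ _)
    have hsub' : ball w (min s R) ⊆ ball w s := ball_subset_ball (min_le_left _ _)
    have hEq : EqOn (v w) (v z) (ball w (min s R)) := by
      refine Measure.eqOn_open_of_ae_eq (μ := volume) ?_ isOpen_ball
        (fun y hy => (hsb y (hsub' hy)).1.continuousAt.continuousWithinAt)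
        (fun y hy => (hsb y (hsub' hy)).2.1.continuousAt.continuousWithinAt)
      have h3 := ae_restrict_of_ae_restrict_of_subset hsub hae
      filter_upwards [h3, ae_restrict_mem measurableSet_ball] with y hy hyb
      have h4 := (hsb y (hsub' hyb)).2.2
      have h5 : v w y * θ' y = v z y * θ' y := by rw [← h4.1, ← h4.2]
      exact mul_right_cancel₀ hy h5
    exact hEq (mem_ball_self (by positivity))
  refine ⟨fun z => v z z, fun z hz => ⟨?_, (hv z hz).2.1⟩, fun z hz => (hv z hz).2.2.self_of_nhds⟩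
  exact (hv z hz).1.congr (by
    filter_upwards [key z hz] with w hw
    exact hw.symm)

/-- `log |θ|²` -/
def pp (θ : Cm q → ℂ) (z : Cm q) : ℝ := Real.log (‖θ z‖ ^ 2)

theorem pp_int (hE : PerDiv Λ E) {θ : Cm q → ℂ} {K : Set (Cm q)} (hK : IsCompact K)
    (h : ∀ z ∈ K, E θ z) : IntegrableOn (pp θ) K := by
  refine LocallyIntegrableOn.integrableOn_isCompact (fun x hx => ?_) hK
  obtain ⟨R, hR, hi, -⟩ := Vale.Agent.P301.H98.exists_log_integrable
      (hE.ana θ x (h x hx)) (hE.ne θ x (h x hx))
  exact ⟨ball x R, mem_nhdsWithin_of_mem_nhds (ball_mem_nhds x hR), hi⟩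

theorem zs_null (hE : PerDiv Λ E) : volume (zs E) = 0 := by
  refine measure_null_of_locally_null _ fun x _ => ?_
  obtain ⟨θ, hθ⟩ := hE.ex x
  obtain ⟨R, hR, -, hae⟩ := Vale.Agent.P301.H98.exists_log_integrable
      (hE.ana θ x hθ) (hE.ne θ x hθ)
  have hev := hE.opn θ x hθ
  obtain ⟨s, hs, hsb⟩ := Metric.eventually_nhds_iff_ball.1 hev
  refine ⟨zs E ∩ ball x (min s R), inter_mem_nhdsWithin _ (ball_mem_nhds x (by positivity)), ?_⟩
  rw [ae_restrict_iff' measurableSet_ball] at hae
  refine measure_mono_null (fun y hy => ?_) hae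
  simp only [mem_compl_iff, mem_ofPred_eq]
  intro hcon
  have hy1 : y ∈ ball x R := ball_subset_ball (min_le_right _ _) hy.2
  have hy2 : y ∈ ball x s := ball_subset_ball (min_le_left _ _) hy.2
  exact hcon hy1 ((mem_zs hE (hsb y hy2)).1 hy.1)

section Ker

variable {r : ℝ} {ν : Cm q → ℝ}

/-- mean value property -/
theorem mo_log (h : Ker r ν) (hr : 0 < r) {u : Cm q → ℂ} {z : Cm q}
    (hu : ∀ y ∈ ball z (2 * r), AnalyticAt ℂ u y ∧ u y ≠ 0) : mo ν (pp u) z = pp u z := by
  have hpc : ∀ y ∈ ball z (2 * r), ContinuousAt (pp u) y := fun y hy =>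
    (contDiffAt_log (hu y hy).1 (hu y hy).2).continuousAt
  set g : Cm q → ℝ := fun t => ν t * (pp u (z - t) - pp u z) with hg
  have hgc : Continuous g := by
    rw [continuous_iff_continuousAt]
    intro t
    by_cases ht : ‖t‖ < 2 * r
    · have h1 : z - t ∈ ball z (2 * r) := by
        rw [mem_ball, dist_eq_norm]; simpa using ht
      have h2 : ContinuousAt (fun t => pp u (z - t)) t :=
        ContinuousAt.comp (f := fun t => z - t) (g := pp u) (hpc _ h1) (by fun_prop)
      exact h.smooth.continuous.continuousAt.mul (h2.sub continuousAt_const)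
    · have h1 : g =ᶠ[𝓝 t] fun _ => 0 := by
        have h2 : {s : Cm q | r < ‖s‖} ∈ 𝓝 t :=
          (isOpen_lt continuous_const continuous_norm).mem_nhds (by
            simp only [mem_ofPred_eq]; push Not at ht; linarith)
        filter_upwards [h2] with s hs
        simp only [hg, h.supp s (le_of_lt hs), zero_mul]
      exact continuousAt_const.congr h1.symm
  have hgcs : HasCompactSupport g := h.hcs.mul_right
  obtain ⟨B, hB⟩ := hgcs.exists_bound_of_continuous hgc
  -- circle averages of `g` vanish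
  have hcirc : ∀ b ∈ ball (0 : Cm q) (2 * r), Real.circleAverage (fun ζ => g (ζ • b)) 0 1 = 0 := by
    intro b hb
    rw [mem_ball, dist_zero_right] at hb
    have hzb : ∀ ζ ∈ closedBall (0 : ℂ) 1, z - ζ • b ∈ ball z (2 * r) := by
      intro ζ hζ
      rw [mem_closedBall, dist_zero_right] at hζ
      rw [mem_ball, dist_eq_norm]
      have : z - ζ • b - z = -(ζ • b) := by abel
      rw [this, norm_neg, norm_smul]
      calc ‖ζ‖ * ‖b‖ ≤ 1 * ‖b‖ := mul_le_mul_of_nonneg_right hζ (norm_nonneg _)
        _ < 2 * r := by rw [one_mul]; exact hb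
    have h1 : Real.circleAverage (fun ζ => g (ζ • b)) 0 1 =
        Real.circleAverage (fun ζ => ν b * (pp u (z - ζ • b) - pp u z)) 0 1 := by
      refine Real.circleAverage_congr_sphere fun ζ hζ => ?_
      have hζ1 : ‖ζ‖ = 1 := by simpa using hζ
      simp only [hg, h.circ ζ hζ1 b]
    have han : AnalyticOnNhd ℂ (fun ζ : ℂ => u (z - ζ • b)) (closedBall 0 |1|) := by
      intro ζ hζ
      rw [abs_one] at hζ
      exact AnalyticAt.comp (f := fun ζ : ℂ => z - ζ • b) (hu _ (hzb ζ hζ)).1
        (analyticAt_const.sub (analyticAt_id.smul analyticAt_const))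
    have h2 := han.circleAverage_log_norm_of_ne_zero (fun ζ hζ => by
      rw [abs_one] at hζ
      exact (hu _ (hzb ζ hζ)).2)
    simp only [zero_smul, sub_zero] at h2
    have h3 : ∀ y : Cm q, pp u y = 2 * Real.log ‖u y‖ := fun y => by
      rw [pp, Real.log_pow]; norm_num
    have h4 : (fun ζ : ℂ => ν b * (pp u (z - ζ • b) - pp u z)) =
        fun ζ => (2 * ν b) * Real.log ‖u (z - ζ • b)‖ + (-(2 * ν b * Real.log ‖u z‖)) := by
      funext ζ
      rw [h3, h3]; ring
    have hci : CircleIntegrable (fun ζ : ℂ => Real.log ‖u (z - ζ • b)‖) 0 1 := by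
      refine ContinuousOn.circleIntegrable' ?_
      intro ζ hζ
      rw [abs_one] at hζ
      have h5 := han ζ (by rw [abs_one]; exact sphere_subset_closedBall hζ)
      have h6 := (hu _ (hzb ζ (sphere_subset_closedBall hζ))).2
      exact (h5.continuousAt.norm.log (norm_ne_zero_iff.mpr h6)).continuousWithinAt
    have hmul : Real.circleAverage (fun ζ : ℂ => (2 * ν b) * Real.log ‖u (z - ζ • b)‖) 0 1 =
        (2 * ν b) * Real.log ‖u z‖ := by
      have := Real.circleAverage_fun_smul (a := 2 * ν b) (f := fun ζ : ℂ => Real.log ‖u (z - ζ • b)‖)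
        (c := 0) (R := 1)
      simp only [smul_eq_mul] at this
      rw [this, h2]
    rw [h1, h4, Real.circleAverage_fun_add, hmul, Real.circleAverage_const]
    · ring
    · exact hci.const_mul _
    · exact circleIntegrable_const _ _ _
  have hr2 : 0 < 2 * r := by positivity
  have m1 := Vale.Agent.P284.H35.TAN.mean0 hgc.measurable (fun y => by
    rw [← Real.norm_eq_abs]; exact hB y) hr2 0 (fun b hb => (hcirc b hb).symm.le)
  have m2 := Vale.Agent.P284.H35.TAN.mean0 (u := fun t => -g t) hgc.neg.measurable (fun y => by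
    rw [abs_neg, ← Real.norm_eq_abs]; exact hB y) hr2 0 (fun b hb => by
      have : Real.circleAverage (fun ζ => -g (ζ • b)) 0 1 = 0 := by
        have := Real.circleAverage_fun_smul (a := (-1 : ℝ)) (f := fun ζ : ℂ => g (ζ • b))
          (c := 0) (R := 1)
        simp only [smul_eq_mul, neg_mul, one_mul] at this
        rw [this, hcirc b hb, neg_zero]
      exact this.symm.le)
  have hint0 : ∫ t in ball (0 : Cm q) (2 * r), g t = 0 := by
    rw [setAverage_eq, smul_eq_mul] at m1 m2
    rw [integral_neg] at m2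
    have hV : 0 < volume.real (ball (0 : Cm q) (2 * r)) := by
      rw [measureReal_def]
      exact ENNReal.toReal_pos (measure_ball_pos volume _ hr2).ne' measure_ball_lt_top.ne
    have hV' := inv_pos.mpr hV
    nlinarith
  have hint : ∫ t, g t = 0 := by
    rw [← hint0, setIntegral_eq_integral_of_forall_compl_eq_zero]
    intro t ht
    rw [mem_ball, dist_zero_right, not_lt] at ht
    simp only [hg, h.supp t (by linarith), zero_mul]
  -- conclusion
  have e1 : mo ν (pp u) z = ∫ t, ν t * pp u (z - t) := by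
    unfold mo
    rw [← integral_sub_left_eq_self (fun y => ν (z - y) • pp u y) volume z]
    refine integral_congr_ae (Eventually.of_forall fun t => ?_)
    simp only [sub_sub_cancel, smul_eq_mul]
  have hνi : Integrable ν := h.smooth.continuous.integrable_of_hasCompactSupport h.hcs
  have e2 : ∫ t, ν t * pp u (z - t) = ∫ t, (g t + pp u z * ν t) := by
    refine integral_congr_ae (Eventually.of_forall fun t => ?_)
    simp only [hg]; ring
  rw [e1, e2, integral_add (hgc.integrable_of_hasCompactSupport hgcs) (hνi.const_mul _), hint,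
    integral_const_mul, h.one]
  ring

end Ker

end Vale.Agent.P284.H279
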