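import Vale.Agent.P284.H279.TPc

/-!
# P284 (helper279), TP1: the potential
-/

open scoped ContDiff Topology
open Filter Set Metric MeasureTheory

set_option linter.unusedSectionVars false

noncomputable section

namespace Vale.Agent.P284.H279

open Vale.Agent.P272.K Vale.Agent.P284.H359.Moll Vale.Agent.P284.H15.TP3

variable {q : ℕ} {Λ : AddSubgroup (Cm q)} {E : (Cm q → ℂ) → Cm q → Prop}
  {r : ℝ} {ν : Cm q → ℝ}

section general

variable {G : Type*} [NormedAddCommGroup G] [NormedSpace ℝ G]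

theorem mo_congr (h : Ker r ν) {F F' : Cm q → G} {z : Cm q}
    (hF : ∀ᵐ y, y ∈ ball z r → F y = F' y) : mo ν F z = mo ν F' z := by
  unfold mo
  refine integral_congr_ae ?_
  filter_upwards [hF] with y hy
  by_cases hyz : y ∈ ball z r
  · rw [hy hyz]
  · have : r ≤ ‖z - y‖ := by
      rw [mem_ball, dist_eq_norm, not_lt, norm_sub_rev] at hyz
      exact hyz
    rw [h.supp _ this, zero_smul, zero_smul]

theorem mo_add (h : Ker r ν) {F F' : Cm q → G} (hF : LocallyIntegrable F volume)
    (hF' : LocallyIntegrable F' volume) (z : Cm q) :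
    mo ν (fun y => F y + F' y) z = mo ν F z + mo ν F' z := by
  unfold mo
  rw [← integral_add (integrable_mo h.smooth.continuous h.hcs hF z)
    (integrable_mo h.smooth.continuous h.hcs hF' z)]
  simp only [smul_add]

end general

/-! ### `cHess` commutes with the averages -/

theorem mo_fd (h : Ker r ν) {g : Cm q → ℂ} (hg : ContDiff ℝ 1 g) (hc : HasCompactSupport g)
    (z e : Cm q) : fderiv ℝ (mo ν g) z e = mo ν (fun y => fderiv ℝ g y e) z :=
  fderiv_mo' h.smooth.continuous.locallyIntegrable hg hc z e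

theorem cont_fd {g : Cm q → ℂ} (hg : ContDiff ℝ 1 g) (e : Cm q) :
    Continuous fun y => fderiv ℝ g y e :=
  (hg.continuous_fderiv (by simp)).clm_apply continuous_const

theorem mo_lin (h : Ker r ν) {f g : Cm q → ℂ} (hf : Continuous f) (hg : Continuous g) (a b : ℂ)
    (z : Cm q) : mo ν (fun y => a * f y + b * g y) z = a * mo ν f z + b * mo ν g z := by
  have hf' : Continuous fun y => a * f y := continuous_const.mul hf
  have hg' : Continuous fun y => b * g y := continuous_const.mul hg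
  rw [mo_add h hf'.locallyIntegrable hg'.locallyIntegrable]
  unfold mo
  rw [← integral_const_mul, ← integral_const_mul]
  congr 1 <;>
  · refine integral_congr_ae (Eventually.of_forall fun y => ?_)
    simp only [Complex.real_smul]
    ring

theorem mo_dz (h : Ker r ν) {g : Cm q → ℂ} (hg : ContDiff ℝ 1 g) (hc : HasCompactSupport g)
    (j : Fin q) (z : Cm q) : dz j (mo ν g) z = mo ν (fun y => dz j g y) z := by
  have h1 : (fun y => dz j g y) = fun y => (1 / 2 : ℂ) * fderiv ℝ g y (Pi.single j 1) +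
      (-Complex.I / 2) * fderiv ℝ g y (Pi.single j Complex.I) := by
    funext y; simp only [dz]; ring
  rw [h1, mo_lin h (cont_fd hg _) (cont_fd hg _), ← mo_fd h hg hc, ← mo_fd h hg hc, dz]
  ring

theorem mo_dzb (h : Ker r ν) {g : Cm q → ℂ} (hg : ContDiff ℝ 1 g) (hc : HasCompactSupport g)
    (j : Fin q) (z : Cm q) : dzb j (mo ν g) z = mo ν (fun y => dzb j g y) z := by
  have h1 : (fun y => dzb j g y) = fun y => (1 / 2 : ℂ) * fderiv ℝ g y (Pi.single j 1) +
      (Complex.I / 2) * fderiv ℝ g y (Pi.single j Complex.I) := by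
    funext y; simp only [dzb]; ring
  rw [h1, mo_lin h (cont_fd hg _) (cont_fd hg _), ← mo_fd h hg hc, ← mo_fd h hg hc, dzb]
  ring

theorem cd_dzb {g : Cm q → ℂ} (hg : ContDiff ℝ ∞ g) (j : Fin q) :
    ContDiff ℝ ∞ fun y => dzb j g y := by
  have h1 : ContDiff ℝ ∞ (fderiv ℝ g) := hg.fderiv_right (by simp)
  have h2 : ∀ e : Cm q, ContDiff ℝ ∞ fun y => fderiv ℝ g y e := fun e =>
    h1.clm_apply contDiff_const
  exact ((h2 _).add (contDiff_const.mul (h2 _))).div_const _

theorem cd_dz {g : Cm q → ℂ} (hg : ContDiff ℝ ∞ g) (j : Fin q) :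
    ContDiff ℝ ∞ fun y => dz j g y := by
  have h1 : ContDiff ℝ ∞ (fderiv ℝ g) := hg.fderiv_right (by simp)
  have h2 : ∀ e : Cm q, ContDiff ℝ ∞ fun y => fderiv ℝ g y e := fun e =>
    h1.clm_apply contDiff_const
  exact ((h2 _).sub (contDiff_const.mul (h2 _))).div_const _

theorem hc_dzb {g : Cm q → ℂ} (hc : HasCompactSupport g) (j : Fin q) :
    HasCompactSupport fun y => dzb j g y := by
  have h2 : ∀ e : Cm q, HasCompactSupport fun y => fderiv ℝ g y e := fun e =>
    (hc.fderiv ℝ).comp_left (g := fun L : Cm q →L[ℝ] ℂ => L e) (by simp)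
  have := (h2 (Pi.single j 1)).add ((h2 (Pi.single j Complex.I)).mul_left (f := fun _ => Complex.I))
  exact this.comp_left (g := fun x : ℂ => x / 2) (by simp)

theorem mo_ofReal (F : Cm q → ℝ) (z : Cm q) :
    ((mo ν F z : ℝ) : ℂ) = mo ν (fun y => (F y : ℂ)) z := by
  unfold mo
  rw [← integral_complex_ofReal]
  refine integral_congr_ae (Eventually.of_forall fun y => ?_)
  simp

theorem mo_cHess_cs (h : Ker r ν) {g : Cm q → ℝ} (hg : ContDiff ℝ ∞ g) (hc : HasCompactSupport g)
    (z : Cm q) (j k : Fin q) : cHess (mo ν g) z j k = mo ν (fun y => cHess g y j k) z := by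
  have hgC : ContDiff ℝ ∞ fun y => (g y : ℂ) := Complex.ofRealCLM.contDiff.comp hg
  have hcC : HasCompactSupport fun y => (g y : ℂ) := hc.comp_left Complex.ofReal_zero
  have e1 : (fun y => ((mo ν g y : ℝ) : ℂ)) = mo ν (fun y => (g y : ℂ)) := by
    funext y; exact mo_ofReal g y
  have e2 : dzb k (mo ν (fun y => (g y : ℂ))) = mo ν (fun y => dzb k (fun y => (g y : ℂ)) y) := by
    funext y; exact mo_dzb h (hgC.of_le (by simp)) hcC k y
  change dz j (dzb k fun y => ((mo ν g y : ℝ) : ℂ)) z = _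
  rw [e1, e2, mo_dz h ((cd_dzb hgC k).of_le (by simp)) (hc_dzb hcC k)]
  rfl

theorem mo_cHess (h : Ker r ν) (hr : 0 < r) {g : Cm q → ℝ} (hg : ContDiff ℝ ∞ g)
    (z : Cm q) (j k : Fin q) : cHess (mo ν g) z j k = mo ν (fun y => cHess g y j k) z := by
  set χ : ContDiffBump z := ⟨2 * r, 3 * r, by positivity, by linarith⟩ with hχ
  have hgχ : ContDiff ℝ ∞ fun y => χ y * g y := χ.contDiff.mul hg
  have hcχ : HasCompactSupport fun y => χ y * g y := χ.hasCompactSupport.mul_right
  have h1 : ∀ y ∈ ball z (2 * r), χ y * g y = g y := by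
    intro y hy
    rw [χ.one_of_mem_closedBall (ball_subset_closedBall hy), one_mul]
  have h2 := mo_cHess_cs h hgχ hcχ z j k
  have h3 : mo ν (fun y => χ y * g y) =ᶠ[𝓝 z] mo ν g := by
    filter_upwards [ball_mem_nhds z hr] with w hw
    refine mo_congr h (Eventually.of_forall fun y hy => h1 y ?_)
    rw [mem_ball] at hw hy ⊢
    have := dist_triangle y w z
    linarith
  have h4 : mo ν (fun y => cHess (fun y => χ y * g y) y j k) z = mo ν (fun y => cHess g y j k) z := by
    refine mo_congr h (Eventually.of_forall fun y hy => ?_)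
    have h5 : (fun y => χ y * g y) =ᶠ[𝓝 y] g := by
      have : ball z (2 * r) ∈ 𝓝 y := isOpen_ball.mem_nhds (by
        rw [mem_ball] at hy ⊢; linarith)
      filter_upwards [this] with w hw
      exact h1 w hw
    rw [cHess_congr h5]
  rw [← h4, ← h2, cHess_congr h3]

/-! ### The function `f₁` -/

/-- comparison of two local equations -/
theorem cmp (h : Ker r ν) (hr : 0 < r) (hE : PerDiv Λ E) {θ θ' u : Cm q → ℂ} {z : Cm q}
    (hθ : ∀ y ∈ ball z (2 * r), E θ y) (hθ' : ∀ y ∈ ball z (2 * r), E θ' y)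
    (hu : ∀ y ∈ ball z (2 * r), AnalyticAt ℂ u y ∧ u y ≠ 0)
    (he : ∀ y ∈ ball z (2 * r), θ y = u y * θ' y) :
    mo ν (pp θ) z = mo ν (pp θ') z + pp u z := by
  have hsub : closedBall z r ⊆ ball z (2 * r) := closedBall_subset_ball (by linarith)
  have hsub' : ball z r ⊆ closedBall z r := ball_subset_closedBall
  have hK : IsCompact (closedBall z r) := isCompact_closedBall z r
  have i1 : Integrable ((closedBall z r).indicator (pp θ')) :=
    (integrable_indicator_iff measurableSet_closedBall).2 (pp_int hE hK fun y hy => hθ' y (hsub hy))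
  have i2 : Integrable ((closedBall z r).indicator (pp u)) := by
    refine (integrable_indicator_iff measurableSet_closedBall).2 ?_
    refine ContinuousOn.integrableOn_compact hK fun y hy => ?_
    exact (contDiffAt_log (hu y (hsub hy)).1 (hu y (hsub hy)).2).continuousAt.continuousWithinAt
  have h1 : mo ν (pp θ) z = mo ν (fun y => (closedBall z r).indicator (pp θ') y +
      (closedBall z r).indicator (pp u) y) z := by
    refine mo_congr h ?_
    have hz := zs_null hE
    rw [← compl_mem_ae_iff] at hz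
    filter_upwards [hz] with y hy hyz
    rw [indicator_of_mem (hsub' hyz), indicator_of_mem (hsub' hyz)]
    have hy2 := hsub (hsub' hyz)
    have h0 : θ' y ≠ 0 := fun h0 => hy ((mem_zs hE (hθ' y hy2)).2 h0)
    simp only [pp]
    rw [he y hy2, norm_mul, mul_pow, Real.log_mul (by
      have := (hu y hy2).2; positivity) (by positivity)]
    ring
  rw [h1, mo_add h i1.locallyIntegrable i2.locallyIntegrable]
  congr 1
  · refine mo_congr h (Eventually.of_forall fun y hy => ?_)
    rw [indicator_of_mem (hsub' hy)]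
  · rw [← mo_log h hr hu]
    refine mo_congr h (Eventually.of_forall fun y hy => ?_)
    rw [indicator_of_mem (hsub' hy)]

/-- `f₁ = (log |θ|²) * ν - log |θ|²` -/
def f1 (E : (Cm q → ℂ) → Cm q → Prop) (ν : Cm q → ℝ) (ϑ : Cm q → Cm q → ℂ) (z : Cm q) : ℝ :=
  open Classical in if z ∈ zs E then 0 else mo ν (pp (ϑ z)) z - pp (ϑ z) z

/-- global data -/
structure DT (Λ : AddSubgroup (Cm q)) (E : (Cm q → ℂ) → Cm q → Prop) (r : ℝ) (ν : Cm q → ℝ)
    (ϑ : Cm q → Cm q → ℂ) : Prop where
  hE : PerDiv Λ E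
  hΛ : Coco Λ
  hr : 0 < r
  h : Ker r ν
  th : ∀ c, ∀ z ∈ ball c (8 * r), E (ϑ c) z

variable {ϑ : Cm q → Cm q → ℂ}

theorem f1_eq (D : DT Λ E r ν ϑ) {θ : Cm q → ℂ} {z : Cm q} (hz : z ∉ zs E)
    (hθ : ∀ y ∈ ball z (2 * r), E θ y) : f1 E ν ϑ z = mo ν (pp θ) z - pp θ z := by
  have hr := D.hr
  have h' : ∀ y ∈ ball z (2 * r), E (ϑ z) y := fun y hy => D.th z y (ball_subset_ball (by linarith) hy)
  obtain ⟨u, hu, he⟩ := exists_unit D.hE isOpen_ball hθ h'
  have hz2 : z ∈ ball z (2 * r) := mem_ball_self (by positivity)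
  have h0 : ϑ z z ≠ 0 := fun h0 => hz ((mem_zs D.hE (h' z hz2)).2 h0)
  rw [f1, if_neg hz, cmp D.h hr D.hE hθ h' hu he]
  have : pp θ z = pp u z + pp (ϑ z) z := by
    simp only [pp]
    rw [he z hz2, norm_mul, mul_pow, Real.log_mul (by
      have := (hu z hz2).2; positivity) (by positivity)]
  rw [this]
  ring

/-- translate of a local equation -/
theorem th_shift (hE : PerDiv Λ E) {θ : Cm q → ℂ} {c : Cm q} {R : ℝ} (hθ : ∀ y ∈ ball c R, E θ y)
    {l : Cm q} (hl : l ∈ Λ) : ∀ y ∈ ball (c + l) R, E (fun z => θ (z - l)) y := by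
  intro y hy
  have h1 : y - l ∈ ball c R := by
    rw [mem_ball, dist_eq_norm] at hy ⊢
    have : y - l - c = y - (c + l) := by abel
    rw [this]; exact hy
  have := hE.per _ _ (hθ _ h1) l hl
  rwa [sub_add_cancel] at this

theorem zs_per_iff (hE : PerDiv Λ E) {l : Cm q} (hl : l ∈ Λ) (z : Cm q) :
    z + l ∈ zs E ↔ z ∈ zs E := by
  constructor
  · intro h
    have := zs_per hE (Λ.neg_mem hl) h
    rwa [add_neg_cancel_right] at this
  · exact zs_per hE hl

theorem f1_per (D : DT Λ E r ν ϑ) {l : Cm q} (hl : l ∈ Λ) (z : Cm q) :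
    f1 E ν ϑ (z + l) = f1 E ν ϑ z := by
  by_cases hz : z ∈ zs E
  · have := zs_per D.hE hl hz
    rw [f1, f1, if_pos hz, if_pos this]
  · have hz' : z + l ∉ zs E := fun h => hz ((zs_per_iff D.hE hl z).1 h)
    have hr := D.hr
    have h' : ∀ y ∈ ball z (2 * r), E (ϑ z) y := fun y hy =>
      D.th z y (ball_subset_ball (by linarith) hy)
    rw [f1_eq D hz' (th_shift D.hE h' hl), f1_eq D hz h', mo_shift]
    have e : (fun y => pp (fun w => ϑ z (w - l)) (y + l)) = pp (ϑ z) := by
      funext y; simp only [pp, add_sub_cancel_right]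
    rw [e]
    simp only [pp, add_sub_cancel_right]

/-- the truncated `log |ϑ c|²` -/
def PP (r : ℝ) (ϑ : Cm q → Cm q → ℂ) (c : Cm q) : Cm q → ℝ :=
  (closedBall c (7 * r)).indicator (pp (ϑ c))

theorem PP_int (D : DT Λ E r ν ϑ) (c : Cm q) : Integrable (PP r ϑ c) := by
  refine (integrable_indicator_iff measurableSet_closedBall).2
    (pp_int D.hE (isCompact_closedBall c _) fun y hy => D.th c y ?_)
  have := D.hr
  exact closedBall_subset_ball (by linarith) hy

/-- its average: a smooth function -/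
def MP (r : ℝ) (ν : Cm q → ℝ) (ϑ : Cm q → Cm q → ℂ) (c : Cm q) : Cm q → ℝ := mo ν (PP r ϑ c)

theorem MP_smooth (D : DT Λ E r ν ϑ) (c : Cm q) : ContDiff ℝ ∞ (MP r ν ϑ c) :=
  contDiff_mo D.h.smooth D.h.hcs (PP_int D c).locallyIntegrable

theorem MP_eq (D : DT Λ E r ν ϑ) {c z : Cm q} (hz : z ∈ ball c (6 * r)) :
    MP r ν ϑ c z = mo ν (pp (ϑ c)) z := by
  refine mo_congr D.h (Eventually.of_forall fun y hy => ?_)
  rw [PP, indicator_of_mem]
  rw [mem_ball] at hz hy
  rw [mem_closedBall]
  have := dist_triangle y z c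
  linarith

theorem f1_loc (D : DT Λ E r ν ϑ) {c z : Cm q} (hz : z ∈ ball c (6 * r)) (h0 : z ∉ zs E) :
    f1 E ν ϑ z = MP r ν ϑ c z - PP r ϑ c z := by
  rw [MP_eq D hz, f1_eq D h0 (θ := ϑ c) (fun y hy => D.th c y ?_), PP, indicator_of_mem]
  · have := D.hr
    rw [mem_ball] at hz
    rw [mem_closedBall]
    linarith
  · rw [mem_ball] at hz hy ⊢
    have := dist_triangle y z c
    linarith

theorem off_ae (hE : PerDiv Λ E) : ∀ᵐ y : Cm q, y ∉ zs E := by
  have hz := zs_null hE
  rw [← compl_mem_ae_iff] at hz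
  exact hz

theorem f1_li (D : DT Λ E r ν ϑ) : LocallyIntegrable (f1 E ν ϑ) volume := by
  intro c
  have hr := D.hr
  refine ⟨ball c (6 * r), ball_mem_nhds c (by positivity), ?_⟩
  have h1 : IntegrableOn (fun z => MP r ν ϑ c z - PP r ϑ c z) (ball c (6 * r)) := by
    refine Integrable.sub ?_ (PP_int D c).integrableOn
    exact ((MP_smooth D c).continuous.continuousOn.integrableOn_compact
      (isCompact_closedBall c (6 * r))).mono_set ball_subset_closedBall
  refine h1.congr ?_
  filter_upwards [ae_restrict_of_ae (off_ae D.hE), ae_restrict_mem measurableSet_ball] with z h0 hz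
  exact (f1_loc D hz h0).symm

/-- `F₁ = f₁ * ν` -/
theorem F1_eq (D : DT Λ E r ν ϑ) {c z : Cm q} (hz : z ∈ ball c (5 * r)) :
    mo ν (f1 E ν ϑ) z = mo ν (MP r ν ϑ c) z - MP r ν ϑ c z := by
  have h1 : mo ν (f1 E ν ϑ) z = mo ν (fun y => MP r ν ϑ c y - PP r ϑ c y) z := by
    refine mo_congr D.h ?_
    filter_upwards [off_ae D.hE] with y h0 hy
    refine f1_loc D ?_ h0
    rw [mem_ball] at hz hy ⊢
    have := dist_triangle y z c
    linarith
  rw [h1, mo_sub D.h.smooth.continuous D.h.hcs (MP_smooth D c).continuous.locallyIntegrable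
    (PP_int D c).locallyIntegrable]
  rfl

end Vale.Agent.P284.H279
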